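import Crest.Agent.R174.BuildA

/-! Row 174: the positioned word of a product of conjugates. -/

set_option autoImplicit false

namespace Crest.Agent.R174

open Monoid

/-- The slots of the relators. -/
abbrev SlT {m : ℕ} (n : Fin m → ℕ) : Type := Σ r : Fin m, Fin (n r + 1)

section aux
variable {m N : ℕ} {Sl St : Type*}

/-- The face that owns a position. -/
def own (rel : Sl → Fin m) (sl : Sl → Fin m × Bool) (ow : St → (Fin m × Bool) × Fin N) :
    HH Sl St N ⊕ HH Sl St N → (Fin m × Bool) × Fin N :=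
  Sum.elim (Sum.elim (fun a => ((rel a.1, (sl a.1).2), a.2)) ow)
    (Sum.elim (fun a => ((rel a.1, !(sl a.1).2), a.2)) ow)

theorem own_dart (rel : Sl → Fin m) (sl : Sl → Fin m × Bool) (ow : St → (Fin m × Bool) × Fin N)
    (s : Sl) (P : Fin N) (b : Bool) : own rel sl ow (dart sl s P b) = ((rel s, b), P) := by
  unfold dart
  split_ifs with h
  · simp [own, h]
  · have : (!(sl s).2) = b := by
      revert h
      cases (sl s).2 <;> cases b <;> simp
    simp [own, this]

/-- The position of a stem letter. -/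
def stp (Sl : Type*) (N : ℕ) (t : St) (b : Bool) : HH Sl St N ⊕ HH Sl St N :=
  cond b (Sum.inl (Sum.inr t)) (Sum.inr (Sum.inr t))

theorem own_stp (rel : Sl → Fin m) (sl : Sl → Fin m × Bool) (ow : St → (Fin m × Bool) × Fin N)
    (t : St) (b : Bool) : own rel sl ow (stp Sl N t b) = ow t := by
  cases b <;> rfl

theorem letH_stp (sl : Sl → Fin m × Bool) (stl : St → Fin m) (t : St) (b : Bool) :
    letH sl stl (stp Sl N t b) = (stl t, b) := by
  cases b <;> rfl

theorem stp_inj {t t' : St} {b b' : Bool} (h : stp Sl N t b = stp Sl N t' b') :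
    t = t' ∧ b = b' := by
  cases b <;> cases b' <;> simp_all [stp]

theorem stp_ne_dart (sl : Sl → Fin m × Bool) (t : St) (b : Bool) (s : Sl) (P : Fin N) (c : Bool) :
    stp Sl N t b ≠ dart sl s P c := by
  unfold dart
  split_ifs <;> cases b <;> simp [stp]

theorem dart_inj (sl : Sl → Fin m × Bool) {s s' : Sl} {P : Fin N} {b : Bool}
    (h : (dart sl s P b : HH Sl St N ⊕ HH Sl St N) = dart sl s' P b) : s = s' := by
  unfold dart at h
  split_ifs at h <;> simp_all

theorem letH_dart_true (sl : Sl → Fin m × Bool) (stl : St → Fin m) (s : Sl) (P : Fin N) :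
    letH sl stl (dart sl s P true) = sl s := by
  unfold dart
  split_ifs with h
  · exact Prod.ext rfl h.symm
  · exact Prod.ext rfl (by simpa [letH] using h)

theorem letH_dart_false (sl : Sl → Fin m × Bool) (stl : St → Fin m) (s : Sl) (P : Fin N) :
    ((letH sl stl (dart sl s P false)).1, !(letH sl stl (dart sl s P false)).2) = sl s := by
  unfold dart
  split_ifs with h
  · exact Prod.ext rfl (by simp [letH, h])
  · exact Prod.ext rfl (by simpa [letH] using h)

theorem dart_or_stp (sl : Sl → Fin m × Bool) (p : HH Sl St N ⊕ HH Sl St N) :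
    (∃ s P b, p = dart sl s P b) ∨ ∃ t b, p = stp Sl N t b := by
  rcases p with (⟨s, P⟩ | t) | (⟨s, P⟩ | t)
  · exact Or.inl ⟨s, P, (sl s).2, by simp [dart]⟩
  · exact Or.inr ⟨t, true, rfl⟩
  · exact Or.inl ⟨s, P, !(sl s).2, by simp [dart]⟩
  · exact Or.inr ⟨t, false, rfl⟩

end aux

set_option synthInstance.maxSize 1024 in
/-- Proof.  `St = Σ f, Fin (hw f).length`, `stl` = the letter index.  With `S p = tr none (some p) 1`:
* face: for injective `p : Fin (k+1) → ι`, `W⁺ = (ofFn fun i => [inl (x i), inr (p i)]).flatten`;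
  `X = S (p last) * cW W⁺` fixes `none` (label `1`), sends `p i` to `p (i - 1)` (cyclically, use
  `(finRotate _)⁻¹`) with label `lam (x i)`, and is supported on the range of `p` (induction on the
  list, or on `k`).  `W⁻` = the reversed word with inverted coefficients has `cW W⁻ = (cW W⁺)⁻¹`,
  so it is near `X⁻¹`.  For the face `((r, b), P)` take `p i = dart sl ⟨r, i⟩ P b`
  (`letH (dart s P b)` is `sl s` for `b = true` and its inverse for `b = false`).
* stem: `wrap [] W = W`, `wrap ((y, p, q) :: l) W = inl y :: inr p :: wrap l W ++ [inr q, inl y⁻¹]`;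
  if `cW W` is `k`-near `Y` and `Y` is supported away from `none, p, q`, then
  `S p * Y * S q = Y * S p * S q` is `1`-near `Y * tr p q 1`, and conjugating by the diagonal at
  `none` changes nothing.  For the stem letter `t` with sign `b` the left position is `inl (inr t)`
  if `b` and `inr (inr t)` otherwise; the right position is the other one.
* `W = fl.flatMap W_f`; `Near.mul` and `prod_apply` (supports of different faces are disjoint). -/
theorem build {G Γ : Type*} [Group G] [Group Γ] (lam : G →* Γ) {m N : ℕ} (n : Fin m → ℕ)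
    (x : (SlT n) → G) (sl : (SlT n) → Fin m × Bool)
    (fl : List ((Fin m × Bool) × Fin N)) (hn : fl.Nodup) (hall : ∀ f, f ∈ fl)
    (hw : (Fin m × Bool) × Fin N → List (G × (Fin m × Bool))) :
    ∃ (St : Type) (_ : Fintype St) (_ : DecidableEq St) (stl : St → Fin m)
      (prv : Equiv.Perm (SlT n))
      (W : List (G ⊕ (HH (SlT n) St N ⊕ HH (SlT n) St N)))
      (Φ : Mon (Option (HH (SlT n) St N ⊕ HH (SlT n) St N)) Γ),
      (∀ s, (prv s).1 = s.1) ∧ (pos W).Nodup ∧ (∀ p, p ∈ pos W) ∧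
      val (letH sl stl) W = (fl.map fun f => hv (hw f) *
        sg f.1.2 (hv (List.ofFn fun i => (x ⟨f.1.1, i⟩, sl ⟨f.1.1, i⟩))) * (hv (hw f))⁻¹).prod ∧
      IsFace lam sl x prv Φ ∧ Near (2 * m * N + Fintype.card St) (cW lam W) Φ := by
  classical
  let St : Type := Σ f : (Fin m × Bool) × Fin N, Fin (hw f).length
  let stl : St → Fin m := fun t => ((hw t.1).get t.2).2.1
  let ι : Type := HH (SlT n) St N ⊕ HH (SlT n) St N
  let prv : Equiv.Perm (SlT n) := Equiv.Perm.sigmaCongrRight fun r => (finRotate (n r + 1))⁻¹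
  have hprv : ∀ r i, prv ⟨r, i⟩ = ⟨r, (finRotate (n r + 1))⁻¹ i⟩ := fun _ _ => rfl
  let ow : ι → (Fin m × Bool) × Fin N := own Sigma.fst sl Sigma.fst
  let fc : (Fin m × Bool) × Fin N → List (G × ι) := fun f =>
    List.ofFn fun i : Fin (n f.1.1 + 1) => (x ⟨f.1.1, i⟩, dart sl ⟨f.1.1, i⟩ f.2 f.1.2)
  let W0 : (Fin m × Bool) × Fin N → List (G ⊕ ι) := fun f =>
    cond f.1.2 (faceP (fc f)) (faceN (fc f))
  let sm : (Fin m × Bool) × Fin N → List (G × ι × ι) := fun f =>
    List.ofFn fun i : Fin (hw f).length => (((hw f).get i).1,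
      stp (SlT n) N (⟨f, i⟩ : St) ((hw f).get i).2.2,
      stp (SlT n) N (⟨f, i⟩ : St) (!((hw f).get i).2.2))
  let W : (Fin m × Bool) × Fin N → List (G ⊕ ι) := fun f => wrap (sm f) (W0 f)
  have hinj : ∀ f : (Fin m × Bool) × Fin N, Function.Injective
      fun i : Fin (n f.1.1 + 1) => (dart sl ⟨f.1.1, i⟩ f.2 f.1.2 : ι) := by
    intro f i j h
    simpa using dart_inj sl h
  have hpos0 : ∀ f, (pos (W0 f)).Perm
      (List.ofFn fun i : Fin (n f.1.1 + 1) => (dart sl ⟨f.1.1, i⟩ f.2 f.1.2 : ι)) := by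
    rintro ⟨⟨r, b⟩, P⟩
    cases b
    · simp only [W0, cond_false, pos_faceN, fc, List.map_ofFn]
      exact List.reverse_perm _
    · simp only [W0, cond_true, pos_faceP, fc, List.map_ofFn]
      exact List.Perm.refl _
  have hsmem : ∀ f p, p ∈ ((sm f).flatMap fun a => [a.2.1, a.2.2]) ↔
      ∃ i b, p = stp (SlT n) N (⟨f, i⟩ : St) b := by
    intro f p
    simp only [sm, List.mem_flatMap, List.mem_ofFn, List.mem_cons, List.not_mem_nil, or_false]
    constructor
    · rintro ⟨_, ⟨i, rfl⟩, h | h⟩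
      · exact ⟨i, _, h⟩
      · exact ⟨i, _, h⟩
    · rintro ⟨i, b, rfl⟩
      refine ⟨_, ⟨i, rfl⟩, ?_⟩
      by_cases h : b = ((hw f).get i).2.2
      · exact Or.inl (by rw [h])
      · exact Or.inr (by rw [Bool.eq_not_of_ne h])
  have hsnd : ∀ f, ((sm f).flatMap fun a => [a.2.1, a.2.2]).Nodup := by
    intro f
    rw [List.nodup_flatMap]
    constructor
    · intro a ha
      obtain ⟨i, rfl⟩ := List.mem_ofFn.1 ha
      simp only [List.nodup_cons, List.mem_singleton, List.not_mem_nil, not_false_eq_true,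
        List.nodup_nil, and_true]
      intro h
      simpa using (stp_inj h).2
    · rw [List.pairwise_ofFn]
      intro i j hij
      simp only [Function.onFun, List.disjoint_left, List.mem_cons, List.not_mem_nil, or_false]
      have : ∀ b c, stp (SlT n) N (⟨f, i⟩ : St) b ≠ stp (SlT n) N (⟨f, j⟩ : St) c := by
        intro b c h
        have := (stp_inj h).1
        simp only [St, Sigma.mk.injEq, heq_eq_eq, true_and] at this
        exact hij.ne this
      rintro _ (rfl | rfl) (h | h) <;> exact this _ _ h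
  have hmem : ∀ f p, p ∈ pos (W f) ↔ (∃ i b, p = stp (SlT n) N (⟨f, i⟩ : St) b) ∨
      ∃ i : Fin (n f.1.1 + 1), dart sl ⟨f.1.1, i⟩ f.2 f.1.2 = p := by
    intro f p
    rw [(pos_wrap _ _).mem_iff, List.mem_append, hsmem, (hpos0 f).mem_iff, List.mem_ofFn]
  have hown : ∀ f p, p ∈ pos (W f) → ow p = f := by
    intro f p hp
    rcases (hmem f p).1 hp with ⟨i, b, rfl⟩ | ⟨i, rfl⟩
    · exact own_stp _ _ _ _ _
    · exact own_dart _ _ _ _ _ _
  have hY : ∀ f : (Fin m × Bool) × Fin N, ∃ Y : Mon (Option ι) Γ,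
      Near (1 + (hw f).length) (cW lam (W f)) Y ∧ Supp Y {o | ∃ p, o = some p ∧ ow p = f} ∧
      (∀ i, f.1.2 = true → Y.perm (some (dart sl ⟨f.1.1, i⟩ f.2 true)) =
          some (dart sl (prv ⟨f.1.1, i⟩) f.2 true) ∧
        Y.lab (some (dart sl ⟨f.1.1, i⟩ f.2 true)) = lam (x ⟨f.1.1, i⟩)) ∧
      (∀ i, f.1.2 = false → Y.perm (some (dart sl (prv ⟨f.1.1, i⟩) f.2 false)) =
          some (dart sl ⟨f.1.1, i⟩ f.2 false) ∧
        Y.lab (some (dart sl (prv ⟨f.1.1, i⟩) f.2 false)) = (lam (x ⟨f.1.1, i⟩))⁻¹) ∧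
      ∀ i b, Y.perm (some (stp (SlT n) N (⟨f, i⟩ : St) b)) =
          some (stp (SlT n) N (⟨f, i⟩ : St) (!b)) ∧
        Y.lab (some (stp (SlT n) N (⟨f, i⟩ : St) b)) = 1 := by
    intro f
    obtain ⟨X, hX1, hX2, hX3, hX4⟩ := exists_face lam (n f.1.1) (fun i => x ⟨f.1.1, i⟩) _ (hinj f)
    have hX5 : Near 1 (cW lam (W0 f)) (sg f.1.2 X) ∧
        Supp (sg f.1.2 X) (Set.range fun i => some (dart sl ⟨f.1.1, i⟩ f.2 f.1.2 : ι)) := by
      obtain ⟨⟨r, b⟩, P⟩ := f
      cases b
      · exact ⟨hX2, hX3.inv⟩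
      · exact ⟨hX1, hX3⟩
    obtain ⟨Y, hY1, hY2, hY3, hY4⟩ := exists_wrap lam (W0 f) 1 _ _ hX5.1 hX5.2 (by simp)
      (sm f) (hsnd f) (by
        intro a ha
        obtain ⟨i, rfl⟩ := List.mem_ofFn.1 ha
        constructor <;> rintro ⟨j, hj⟩ <;>
          exact stp_ne_dart sl _ _ _ _ _ (Option.some.inj hj).symm)
    rw [show (sm f).length = (hw f).length from List.length_ofFn] at hY1
    refine ⟨Y, hY1, hY2.mono ?_, fun i hb => ?_, fun i hb => ?_,
      fun i b => ?_⟩
    · rintro _ (⟨i, rfl⟩ | ⟨a, ha, h⟩)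
      · exact ⟨_, rfl, own_dart _ _ _ _ _ _⟩
      · obtain ⟨i, rfl⟩ := List.mem_ofFn.1 ha
        rcases h with rfl | rfl <;> exact ⟨_, rfl, own_stp _ _ _ _ _⟩
    · obtain ⟨⟨r, b⟩, P⟩ := f
      obtain rfl : b = true := hb
      obtain ⟨e1, e2⟩ := hY3 _ ⟨i, rfl⟩
      exact ⟨e1.trans (hX4 i).1, e2.trans (hX4 i).2⟩
    · obtain ⟨⟨r, b⟩, P⟩ := f
      obtain rfl : b = false := hb
      obtain ⟨e1, e2⟩ := hY3 _ ⟨(finRotate (n r + 1))⁻¹ i, rfl⟩
      have e3 : X.perm⁻¹ (some (dart sl ⟨r, (finRotate (n r + 1))⁻¹ i⟩ P false)) =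
          some (dart sl ⟨r, i⟩ P false) := Equiv.Perm.inv_eq_iff_eq.2 (hX4 i).1.symm
      refine ⟨e1.trans e3, e2.trans ?_⟩
      change (X.lab (X.perm⁻¹ _))⁻¹ = _
      rw [e3, (hX4 i).2]
    · obtain ⟨e1, e2, e3, e4⟩ := hY4 _ (List.mem_ofFn.2 ⟨i, rfl⟩)
      by_cases h : b = ((hw f).get i).2.2
      · subst h
        exact ⟨e1, e2⟩
      · rw [Bool.eq_not_of_ne h, Bool.not_not]
        exact ⟨e3, e4⟩
  choose Y hY1 hY2 hY3 hY4 hY5 using hY
  obtain ⟨hP1, hP2⟩ := prod_apply fl hn Y _ hY2 (by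
    intro f f' hff
    rw [Set.disjoint_left]
    rintro _ ⟨p, rfl, h⟩ ⟨q, hq, h'⟩
    obtain rfl := Option.some.inj hq
    exact hff (h.symm.trans h'))
  have hP : ∀ p : ι, (fl.map Y).prod.perm (some p) = (Y (ow p)).perm (some p) ∧
      (fl.map Y).prod.lab (some p) = (Y (ow p)).lab (some p) :=
    fun p => hP1 _ (hall _) _ ⟨p, rfl, rfl⟩
  refine ⟨St, inferInstance, inferInstance, stl, prv, fl.flatMap W, (fl.map Y).prod,
    fun s => rfl, ?_, fun p => ?_, ?_, ⟨?_, ?_, ?_, ?_⟩, ?_⟩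
  · rw [pos_flatMap, List.nodup_flatMap]
    refine ⟨fun f _ => ?_, hn.imp fun {f f'} hff => ?_⟩
    · rw [(pos_wrap _ _).nodup_iff, List.nodup_append]
      refine ⟨hsnd f, (hpos0 f).nodup_iff.2 (List.nodup_ofFn.2 (hinj f)), fun a ha b hb => ?_⟩
      obtain ⟨i, c, rfl⟩ := (hsmem f a).1 ha
      obtain ⟨j, rfl⟩ := List.mem_ofFn.1 ((hpos0 f).mem_iff.1 hb)
      exact stp_ne_dart sl _ _ _ _ _
    · exact fun p hp hp' => hff ((hown _ _ hp).symm.trans (hown _ _ hp'))
  · rw [pos_flatMap, List.mem_flatMap]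
    rcases dart_or_stp sl p with ⟨⟨r, i⟩, P, b, rfl⟩ | ⟨⟨f, i⟩, b, rfl⟩
    · exact ⟨((r, b), P), hall _, (hmem _ _).2 (Or.inr ⟨i, rfl⟩)⟩
    · exact ⟨f, hall _, (hmem _ _).2 (Or.inl ⟨i, b, rfl⟩)⟩
  · rw [val_flatMap]
    congr 1
    refine List.map_congr_left fun f _ => ?_
    have e1 : ((sm f).map fun a => (a.1, letH sl stl a.2.1)) = hw f := by
      simp only [sm, List.map_ofFn, Function.comp_def, letH_stp, stl]
      exact List.ofFn_get _
    have e2 : val (letH sl stl) (W0 f) =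
        sg f.1.2 (hv (List.ofFn fun i => (x ⟨f.1.1, i⟩, sl ⟨f.1.1, i⟩))) := by
      obtain ⟨⟨r, b⟩, P⟩ := f
      cases b
      · simp only [W0, cond_false, val_faceN, fc, List.map_ofFn, Function.comp_def,
          letH_dart_false, sg]
      · simp only [W0, cond_true, val_faceP, fc, List.map_ofFn, Function.comp_def,
          letH_dart_true, sg]
    rw [val_wrap _ _ _ (by
      intro a ha
      obtain ⟨i, rfl⟩ := List.mem_ofFn.1 ha
      simp only [letH_stp]), e1, e2]
  · exact hP2 none (by simp)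
  · rintro ⟨r, i⟩ P
    have := hP (dart sl ⟨r, i⟩ P true)
    rw [show ow (dart sl ⟨r, i⟩ P true) = ((r, true), P) from own_dart _ _ _ _ _ _] at this
    exact ⟨this.1.trans (hY3 ((r, true), P) i rfl).1, this.2.trans (hY3 ((r, true), P) i rfl).2⟩
  · rintro ⟨r, i⟩ P
    have := hP (dart sl (prv ⟨r, i⟩) P false)
    rw [show ow (dart sl (prv ⟨r, i⟩) P false) = ((r, false), P) from own_dart _ _ _ _ _ _] at this
    exact ⟨this.1.trans (hY4 ((r, false), P) i rfl).1, this.2.trans (hY4 ((r, false), P) i rfl).2⟩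
  · rintro ⟨f, i⟩
    have h1 := hP (stp (SlT n) N (⟨f, i⟩ : St) true)
    have h2 := hP (stp (SlT n) N (⟨f, i⟩ : St) false)
    rw [show ow (stp (SlT n) N (⟨f, i⟩ : St) true) = f from rfl] at h1
    rw [show ow (stp (SlT n) N (⟨f, i⟩ : St) false) = f from rfl] at h2
    exact ⟨h1.1.trans (hY5 f i true).1, h1.2.trans (hY5 f i true).2,
      h2.1.trans (hY5 f i false).1, h2.2.trans (hY5 f i false).2⟩
  · have h := near_flatMap lam fl W Y _ hY1
    have e : (fl.map fun f => 1 + (hw f).length).sum = 2 * m * N + Fintype.card St := by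
      rw [← List.sum_toFinset _ hn, show fl.toFinset = Finset.univ from
        Finset.eq_univ_of_forall fun f => List.mem_toFinset.2 (hall f), Finset.sum_add_distrib]
      simp [St, mul_comm]
    rw [e] at h
    exact h

end Crest.Agent.R174
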