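import Crest.Agent.R174.MonC

/-! Row 174: faces and stems of a positioned word. -/

set_option autoImplicit false

namespace Crest.Agent.R174

open Monoid

variable {G Γ ι : Type*} [Group G] [Group Γ] [DecidableEq ι] {m : ℕ}

theorem cW_nil (lam : G →* Γ) : cW lam ([] : List (G ⊕ ι)) = 1 := rfl

theorem cW_cons (lam : G →* Γ) (a : G ⊕ ι) (W : List (G ⊕ ι)) :
    cW lam (a :: W) = cw lam a * cW lam W := by
  simp [cW]

theorem cw_inr (lam : G →* Γ) (p : ι) : cw lam (Sum.inr p) = tr none (some p) 1 := rfl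

theorem cw_inl_inv (lam : G →* Γ) (y : G) :
    cw lam (Sum.inl y⁻¹ : G ⊕ ι) = (cw lam (Sum.inl y))⁻¹ := by
  refine eq_inv_of_mul_eq_one_left ?_
  ext j
  · simp [cw, dg]
  · by_cases h : j = none <;> simp [cw, dg, h]

theorem supp_cw_inl (lam : G →* Γ) (y : G) : Supp (cw lam (Sum.inl y : G ⊕ ι)) {none} := by
  intro j hj
  have : j ≠ none := hj
  simp [cw, dg, this]

theorem cw_inr_inv (lam : G →* Γ) (p : ι) : (cw lam (Sum.inr p))⁻¹ = cw lam (Sum.inr p) :=
  inv_eq_of_mul_eq_one_right (tr_mul_self (by simp) 1)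

omit [DecidableEq ι] in
theorem val_nil (lt' : ι → Fin m × Bool) : val lt' ([] : List (G ⊕ ι)) = 1 := rfl

omit [DecidableEq ι] in
theorem val_inl (lt' : ι → Fin m × Bool) (y : G) (W : List (G ⊕ ι)) :
    val lt' (Sum.inl y :: W) = Coprod.inl y * val lt' W := by
  simp [val]

omit [DecidableEq ι] in
theorem val_inr (lt' : ι → Fin m × Bool) (p : ι) (W : List (G ⊕ ι)) :
    val lt' (Sum.inr p :: W) = lt G (lt' p) * val lt' W := by
  simp [val]

omit [DecidableEq ι] in
theorem val_append (lt' : ι → Fin m × Bool) (W W' : List (G ⊕ ι)) :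
    val lt' (W ++ W') = val lt' W * val lt' W' := by
  simp [val]

theorem lt_not (x : Fin m × Bool) : lt G (x.1, !x.2) = (lt G x)⁻¹ := by
  obtain ⟨a, b⟩ := x
  cases b <;> simp [lt]

theorem hv_cons (a : G × (Fin m × Bool)) (l : List (G × (Fin m × Bool))) :
    hv (a :: l) = Coprod.inl a.1 * lt G a.2 * hv l := by
  simp [hv]

omit [Group G] [DecidableEq ι] in
theorem pos_append (W W' : List (G ⊕ ι)) : pos (W ++ W') = pos W ++ pos W' := by
  simp [pos]

/-- The word of a positive face. -/
def faceP : List (G × ι) → List (G ⊕ ι)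
  | [] => []
  | a :: l => Sum.inl a.1 :: Sum.inr a.2 :: faceP l

/-- The word of a negative face. -/
def faceN : List (G × ι) → List (G ⊕ ι)
  | [] => []
  | a :: l => faceN l ++ [Sum.inr a.2, Sum.inl a.1⁻¹]

omit [Group G] [DecidableEq ι] in
theorem pos_faceP (l : List (G × ι)) : pos (faceP l) = l.map Prod.snd := by
  induction l with
  | nil => rfl
  | cons a l ih => simpa [faceP, pos] using ih

omit [DecidableEq ι] in
theorem pos_faceN (l : List (G × ι)) : pos (faceN l) = (l.map Prod.snd).reverse := by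
  induction l with
  | nil => rfl
  | cons a l ih => rw [faceN, pos_append, ih]; simp [pos]

theorem cW_faceN (lam : G →* Γ) (l : List (G × ι)) :
    cW lam (faceN l) = (cW lam (faceP l))⁻¹ := by
  induction l with
  | nil => simp [faceN, faceP, cW_nil]
  | cons a l ih =>
    rw [faceN, faceP, cW_append, ih]
    simp only [cW_cons, cW_nil, mul_one, mul_inv_rev, cw_inl_inv, cw_inr_inv, mul_assoc]

omit [DecidableEq ι] in
theorem val_faceP (lt' : ι → Fin m × Bool) (l : List (G × ι)) :
    val lt' (faceP l) = hv (l.map fun a => (a.1, lt' a.2)) := by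
  induction l with
  | nil => rfl
  | cons a l ih => rw [faceP, val_inl, val_inr, ih, List.map_cons, hv_cons, mul_assoc]

omit [DecidableEq ι] in
theorem val_faceN (lt' : ι → Fin m × Bool) (l : List (G × ι)) :
    val lt' (faceN l) = (hv (l.map fun a => (a.1, ((lt' a.2).1, !(lt' a.2).2))))⁻¹ := by
  induction l with
  | nil => simp [faceN, val_nil, hv]
  | cons a l ih =>
    rw [faceN, val_append, ih, val_inr, val_inl, val_nil, List.map_cons, hv_cons, lt_not]
    simp [mul_assoc]

theorem face_act (lam : G →* Γ) (k : ℕ) (x : Fin (k + 1) → G) (p : Fin (k + 1) → ι)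
    (hp : Function.Injective p) (C : Mon (Option ι) Γ)
    (hC : C = cW lam (faceP (List.ofFn fun i => (x i, p i)))) :
    C.perm none = some (p (Fin.last k)) ∧ C.lab none = 1 ∧ C.perm (some (p 0)) = none ∧
      (∀ i, C.lab (some (p i)) = lam (x i)) ∧
      ∀ i : Fin k, C.perm (some (p i.succ)) = some (p i.castSucc) := by
  induction k generalizing C with
  | zero =>
    subst hC
    simp [List.ofFn_succ, faceP, cW_cons, cW_nil, cw, dg, tr]
  | succ k ih =>
    obtain ⟨h1, h2, h3, h4, h5⟩ := ih (fun i => x i.succ) (fun i => p i.succ)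
      (hp.comp (Fin.succ_injective _)) _ rfl
    have h0 := supp_cW lam (faceP (List.ofFn fun i : Fin (k + 1) => (x i.succ, p i.succ)))
      (some (p 0)) (by
        rw [pos_faceP]
        simp [hp.eq_iff, (Fin.succ_ne_zero _).symm])
    rw [List.ofFn_succ, faceP, cW_cons, cW_cons] at hC
    set C' := cW lam (faceP (List.ofFn fun i : Fin (k + 1) => (x i.succ, p i.succ))) with hC'
    have hne : ∀ i : Fin (k + 1), p i.succ ≠ p 0 := fun i => by
      simp [hp.eq_iff]
    subst hC
    refine ⟨?_, ?_, ?_, fun i => ?_, fun i => ?_⟩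
    · simp only [Mon.mul_perm, Equiv.Perm.mul_apply, h1]
      simp [cw, dg, tr, Equiv.swap_apply_def, hp.eq_iff, Fin.last_pos.ne']
    · simp only [Mon.mul_lab, Mon.mul_perm, Equiv.Perm.mul_apply, h1, h2]
      simp [cw, dg, tr, Equiv.swap_apply_def, hp.eq_iff, Fin.last_pos.ne']
    · simp only [Mon.mul_perm, Equiv.Perm.mul_apply, h0.1]
      simp [cw, dg, tr]
    · refine Fin.cases ?_ (fun i => ?_) i
      · simp only [Mon.mul_lab, Mon.mul_perm, Equiv.Perm.mul_apply, h0.1, h0.2]
        simp [cw, dg, tr]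
      · simp only [Mon.mul_lab, Mon.mul_perm, Equiv.Perm.mul_apply, h4]
        refine Fin.cases ?_ (fun i => ?_) i
        · rw [h3]
          simp [cw, dg, tr]
        · rw [h5]
          simp [cw, dg, tr, Equiv.swap_apply_def, hne]
    · simp only [Mon.mul_perm, Equiv.Perm.mul_apply]
      refine Fin.cases ?_ (fun i => ?_) i
      · rw [h3]
        simp [cw, dg, tr]
      · rw [h5]
        simp [cw, dg, tr, Equiv.swap_apply_def, hp.eq_iff]

theorem finRotate_inv_zero (k : ℕ) : (finRotate (k + 1))⁻¹ 0 = Fin.last k := by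
  rw [Equiv.Perm.inv_eq_iff_eq, finRotate_last]

theorem finRotate_inv_succ (k : ℕ) (i : Fin k) : (finRotate (k + 1))⁻¹ i.succ = i.castSucc := by
  rw [Equiv.Perm.inv_eq_iff_eq, finRotate_succ_apply, Fin.coeSucc_eq_succ]

/-- The rotation of a positive face. -/
theorem exists_face (lam : G →* Γ) (k : ℕ) (x : Fin (k + 1) → G) (p : Fin (k + 1) → ι)
    (hp : Function.Injective p) :
    ∃ X : Mon (Option ι) Γ, Near 1 (cW lam (faceP (List.ofFn fun i => (x i, p i)))) X ∧
      Near 1 (cW lam (faceN (List.ofFn fun i => (x i, p i)))) X⁻¹ ∧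
      Supp X (Set.range fun i => some (p i)) ∧
      ∀ i, X.perm (some (p i)) = some (p ((finRotate (k + 1))⁻¹ i)) ∧
        X.lab (some (p i)) = lam (x i) := by
  obtain ⟨h1, h2, h3, h4, h5⟩ := face_act lam k x p hp _ rfl
  have h0 := supp_cW lam (faceP (List.ofFn fun i => (x i, p i)))
  set C := cW lam (faceP (List.ofFn fun i => (x i, p i))) with hC
  refine ⟨tr none (some (p (Fin.last k))) 1 * C, Near.tr_left (by simp) 1 C, ?_, ?_, fun i => ?_⟩
  · rw [cW_faceN, ← hC, mul_inv_rev, ← cw_inr lam, cw_inr_inv]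
    exact Near.tr_right (by simp) 1 _
  · intro j hj
    rcases j with _ | q
    · simp only [Mon.mul_lab, Mon.mul_perm, Equiv.Perm.mul_apply, h1, h2]
      simp [tr]
    · have hq : ∀ i, p i ≠ q := fun i h => hj ⟨i, congrArg some h⟩
      have := h0 (some q) (by
        rw [pos_faceP]
        simp [hq, fun i => (hq i).symm])
      simp only [Mon.mul_lab, Mon.mul_perm, Equiv.Perm.mul_apply, this.1, this.2]
      simp [tr, Equiv.swap_apply_def, (hq _).symm]
  · simp only [Mon.mul_lab, Mon.mul_perm, Equiv.Perm.mul_apply, h4]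
    refine Fin.cases ?_ (fun i => ?_) i
    · rw [h3, finRotate_inv_zero]
      simp [tr]
    · rw [h5, finRotate_inv_succ]
      simp [tr, Equiv.swap_apply_def, hp.eq_iff]

/-- A word conjugated by a stem. -/
def wrap : List (G × ι × ι) → List (G ⊕ ι) → List (G ⊕ ι)
  | [], W => W
  | a :: l, W => Sum.inl a.1 :: Sum.inr a.2.1 :: (wrap l W ++ [Sum.inr a.2.2, Sum.inl a.1⁻¹])

omit [DecidableEq ι] in
theorem pos_wrap (l : List (G × ι × ι)) (W : List (G ⊕ ι)) :
    (pos (wrap l W)).Perm ((l.flatMap fun a => [a.2.1, a.2.2]) ++ pos W) := by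
  induction l with
  | nil => simp [wrap]
  | cons a l ih =>
    have : pos (wrap (a :: l) W) = a.2.1 :: (pos (wrap l W) ++ [a.2.2]) := by
      simp [wrap, pos]
    rw [this, List.flatMap_cons]
    simp only [List.cons_append, List.nil_append]
    exact (List.perm_append_comm.trans (ih.cons _)).cons _

omit [DecidableEq ι] in
theorem val_wrap (lt' : ι → Fin m × Bool) (l : List (G × ι × ι)) (W : List (G ⊕ ι))
    (h : ∀ a ∈ l, lt' a.2.2 = ((lt' a.2.1).1, !(lt' a.2.1).2)) :
    val lt' (wrap l W) = hv (l.map fun a => (a.1, lt' a.2.1)) * val lt' W *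
      (hv (l.map fun a => (a.1, lt' a.2.1)))⁻¹ := by
  induction l with
  | nil => simp [wrap, hv]
  | cons a l ih =>
    rw [wrap, val_inl, val_inr, val_append, ih fun b hb => h b (List.mem_cons_of_mem _ hb),
      val_inr, val_inl, val_nil, h a List.mem_cons_self, lt_not, List.map_cons, hv_cons]
    simp [mul_assoc]

theorem tr_tr_tr {p q : ι} (h : p ≠ q) :
    (tr none (some p) 1 * tr none (some q) 1 * tr none (some p) 1 : Mon (Option ι) Γ) =
      tr (some p) (some q) 1 := by
  ext1
  · simp only [Mon.mul_perm, tr]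
    rw [Equiv.swap_comm none (some q), Equiv.swap_mul_swap_mul_swap (by simp) (by simpa using h.symm)]
  · ext j
    simp [tr]

theorem exists_wrap (lam : G →* Γ) (W : List (G ⊕ ι)) (k : ℕ) (Y : Mon (Option ι) Γ)
    (T : Set (Option ι)) (hY : Near k (cW lam W) Y) (hT : Supp Y T) (h0 : none ∉ T)
    (l : List (G × ι × ι)) (hl : (l.flatMap fun a => [a.2.1, a.2.2]).Nodup)
    (hlT : ∀ a ∈ l, some a.2.1 ∉ T ∧ some a.2.2 ∉ T) :
    ∃ Y' : Mon (Option ι) Γ, Near (k + l.length) (cW lam (wrap l W)) Y' ∧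
      Supp Y' (T ∪ {o | ∃ a ∈ l, o = some a.2.1 ∨ o = some a.2.2}) ∧
      (∀ j ∈ T, Y'.perm j = Y.perm j ∧ Y'.lab j = Y.lab j) ∧
      ∀ a ∈ l, Y'.perm (some a.2.1) = some a.2.2 ∧ Y'.lab (some a.2.1) = 1 ∧
        Y'.perm (some a.2.2) = some a.2.1 ∧ Y'.lab (some a.2.2) = 1 := by
  induction l with
  | nil => exact ⟨Y, hY, hT.mono Set.subset_union_left, fun _ _ => ⟨rfl, rfl⟩, by simp⟩
  | cons a l ih =>
    obtain ⟨y, p, q⟩ := a
    simp only [List.flatMap_cons, List.cons_append, List.nil_append, List.nodup_cons,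
      List.mem_cons, not_or, List.mem_flatMap, not_exists, not_and, List.not_mem_nil,
      or_false] at hl
    obtain ⟨⟨hpq, hp⟩, hq, hl⟩ := hl
    obtain ⟨Z, hZ1, hZ2, hZ3, hZ4⟩ := ih hl fun a ha => hlT a (List.mem_cons_of_mem _ ha)
    obtain ⟨hpT, hqT⟩ := hlT _ List.mem_cons_self
    set T' := T ∪ {o | ∃ a ∈ l, o = some a.2.1 ∨ o = some a.2.2} with hT'
    have hp' : some p ∉ T' := by
      rintro (h | ⟨a, ha, h | h⟩)
      · exact hpT h
      · exact (hp a ha).1 (Option.some.inj h)
      · exact (hp a ha).2 (Option.some.inj h)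
    have hq' : some q ∉ T' := by
      rintro (h | ⟨a, ha, h | h⟩)
      · exact hqT h
      · exact (hq a ha).1 (Option.some.inj h)
      · exact (hq a ha).2 (Option.some.inj h)
    have h0' : none ∉ T' := by
      rintro (h | ⟨a, ha, h | h⟩)
      · exact h0 h
      · cases h
      · cases h
    have hfix : ∀ j ∈ T', (Z * tr (some p) (some q) 1).perm j = Z.perm j ∧
        (Z * tr (some p) (some q) 1).lab j = Z.lab j := by
      intro j hj
      have := Supp.tr (some p) (some q) (1 : Γ) j (by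
        rintro (rfl | rfl)
        · exact hp' hj
        · exact hq' hj)
      simp only [Mon.mul_lab, Mon.mul_perm, Equiv.Perm.mul_apply, this.1, this.2, mul_one,
        and_self]
    refine ⟨Z * tr (some p) (some q) 1, ?_, ?_, fun j hj => ?_, fun a ha => ?_⟩
    · set D : Mon (Option ι) Γ := cw lam (Sum.inl y) with hD
      set Sp : Mon (Option ι) Γ := tr none (some p) 1 with hSp
      set Sq : Mon (Option ι) Γ := tr none (some q) 1 with hSq
      have e1 : cW lam (wrap ((y, p, q) :: l) W) = D * Sp * cW lam (wrap l W) * (Sq * D⁻¹) := by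
        rw [wrap, cW_cons, cW_cons, cW_append, cW_cons, cW_cons, cW_nil, cw_inl_inv]
        simp only [mul_one, mul_assoc]
        rfl
      have c1 : Commute D Z := (supp_cw_inl lam y).commute hZ2 (by simpa using h0')
      have c2 : Commute Sp Z := (Supp.tr _ _ _).commute hZ2 (by
        rw [Set.disjoint_left]
        rintro _ (rfl | rfl)
        · exact h0'
        · exact hp')
      have c3 : Commute D (tr (some p) (some q) 1) :=
        (supp_cw_inl lam y).commute (Supp.tr _ _ _) (by simp)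
      have n1 := ((Near.refl (D * Sp)).mul hZ1).mul (Near.refl (Sq * D⁻¹))
      have n2 := ((Near.refl (Z * D)).mul (Near.tr_right (i := none) (j := some p) (by simp) 1
        (Sp * Sq))).mul (Near.refl D⁻¹)
      have e2 : D * Sp * Z * (Sq * D⁻¹) = Z * D * (Sp * Sq) * D⁻¹ := by
        rw [mul_assoc D, c2.eq, ← mul_assoc D, c1.eq]
        simp only [mul_assoc]
      have e3 : Z * D * (Sp * Sq * tr none (some p) 1) * D⁻¹ = Z * tr (some p) (some q) 1 := by
        rw [hSp, hSq, tr_tr_tr hpq, mul_assoc Z, c3.eq]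
        simp only [mul_assoc, mul_inv_cancel, mul_one]
      rw [e2] at n1
      rw [e3] at n2
      rw [e1]
      simpa [add_assoc] using n1.trans n2
    · refine (hZ2.mono ?_).mul ((Supp.tr _ _ _).mono ?_)
      · rintro j (h | ⟨a, ha, h⟩)
        · exact Or.inl h
        · exact Or.inr ⟨a, List.mem_cons_of_mem _ ha, h⟩
      · rintro _ (rfl | rfl)
        · exact Or.inr ⟨_, List.mem_cons_self, Or.inl rfl⟩
        · exact Or.inr ⟨_, List.mem_cons_self, Or.inr rfl⟩
    · obtain ⟨e1, e2⟩ := hfix j (Or.inl hj)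
      rw [e1, e2]
      exact hZ3 j hj
    · rcases List.mem_cons.1 ha with rfl | ha
      · have e1 := hZ2 _ hp'
        have e2 := hZ2 _ hq'
        simp [tr, e1, e2]
      · obtain ⟨e1, e2⟩ := hfix _ (Or.inr ⟨a, ha, Or.inl rfl⟩)
        obtain ⟨e3, e4⟩ := hfix _ (Or.inr ⟨a, ha, Or.inr rfl⟩)
        rw [e1, e2, e3, e4]
        exact hZ4 a ha

theorem near_flatMap {I : Type*} (lam : G →* Γ) (l : List I) (W : I → List (G ⊕ ι))
    (Y : I → Mon (Option ι) Γ) (k : I → ℕ) (h : ∀ f, Near (k f) (cW lam (W f)) (Y f)) :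
    Near (l.map k).sum (cW lam (l.flatMap W)) (l.map Y).prod := by
  induction l with
  | nil => exact Near.refl _
  | cons a l ih =>
    rw [List.flatMap_cons, cW_append, List.map_cons, List.map_cons, List.sum_cons, List.prod_cons]
    exact (h a).mul ih

omit [DecidableEq ι] in
theorem val_flatMap {I : Type*} (lt' : ι → Fin m × Bool) (l : List I) (W : I → List (G ⊕ ι)) :
    val lt' (l.flatMap W) = (l.map fun f => val lt' (W f)).prod := by
  induction l with
  | nil => rfl
  | cons a l ih => rw [List.flatMap_cons, val_append, ih, List.map_cons, List.prod_cons]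

omit [Group G] [DecidableEq ι] in
theorem pos_flatMap {I : Type*} (l : List I) (W : I → List (G ⊕ ι)) :
    pos (l.flatMap W) = l.flatMap fun f => pos (W f) := by
  induction l with
  | nil => rfl
  | cons a l ih => rw [List.flatMap_cons, pos_append, ih, List.flatMap_cons]

end Crest.Agent.R174
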