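import Crest.Agent.R174.Defs

/-! Row 174: ordered products of pseudo-reflections near `-1`. -/

set_option autoImplicit false
set_option linter.unusedSectionVars false

namespace Crest.Agent.R174

open Matrix

variable {H : Type*} [Fintype H] [DecidableEq H]

namespace CellEndA

theorem sorted {ord : List H} (hn : ord.Nodup) :
    ord.Pairwise fun a b => ord.idxOf a < ord.idxOf b := by
  rw [List.pairwise_iff_getElem]
  intro i j hi hj hij
  rw [hn.idxOf_getElem, hn.idxOf_getElem]
  exact hij

theorem diag_step {l : List H} {j : H} (hj : j ∉ l) :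
    (diagonal fun k => if k ∈ l then (-1 : ℂ) else 1) *
      (diagonal fun k => if k = j then (-1 : ℂ) else 1) =
      diagonal fun k => if k ∈ l ++ [j] then (-1 : ℂ) else 1 := by
  rw [diagonal_mul_diagonal]
  congr 1
  funext k
  by_cases hk : k = j
  · subst hk; simp [hj]
  · simp [hk]

theorem prod_diag' (l : List H) (hn : l.Nodup) :
    (l.map fun j => diagonal fun k => if k = j then (-1 : ℂ) else 1).prod =
      diagonal fun k => if k ∈ l then (-1 : ℂ) else 1 := by
  induction l using List.reverseRecOn with
  | nil => simp
  | append_singleton l j ih =>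
    rw [List.nodup_append] at hn
    have hj : j ∉ l := fun h => hn.2.2 j h j (by simp) rfl
    rw [List.map_append, List.prod_append, ih hn.1, ← diag_step hj]
    simp

theorem diag_all {ord : List H} (hall : ∀ j, j ∈ ord) :
    (diagonal fun k => if k ∈ ord then (-1 : ℂ) else 1) = -1 := by
  simp only [hall, if_true]
  rw [← diagonal_one, ← diagonal_neg]

/-- A product of matrices whose `j`-th rows are `e_j` has the same `j`-th row. -/
theorem row_prod (l : List (Matrix H H ℂ)) (j : H)
    (h : ∀ M ∈ l, ∀ b, M j b = (1 : Matrix H H ℂ) j b) (b : H) :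
    l.prod j b = (1 : Matrix H H ℂ) j b := by
  induction l generalizing b with
  | nil => simp
  | cons M l ih =>
    rw [List.prod_cons, mul_apply]
    have e : ∀ c, M j c * l.prod c b = (1 : Matrix H H ℂ) j c * l.prod c b := fun c => by
      rw [h M (by simp) c]
    simp only [e]
    rw [← mul_apply, Matrix.one_mul]
    exact ih (fun N hN => h N (by simp [hN])) b

theorem last_factor (v : H → ℂ) (ξ : ℂ) (j : H) (hv : star v ⬝ᵥ v = 1)
    (hp : ∃ s : ℝ, 0 ≤ s ∧ v j = s)
    (h : ∀ b, (1 + (ξ - 1) • vecMulVec v (star v)) j b = -(1 : Matrix H H ℂ) j b) :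
    v = Pi.single j 1 ∧ ξ = -1 := by
  obtain ⟨s, hs0, hs⟩ := hp
  have hjj := h j
  simp only [Matrix.add_apply, one_apply_eq, Matrix.smul_apply, vecMulVec_apply, Pi.star_apply, smul_eq_mul,
    hs] at hjj
  have hss : star (s : ℂ) = s := Complex.conj_ofReal s
  rw [hss] at hjj
  have h2 : (ξ - 1) * ((s : ℂ) * s) = -2 := by linear_combination hjj
  have hξ : ξ - 1 ≠ 0 := by
    intro h0; rw [h0] at h2; norm_num at h2
  have hsne : (s : ℂ) ≠ 0 := by
    intro h0; rw [h0] at h2; norm_num at h2
  have hb : ∀ b, b ≠ j → v b = 0 := by
    intro b hb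
    have h3 := h b
    simp only [Matrix.add_apply, one_apply_ne hb.symm, Matrix.smul_apply, vecMulVec_apply, Pi.star_apply,
      smul_eq_mul, hs, zero_add, neg_zero] at h3
    have := (mul_eq_zero.mp h3).resolve_left hξ
    have := (mul_eq_zero.mp this).resolve_left hsne
    simpa using this
  have h1 : (s : ℂ) * s = 1 := by
    rw [dotProduct, Finset.sum_eq_single j] at hv
    · simpa only [Pi.star_apply, hs, hss] using hv
    · intro b _ hbj; rw [hb b hbj, mul_zero]
    · simp
  have h1' : s * s = 1 := by exact_mod_cast h1
  have hs1 : s = 1 := by nlinarith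
  refine ⟨?_, ?_⟩
  · funext b
    by_cases hbj : b = j
    · subst hbj; simp [hs, hs1]
    · simp [hbj, hb b hbj]
  · rw [h1] at h2; linear_combination h2

theorem factor_single (j : H) :
    1 + ((-1 : ℂ) - 1) • vecMulVec (Pi.single j (1 : ℂ)) (star (Pi.single j (1 : ℂ) : H → ℂ)) =
      diagonal fun k => if k = j then (-1 : ℂ) else 1 := by
  ext a b
  simp only [Matrix.add_apply, Matrix.smul_apply, vecMulVec_apply, Pi.star_apply, smul_eq_mul, one_apply,
    diagonal_apply, Pi.single_apply]
  by_cases hab : a = b
  · subst hab
    by_cases ha : a = j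
    · simp [ha]
    · simp [ha]
  · by_cases ha : a = j
    · have hb : b ≠ j := fun h => hab (ha.trans h.symm)
      simp [hab, hb]
    · simp [hab, ha]

theorem peel' (r : H → ℕ) (v : H → H → ℂ) (ξ : H → ℂ)
    (hv : ∀ j, star (v j) ⬝ᵥ v j = 1) (hs : ∀ j k, v j k ≠ 0 → r k ≤ r j)
    (hp : ∀ j, ∃ s : ℝ, 0 ≤ s ∧ v j j = s) (l : List H) (hl : l.Pairwise fun a b => r a < r b)
    (h : (l.map fun j => 1 + (ξ j - 1) • vecMulVec (v j) (star (v j))).prod =
      diagonal fun k => if k ∈ l then (-1 : ℂ) else 1) (j : H) (hj : j ∈ l) :
    v j = Pi.single j 1 ∧ ξ j = -1 := by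
  induction l using List.reverseRecOn with
  | nil => simp at hj
  | append_singleton l i ih =>
    rw [List.pairwise_append] at hl
    have hlt : ∀ k ∈ l, r k < r i := fun k hk => hl.2.2 k hk i (by simp)
    have hi : i ∉ l := fun h => lt_irrefl _ (hlt i h)
    rw [List.map_append, List.prod_append, List.map_singleton, List.prod_singleton] at h
    have hrow : ∀ b, (l.map fun j => 1 + (ξ j - 1) • vecMulVec (v j) (star (v j))).prod i b =
        (1 : Matrix H H ℂ) i b := by
      refine row_prod _ i ?_
      intro M hM b
      obtain ⟨k, hk, rfl⟩ := List.mem_map.mp hM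
      have h0 : v k i = 0 := by
        by_contra h0
        exact absurd (hs k i h0) (not_le.mpr (hlt k hk))
      simp [vecMulVec_apply, h0]
    have hlast : v i = Pi.single i 1 ∧ ξ i = -1 := by
      refine last_factor (v i) (ξ i) i (hv i) (hp i) fun b => ?_
      have e := congrFun (congrFun h i) b
      rw [mul_apply] at e
      simp only [hrow] at e
      rw [← mul_apply, Matrix.one_mul] at e
      rw [e]
      by_cases hb : i = b
      · subst hb; simp
      · simp [hb]
    rcases List.mem_append.mp hj with hj | hj
    · refine ih hl.1 ?_ hj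
      rw [hlast.1, hlast.2, factor_single, ← diag_step hi] at h
      have hu : (diagonal fun k => if k = i then (-1 : ℂ) else 1) *
          (diagonal fun k => if k = i then (-1 : ℂ) else 1) = 1 := by
        rw [diagonal_mul_diagonal, ← diagonal_one]
        congr 1
        funext k
        split_ifs <;> simp
      have := congrArg (· * diagonal fun k => if k = i then (-1 : ℂ) else 1) h
      simpa only [Matrix.mul_assoc, hu, Matrix.mul_one] using this
    · rw [List.mem_singleton.mp hj]; exact hlast

theorem prod_deriv' (r : H → ℕ) (hr : Function.Injective r)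
    (R : ℝ → H → Matrix H H ℂ) (R' : H → Matrix H H ℂ)
    (hd : ∀ j a b, HasDerivAt (fun s => R s j a b) (R' j a b) 0)
    (h0 : ∀ j, R 0 j = diagonal fun k => if k = j then -1 else 1)
    (hs : ∀ j a b, R' j a b ≠ 0 → (a = j ∧ r b ≤ r j) ∨ (b = j ∧ r a ≤ r j))
    (l : List H) (hl : l.Pairwise fun a b => r a < r b) (a b : H) :
    HasDerivAt (fun s => (l.map (R s)).prod a b)
      (if r a < r b then (if b ∈ l then (if a ∈ l then -1 else 1) * R' b a b else 0)
        else (if a ∈ l then R' a a b else 0)) 0 := by
  induction l using List.reverseRecOn generalizing a b with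
  | nil => simpa using hasDerivAt_const (0 : ℝ) ((1 : Matrix H H ℂ) a b)
  | append_singleton l i ih =>
    have hnd : l.Nodup := by
      have := (List.pairwise_append.mp hl).1
      exact this.imp fun {x y} hxy e => by rw [e] at hxy; exact lt_irrefl _ hxy
    rw [List.pairwise_append] at hl
    have hlt : ∀ k ∈ l, r k < r i := fun k hk => hl.2.2 k hk i (by simp)
    have hi : i ∉ l := fun h => lt_irrefl _ (hlt i h)
    have hval : (l.map (R 0)).prod = diagonal fun k => if k ∈ l then (-1 : ℂ) else 1 := by
      rw [← prod_diag' l hnd]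
      congr 2
      funext j
      exact h0 j
    have e : (fun s => ((l ++ [i]).map (R s)).prod a b) =
        fun s => ∑ c, (l.map (R s)).prod a c * R s i c b := by
      funext s
      rw [List.map_append, List.prod_append, List.map_singleton, List.prod_singleton, mul_apply]
    rw [e]
    refine (HasDerivAt.fun_sum fun c _ => (ih hl.1 a c).fun_mul (hd i c b)).congr_deriv ?_
    rw [Finset.sum_add_distrib, hval, h0 i, Finset.sum_eq_single b, Finset.sum_eq_single a]
    · simp only [diagonal_apply_eq, List.mem_append, List.mem_singleton]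
      have hz : ∀ {P : Prop}, (R' i a b ≠ 0 → P) → ¬ P → R' i a b = 0 := fun f g => by
        by_contra h; exact g (f h)
      by_cases hab : r a < r b
      · simp only [hab, if_true]
        by_cases hb : b ∈ l
        · have hbi : b ≠ i := fun h => hi (h ▸ hb)
          have hai : a ≠ i := fun h => by
            have := hlt b hb
            rw [h] at hab
            omega
          have := hz (hs i a b) (by simp [hai, hbi])
          simp [hb, hbi, hai, this]
        · by_cases hbi : b = i
          · subst hbi
            have hai : a ≠ b := fun h => by rw [h] at hab; omega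
            simp [hb, hai]
          · have := hz (hs i a b) (by
              rintro (⟨h1, h2⟩ | ⟨h1, -⟩)
              · rw [h1] at hab; omega
              · exact hbi h1)
            simp [hb, hbi, this]
      · simp only [hab, if_false]
        by_cases ha : a ∈ l
        · have hai : a ≠ i := fun h => hi (h ▸ ha)
          have hbi : b ≠ i := fun h => by
            have := hlt a ha
            rw [h] at hab
            omega
          have := hz (hs i a b) (by simp [hai, hbi])
          simp [ha, hbi, this]
        · by_cases hai : a = i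
          · subst hai
            simp [ha]
          · have := hz (hs i a b) (by
              rintro (⟨h1, -⟩ | ⟨h1, h2⟩)
              · exact hai h1
              · rw [h1] at hab
                exact hai (hr (by omega)))
            simp [ha, hai, this]
    · intro c _ hc; rw [diagonal_apply_ne _ hc.symm, zero_mul]
    · simp
    · intro c _ hc; rw [diagonal_apply_ne _ hc, mul_zero]
    · simp

end CellEndA

/-- Uniqueness.  Proof: by reverse induction on prefixes `l` of `ord` (generalize: `l` without
duplicates, supports of `v j` inside `l` up to `j`, product `= diagonal (if k ∈ l then -1 else 1)`).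
For `l = l' ++ [j]`, row `j` of the factors of `l'` is `e_j` (`v k j = 0`), so row `j` of the
product is row `j` of the last factor: `(ξ - 1) v j j conj (v j b) = -2 δ_{j b}`. -/
theorem peel {ord : List H} (hn : ord.Nodup) (hall : ∀ j, j ∈ ord) (v : H → H → ℂ) (ξ : H → ℂ)
    (hv : ∀ j, star (v j) ⬝ᵥ v j = 1) (hs : ∀ j k, v j k ≠ 0 → ord.idxOf k ≤ ord.idxOf j)
    (hp : ∀ j, ∃ s : ℝ, 0 ≤ s ∧ v j j = s)
    (h : (ord.map fun j => 1 + (ξ j - 1) • vecMulVec (v j) (star (v j))).prod = -1) (j : H) :
    v j = Pi.single j 1 ∧ ξ j = -1 :=
  CellEndA.peel' (fun k => ord.idxOf k) v ξ hv hs hp ord (CellEndA.sorted hn)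
    (by rw [h, CellEndA.diag_all hall]) j (hall j)

/-- The product at the distinguished point. -/
theorem prod_diag {ord : List H} (hn : ord.Nodup) (hall : ∀ j, j ∈ ord) :
    (ord.map fun j => diagonal fun k => if k = j then (-1 : ℂ) else 1).prod = -1 := by
  rw [CellEndA.prod_diag' ord hn, CellEndA.diag_all hall]

/-- The derivative of the ordered product at the distinguished point.  Proof: reverse induction
on prefixes `l`; the derivative has entry `if a, b ∈ l then (the formula) else 0`, and the value at
`0` is `diagonal (if k ∈ l then -1 else 1)`. -/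
theorem prod_deriv {ord : List H} (hn : ord.Nodup) (hall : ∀ j, j ∈ ord)
    (R : ℝ → H → Matrix H H ℂ) (R' : H → Matrix H H ℂ)
    (hd : ∀ j a b, HasDerivAt (fun s => R s j a b) (R' j a b) 0)
    (h0 : ∀ j, R 0 j = diagonal fun k => if k = j then -1 else 1)
    (hs : ∀ j a b, R' j a b ≠ 0 →
      (a = j ∧ ord.idxOf b ≤ ord.idxOf j) ∨ (b = j ∧ ord.idxOf a ≤ ord.idxOf j)) (a b : H) :
    HasDerivAt (fun s => (ord.map (R s)).prod a b)
      (if ord.idxOf a < ord.idxOf b then -R' b a b else R' a a b) 0 := by
  have := CellEndA.prod_deriv' (fun k => ord.idxOf k)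
    (fun x y h => (List.idxOf_inj (hall x)).mp h) R R' hd h0 hs ord (CellEndA.sorted hn) a b
  simpa [hall] using this

end Crest.Agent.R174
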