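import Crest.Agent.R174.Deg
import Crest.Agent.R174.CellEnd

/-! Row 174: the top cell of a product of unitary groups is essential.

The chart `XX` carries one phase `ζ j`, one real diagonal coordinate and the off-diagonal
coordinates of a vector `v j` for each index `j`.  The equations `FF` say that `ζ j` and `v j` have
norm one and that the matrix is Hermitian; a Hermitian unitary matrix is `1` or far from `1`. -/

set_option autoImplicit false
set_option linter.unusedSectionVars false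

namespace Crest.Agent.R174

open Matrix

namespace CellAux

/-- The cut-off of the diagonal coordinate. -/
noncomputable def sig (s : ℝ) : ℝ := s * Real.smoothTransition (2 * s)

theorem sig_nonpos {s : ℝ} (h : s ≤ 0) : sig s = 0 := by
  rw [sig, Real.smoothTransition.zero_of_nonpos (by linarith), mul_zero]

theorem sig_big {s : ℝ} (h : 1 / 2 ≤ s) : sig s = s := by
  rw [sig, Real.smoothTransition.one_of_one_le (by linarith), mul_one]

theorem sig_nonneg (s : ℝ) : 0 ≤ sig s := by
  rcases le_total s 0 with h | h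
  · rw [sig_nonpos h]
  · exact mul_nonneg h (Real.smoothTransition.nonneg _)

theorem sig_eq_one {s : ℝ} (h : sig s = 1) : s = 1 := by
  rcases le_total (1 / 2) s with h' | h'
  · rwa [sig_big h'] at h
  · rcases le_total s 0 with h0 | h0
    · rw [sig_nonpos h0] at h; norm_num at h
    · have := Real.smoothTransition.le_one (2 * s)
      have : sig s ≤ s := by rw [sig]; nlinarith
      linarith

theorem sig_smooth : ContDiff ℝ 2 sig := by
  unfold sig
  exact contDiff_id.mul (Real.smoothTransition.contDiff.comp (contDiff_const.mul contDiff_id))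

theorem sig_deriv (a : ℝ) : HasDerivAt (fun s : ℝ => sig (1 + s * a)) a 0 := by
  have h1 : HasDerivAt (fun s : ℝ => 1 + s * a) a 0 := by
    simpa using ((hasDerivAt_id (0 : ℝ)).mul_const a).const_add 1
  refine h1.congr_of_eventuallyEq ?_
  have : ∀ᶠ s : ℝ in nhds 0, 1 / 2 < 1 + s * a :=
    h1.continuousAt.eventually (lt_mem_nhds (by norm_num))
  filter_upwards [this] with s hs
  exact sig_big hs.le

section smooth
variable {E : Type*} [NormedAddCommGroup E] [NormedSpace ℝ E] {f : E → ℂ}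

theorem cd_re (h : ContDiff ℝ 2 f) : ContDiff ℝ 2 fun x => (f x).re :=
  Complex.reCLM.contDiff.comp h

theorem cd_im (h : ContDiff ℝ 2 f) : ContDiff ℝ 2 fun x => (f x).im :=
  Complex.imCLM.contDiff.comp h

theorem cd_star (h : ContDiff ℝ 2 f) : ContDiff ℝ 2 fun x => star (f x) :=
  Complex.conjCLE.contDiff.comp h

theorem cd_ofReal {g : E → ℝ} (h : ContDiff ℝ 2 g) : ContDiff ℝ 2 fun x => (g x : ℂ) :=
  Complex.ofRealCLM.contDiff.comp h

theorem fderiv_const_path {F : Type*} [NormedAddCommGroup F] [NormedSpace ℝ F] {g : E → F} {p w : E}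
    (hg : DifferentiableAt ℝ g p) {γ : ℝ → E} (h0 : γ 0 = p) (hγ : HasDerivAt γ w 0)
    (hc : ∀ᶠ s in nhds (0 : ℝ), g (γ s) = g p) : fderiv ℝ g p w = 0 := by
  subst h0
  have h1 : HasDerivAt (g ∘ γ) (fderiv ℝ g (γ 0) w) 0 := hg.hasFDerivAt.comp_hasDerivAt 0 hγ
  have h2 : HasDerivAt (g ∘ γ) 0 0 :=
    (hasDerivAt_const (0 : ℝ) (g (γ 0))).congr_of_eventuallyEq hc
  exact h1.unique h2

end smooth

variable {H B : Type} [Fintype H] [DecidableEq H] [DecidableEq B]

theorem smo_mul {E : Type*} [NormedAddCommGroup E] [NormedSpace ℝ E] {P Q : E → Matrix H H ℂ}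
    (hP : Smo P) (hQ : Smo Q) : Smo fun x => P x * Q x := by
  intro i j
  simp only [Matrix.mul_apply]
  exact ContDiff.sum fun k _ => (hP i k).mul (hQ k j)

theorem smo_prod {E : Type*} [NormedAddCommGroup E] [NormedSpace ℝ E]
    (P : E → H → Matrix H H ℂ) (hP : ∀ j, Smo fun x => P x j) (l : List H) :
    Smo fun x => (l.map (P x)).prod := by
  induction l with
  | nil => intro i j; simpa using contDiff_const
  | cons a l ih => simpa using smo_mul (hP a) ih

theorem smo_rf (n : ℕ) (j : H) : Smo fun y : Par H => rf y n j := by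
  intro a b
  simp only [rf, Matrix.add_apply, Matrix.smul_apply, Matrix.of_apply, smul_eq_mul]
  fun_prop

/-- The Frobenius gap for Hermitian unitaries. -/
theorem gap {U : Matrix H H ℂ} (h : U * U = 1) :
    ∑ i, ∑ j, Complex.normSq ((U - 1) i j) = 0 ∨ 4 ≤ ∑ i, ∑ j, Complex.normSq ((U - 1) i j) := by
  set D := U - 1 with hD
  have hDD : D * D = (-2 : ℂ) • D := by
    rw [hD, sub_mul, mul_sub, mul_sub, h]
    simp only [mul_one, one_mul, smul_sub, neg_smul, two_smul]
    abel
  set c := ∑ i, ∑ j, Complex.normSq (D i j) with hc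
  have key : ∀ i j, 4 * Complex.normSq (D i j) ≤
      (∑ k, Complex.normSq (D i k)) * ∑ k, Complex.normSq (D k j) := by
    intro i j
    have h1 : (D * D) i j = -2 * D i j := by rw [hDD]; simp
    have h2 : ‖(D * D) i j‖ ≤ ∑ k, ‖D i k‖ * ‖D k j‖ := by
      rw [Matrix.mul_apply]
      exact (norm_sum_le _ _).trans (Finset.sum_le_sum fun k _ => norm_mul_le _ _)
    have h3 := Finset.sum_mul_sq_le_sq_mul_sq Finset.univ (fun k => ‖D i k‖) (fun k => ‖D k j‖)
    simp only [Complex.normSq_eq_norm_sq]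
    rw [h1, norm_mul] at h2
    have h4 : ‖(-2 : ℂ)‖ = 2 := by simp
    rw [h4] at h2
    have := norm_nonneg (D i j)
    nlinarith
  have h5 : 4 * c ≤ c * c := by
    calc 4 * c = ∑ i, ∑ j, 4 * Complex.normSq (D i j) := by
          simp only [hc, Finset.mul_sum]
      _ ≤ ∑ i, ∑ j, (∑ k, Complex.normSq (D i k)) * ∑ k, Complex.normSq (D k j) :=
          Finset.sum_le_sum fun i _ => Finset.sum_le_sum fun j _ => key i j
      _ = c * c := by
          rw [← Finset.sum_mul_sum, hc, Finset.sum_comm (s := Finset.univ) (t := Finset.univ)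
            (f := fun j k => Complex.normSq (D k j))]
  have h6 : 0 ≤ c := Finset.sum_nonneg fun i _ => Finset.sum_nonneg fun j _ =>
    Complex.normSq_nonneg _
  rcases h6.eq_or_lt with h7 | h7
  · exact Or.inl h7.symm
  · exact Or.inr (le_of_mul_le_mul_right h5 h7)

/-- Off-diagonal coordinates. -/
abbrev Ix (blk : H → B) (ord : List H) : Type :=
  {p : H × H // ord.idxOf p.1 < ord.idxOf p.2 ∧ blk p.1 = blk p.2}

/-- The chart. -/
abbrev XX (blk : H → B) (ord : List H) : Type := (Ix blk ord → ℂ) × (H → ℂ) × (H → ℝ)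

variable {blk : H → B} {ord : List H}

/-- Extension of off-diagonal coordinates by a diagonal. -/
def ext (z : Ix blk ord → ℂ) (d : H → ℂ) (j k : H) : ℂ :=
  if k = j then d j else
    if h : ord.idxOf k < ord.idxOf j ∧ blk k = blk j then z ⟨(k, j), h⟩ else 0

theorem ext_self (z : Ix blk ord → ℂ) (d : H → ℂ) (j : H) : ext z d j j = d j := by simp [ext]

theorem ext_ix (z : Ix blk ord → ℂ) (d : H → ℂ) (p : Ix blk ord) : ext z d p.1.2 p.1.1 = z p := by
  obtain ⟨⟨k, j⟩, h⟩ := p
  have : k ≠ j := by rintro rfl; exact lt_irrefl _ h.1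
  simp only [ext, if_neg this, dif_pos h]

theorem ext_ne {z : Ix blk ord → ℂ} {d : H → ℂ} {j k : H} (h : ext z d j k ≠ 0) :
    ord.idxOf k ≤ ord.idxOf j ∧ blk k = blk j := by
  unfold ext at h
  split_ifs at h with h1 h2
  · subst h1; exact ⟨le_rfl, rfl⟩
  · exact ⟨h2.1.le, h2.2⟩
  · exact absurd rfl h

/-- The column vectors. -/
noncomputable def vv (x : XX blk ord) : H → H → ℂ := ext x.1 fun j => (sig (x.2.2 j) : ℂ)

theorem vv_smooth (j k : H) : ContDiff ℝ 2 fun x : XX blk ord => vv x j k := by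
  unfold vv ext
  split_ifs with h1 h2
  · exact cd_ofReal (sig_smooth.comp (by fun_prop))
  · fun_prop
  · exact contDiff_const

/-- The parameters of a point of the chart. -/
noncomputable def qq (x : XX blk ord) : Par H :=
  (x.2.1, fun j a b => vv x j a * star (vv x j b))

theorem qq_smooth : ContDiff ℝ 2 (qq : XX blk ord → Par H) := by
  refine ContDiff.prodMk (by fun_prop) ?_
  refine contDiff_pi.2 fun j => contDiff_pi.2 fun a => contDiff_pi.2 fun b => ?_
  exact (vv_smooth j a).mul (cd_star (vv_smooth j b))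

theorem of_qq (x : XX blk ord) (j : H) :
    Matrix.of ((qq x).2 j) = vecMulVec (vv x j) (star (vv x j)) := by
  ext a b; simp [qq, vecMulVec_apply]

variable (blk ord) in
/-- The equations. -/
noncomputable def FF (M : Matrix H H ℂ) (y : Par H) : XX blk ord :=
  (fun p => M p.1.1 p.1.2 - star (M p.1.2 p.1.1),
    fun j => (((y.1 j * star (y.1 j)).re - 1 : ℝ) : ℂ) + Complex.I * ((M j j).im : ℂ),
    fun j => (∑ k, y.2 j k k).re - 1)

theorem FF_smooth {E : Type*} [NormedAddCommGroup E] [NormedSpace ℝ E] {M : E → Matrix H H ℂ}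
    {y : E → Par H} (hM : Smo M) (hy : ContDiff ℝ 2 y) :
    ContDiff ℝ 2 fun x => FF blk ord (M x) (y x) := by
  refine ContDiff.prodMk (contDiff_pi.2 fun p => (hM _ _).sub (cd_star (hM _ _)))
    (ContDiff.prodMk (contDiff_pi.2 fun j => ?_) (contDiff_pi.2 fun j => ?_))
  · have : ContDiff ℝ 2 fun x => (y x).1 j := by fun_prop
    exact (cd_ofReal ((cd_re (this.mul (cd_star this))).sub contDiff_const)).add
      (contDiff_const.mul (cd_ofReal (cd_im (hM j j))))
  · exact (cd_re (ContDiff.sum fun k _ => by fun_prop)).sub contDiff_const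

theorem re_mul_star (z : ℂ) : (z * star z).re = ‖z‖ ^ 2 := by
  rw [Complex.star_def, Complex.mul_conj, Complex.ofReal_re, Complex.normSq_eq_norm_sq]

theorem tr_qq (x : XX blk ord) (j : H) :
    (∑ k, (qq x).2 j k k).re = ∑ k, ‖vv x j k‖ ^ 2 := by
  simp only [qq, Complex.re_sum, re_mul_star]

/-- Bounds from a small value of the equations. -/
theorem small {M : Matrix H H ℂ} {x : XX blk ord} {ε : ℝ} (h : ‖FF blk ord M (qq x)‖ ≤ ε) (j : H) :
    |‖x.2.1 j‖ ^ 2 - 1| ≤ ε ∧ |∑ k, ‖vv x j k‖ ^ 2 - 1| ≤ ε := by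
  constructor
  · have h1 := ((norm_le_pi_norm _ j).trans ((norm_fst_le _).trans (norm_snd_le _))).trans h
    have h2 := (Complex.abs_re_le_norm _).trans h1
    rw [← re_mul_star]
    simpa [FF, qq] using h2
  · have h1 := ((norm_le_pi_norm _ j).trans ((norm_snd_le _).trans (norm_snd_le _))).trans h
    simpa only [FF, tr_qq, Real.norm_eq_abs] using h1

theorem vv_unit {x : XX blk ord} {j : H} (h : ∑ k, ‖vv x j k‖ ^ 2 = 1) :
    star (vv x j) ⬝ᵥ vv x j = 1 := by
  have : ∀ k, star (vv x j) k * vv x j k = ((‖vv x j k‖ ^ 2 : ℝ) : ℂ) := fun k => by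
    rw [Pi.star_apply, mul_comm, Complex.star_def, Complex.mul_conj, Complex.normSq_eq_norm_sq]
  rw [dotProduct, Finset.sum_congr rfl fun k _ => this k, ← Complex.ofReal_sum, h]
  simp

theorem zero_unit {M : Matrix H H ℂ} {x : XX blk ord} (h : FF blk ord M (qq x) = 0) (j : H) :
    ‖x.2.1 j‖ = 1 ∧ star (vv x j) ⬝ᵥ vv x j = 1 := by
  obtain ⟨h1, h2⟩ := small (ε := 0) (by rw [h, norm_zero]) j
  rw [abs_nonpos_iff, sub_eq_zero] at h1 h2
  exact ⟨(pow_eq_one_iff_of_nonneg (norm_nonneg _) two_ne_zero).1 h1, vv_unit h2⟩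

theorem zero_adm {M : Matrix H H ℂ} {x : XX blk ord} (h : FF blk ord M (qq x) = 0) :
    qq x ∈ Adm blk ord := fun j =>
  ⟨(zero_unit h j).1, vv x j, (zero_unit h j).2, fun _ hk => ext_ne hk, of_qq x j⟩

theorem idx_total (hall : ∀ j, j ∈ ord) {i j : H} (h : i ≠ j) :
    ord.idxOf i < ord.idxOf j ∨ ord.idxOf j < ord.idxOf i :=
  lt_or_gt_of_ne fun h' => h ((List.idxOf_inj (hall i)).1 h')

theorem zero_herm (hall : ∀ j, j ∈ ord) {M : Matrix H H ℂ} {y : Par H} (h : FF blk ord M y = 0)
    (hM : UB blk M) : M * M = 1 := by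
  have hoff : ∀ p : Ix blk ord, M p.1.1 p.1.2 = star (M p.1.2 p.1.1) := fun p =>
    sub_eq_zero.1 (congrFun (congrArg Prod.fst h) p)
  have hdiag : ∀ j, (M j j).im = 0 := fun j => by
    have := congrArg Complex.im (congrFun (congrArg (fun x => x.2.1) h) j)
    simpa [FF] using this
  have hs : star M = M := by
    ext i j
    rw [Matrix.star_apply]
    by_cases hb : blk i = blk j
    · by_cases hij : i = j
      · subst hij
        exact Complex.conj_eq_iff_im.2 (hdiag i)
      · rcases idx_total hall hij with h1 | h1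
        · exact (hoff ⟨(i, j), h1, hb⟩).symm
        · rw [hoff ⟨(j, i), h1, hb.symm⟩, star_star]
    · rw [hM.2 i j hb, hM.2 j i (Ne.symm hb), star_zero]
  have := (Matrix.mem_unitaryGroup_iff.1 hM.1)
  rwa [hs] at this

/-- The cut-off near the boundary of the cell. -/
noncomputable def bb (x : XX blk ord) : ℝ := ∏ j, Real.smoothTransition (x.2.2 j + 2)

theorem bb_smooth : ContDiff ℝ 2 (bb : XX blk ord → ℝ) :=
  contDiff_prod fun j _ => Real.smoothTransition.contDiff.comp (by fun_prop)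

theorem bb_nonneg (x : XX blk ord) : 0 ≤ bb x :=
  Finset.prod_nonneg fun _ _ => Real.smoothTransition.nonneg _

theorem bb_one {x : XX blk ord} (h : ∀ j, -1 ≤ x.2.2 j) : bb x = 1 :=
  Finset.prod_eq_one fun j _ => Real.smoothTransition.one_of_one_le (by linarith [h j])

theorem bb_fderiv {x : XX blk ord} (h : fderiv ℝ bb x ≠ 0) : ∃ j, x.2.2 j < 0 := by
  by_contra hc
  push Not at hc
  apply h
  have : (bb : XX blk ord → ℝ) =ᶠ[nhds x] fun _ => 1 := by
    have : ∀ᶠ y : XX blk ord in nhds x, ∀ j, -1 < y.2.2 j :=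
      Filter.eventually_all.2 fun j =>
        (show ContinuousAt (fun y : XX blk ord => y.2.2 j) x by fun_prop).eventually
          (lt_mem_nhds (by linarith [hc j]))
    filter_upwards [this] with y hy
    exact bb_one fun j => (hy j).le
  rw [this.fderiv_eq]
  simp

theorem supp {M : Matrix H H ℂ} {x : XX blk ord} (h : ‖FF blk ord M (qq x)‖ < 1 / 2)
    (hb : bb x ≠ 0) : x ∈ Metric.closedBall (0 : XX blk ord) 2 := by
  have hv : ∀ j k, ‖vv x j k‖ < 2 := fun j k => by
    have h1 := (abs_le.1 (small h.le j).2).2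
    have h2 : ‖vv x j k‖ ^ 2 ≤ ∑ k, ‖vv x j k‖ ^ 2 :=
      Finset.single_le_sum (f := fun k => ‖vv x j k‖ ^ 2) (fun _ _ => sq_nonneg _)
        (Finset.mem_univ k)
    nlinarith [norm_nonneg (vv x j k)]
  rw [mem_closedBall_zero_iff, norm_prod_le_iff, norm_prod_le_iff, pi_norm_le_iff_of_nonneg two_pos.le,
    pi_norm_le_iff_of_nonneg two_pos.le, pi_norm_le_iff_of_nonneg two_pos.le]
  refine ⟨fun p => ?_, fun j => ?_, fun j => ?_⟩
  · have := hv p.1.2 p.1.1
    rw [vv, ext_ix] at this
    exact this.le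
  · have h1 := (abs_le.1 (small h.le j).1).2
    nlinarith [norm_nonneg (x.2.1 j)]
  · rw [Real.norm_eq_abs, abs_le]
    constructor
    · by_contra hc
      exact hb (Finset.prod_eq_zero (Finset.mem_univ j)
        (Real.smoothTransition.zero_of_nonpos (by linarith [not_le.1 hc])))
    · by_contra hc
      have := hv j j
      rw [vv, ext_self, sig_big (by linarith [not_le.1 hc]), Complex.norm_real,
        Real.norm_eq_abs] at this
      linarith [le_abs_self (x.2.2 j), not_le.1 hc]

/-- Two independent directions along which the parameters do not move. -/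
theorem degen {E : Type*} [NormedAddCommGroup E] [NormedSpace ℝ E] (G : ℝ × Par H → E)
    (hG : ContDiff ℝ 2 G) (t : ℝ) {x : XX blk ord} {j : H} (hj : x.2.2 j < 0)
    (hv : ∑ k, ‖vv x j k‖ ^ 2 ≠ 0) :
    ∃ u v : ℝ × XX blk ord, LinearIndependent ℝ ![u, v] ∧
      fderiv ℝ (fun p : ℝ × XX blk ord => G (p.1, qq p.2)) (t, x) u = 0 ∧
      fderiv ℝ (fun p : ℝ × XX blk ord => G (p.1, qq p.2)) (t, x) v = 0 := by
  have hd : DifferentiableAt ℝ (fun p : ℝ × XX blk ord => G (p.1, qq p.2)) (t, x) :=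
    ((hG.comp (contDiff_fst.prodMk (qq_smooth.comp contDiff_snd))).differentiable
      two_ne_zero).differentiableAt
  obtain ⟨p, hp, hz⟩ : ∃ p : Ix blk ord, p.1.2 = j ∧ x.1 p ≠ 0 := by
    obtain ⟨k, -, hk⟩ := Finset.exists_ne_zero_of_sum_ne_zero hv
    have hk' : vv x j k ≠ 0 := by rintro h; simp [h] at hk
    unfold vv ext at hk'
    split_ifs at hk' with h1 h2
    · simp [sig_nonpos hj.le] at hk'
    · exact ⟨⟨(k, j), h2⟩, rfl, hk'⟩
    · exact absurd rfl hk'
  refine ⟨(0, 0, 0, Pi.single j 1),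
    (0, fun p => if p.1.2 = j then Complex.I * x.1 p else 0, 0, 0), ?_, ?_, ?_⟩
  · rw [LinearIndependent.pair_iff]
    intro a b hab
    have h1 := congrArg (fun y => y.2.2.2 j) hab
    have h2 := congrArg (fun y => y.2.1 p) hab
    simp [hp, hz] at h1 h2
    exact ⟨h1, h2⟩
  · refine fderiv_const_path hd (γ := fun s => (t, x.1, x.2.1, x.2.2 + s • Pi.single j 1))
      (by simp) ?_ ?_
    · refine (hasDerivAt_const _ _).prodMk ((hasDerivAt_const _ _).prodMk
        ((hasDerivAt_const _ _).prodMk ?_))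
      simpa using ((hasDerivAt_id (0 : ℝ)).smul_const (Pi.single j 1 : H → ℝ)).const_add x.2.2
    · filter_upwards [gt_mem_nhds (show (0 : ℝ) < -x.2.2 j by linarith)] with s hs
      have : vv (blk := blk) (ord := ord) (x.1, x.2.1, x.2.2 + s • Pi.single j 1) = vv x := by
        unfold vv
        congr 1
        funext i
        by_cases hi : i = j
        · subst hi
          simp only [Pi.add_apply, Pi.smul_apply, Pi.single_eq_same, smul_eq_mul, mul_one]
          rw [sig_nonpos hj.le, sig_nonpos (by linarith)]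
        · simp [Pi.single_eq_of_ne hi]
      simp only [qq, this]
  · refine fderiv_const_path hd (γ := fun s => (t, fun p => if p.1.2 = j then
      Complex.exp (s * Complex.I) * x.1 p else x.1 p, x.2.1, x.2.2)) (by simp) ?_ ?_
    · refine (hasDerivAt_const _ _).prodMk (HasDerivAt.prodMk (hasDerivAt_pi.2 fun p => ?_)
        (hasDerivAt_const _ _))
      split_ifs
      · simpa using (((Complex.ofRealCLM.hasDerivAt (x := (0 : ℝ))).mul_const
          Complex.I).cexp).mul_const (x.1 p)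
      · exact hasDerivAt_const _ _
    · refine Filter.Eventually.of_forall fun s => ?_
      have h1 : ∀ i k, vv (blk := blk) (ord := ord) (fun p => if p.1.2 = j then
          Complex.exp (s * Complex.I) * x.1 p else x.1 p, x.2.1, x.2.2) i k =
          (if i = j then Complex.exp (s * Complex.I) else 1) * vv x i k := by
        intro i k
        unfold vv ext
        by_cases hi : i = j
        · subst hi
          simp only [if_true]
          split_ifs <;> simp [sig_nonpos hj.le]
        · simp [hi]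
      have h2 : Complex.exp (s * Complex.I) * star (Complex.exp (s * Complex.I)) = 1 := by
        rw [Complex.star_def, Complex.mul_conj, Complex.normSq_eq_norm_sq,
          Complex.norm_exp_ofReal_mul_I]
        simp
      congr 2
      simp only [qq, h1, Prod.mk.injEq, true_and]
      funext i a b
      split_ifs
      · rw [star_mul']
        linear_combination (vv x i a * star (vv x i b)) * h2
      · simp

/-- The ordered product of powers. -/
noncomputable def simple (ord : List H) (dx : H → ℕ) (y : Par H) : Matrix H H ℂ :=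
  (ord.map fun j => rf y (dx j) j).prod

variable (blk) in
/-- The equations at the end of the homotopy. -/
noncomputable def gg (ord : List H) (dx : H → ℕ) (x : XX blk ord) : XX blk ord :=
  FF blk ord (-simple ord dx (qq x)) (qq x)

theorem smo_simple (dx : H → ℕ) : Smo (simple ord dx : Par H → Matrix H H ℂ) :=
  smo_prod (fun y j => rf y (dx j) j) (fun j => smo_rf _ j) ord

theorem gg_smooth (dx : H → ℕ) : ContDiff ℝ 2 (gg blk ord dx) :=
  FF_smooth (fun i j => ((smo_simple dx i j).comp qq_smooth).neg) qq_smooth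

/-- The distinguished points. -/
def pt (ζ : H → ℂ) : XX blk ord := (0, ζ, fun _ => 1)

theorem vv_pt (ζ : H → ℂ) (j : H) : vv (pt ζ : XX blk ord) j = Pi.single j 1 := by
  funext k
  unfold vv ext pt
  split_ifs with h1 h2
  · subst h1; simp [sig_big (show (1 / 2 : ℝ) ≤ 1 by norm_num)]
  · simp [h1]
  · simp [h1]

theorem rf_pt {ζ : H → ℂ} {dx : H → ℕ} (hζ : ∀ j, ζ j ^ dx j = -1) (j : H) :
    rf (qq (pt ζ : XX blk ord)) (dx j) j = diagonal fun k => if k = j then -1 else 1 := by
  ext a b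
  have : (qq (pt ζ : XX blk ord)).1 j = ζ j := rfl
  rw [rf, of_qq, vv_pt, this, hζ]
  by_cases ha : a = j <;> by_cases hb : b = j <;> by_cases hab : a = b <;>
    simp_all [vecMulVec_apply, one_apply]

theorem simple_pt (hn : ord.Nodup) (hall : ∀ j, j ∈ ord) {ζ : H → ℂ} {dx : H → ℕ}
    (hζ : ∀ j, ζ j ^ dx j = -1) : simple ord dx (qq (pt ζ : XX blk ord)) = -1 := by
  simp only [simple, rf_pt hζ]
  exact prod_diag hn hall

theorem gg_pt (hn : ord.Nodup) (hall : ∀ j, j ∈ ord) {ζ : H → ℂ} {dx : H → ℕ}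
    (hζ : ∀ j, ζ j ^ dx j = -1) (h1 : ∀ j, ‖ζ j‖ = 1) : gg blk ord dx (pt ζ) = 0 := by
  rw [gg, simple_pt hn hall hζ, neg_neg]
  refine Prod.ext (funext fun p => ?_) (Prod.ext (funext fun j => ?_) (funext fun j => ?_))
  · have : p.1.1 ≠ p.1.2 := fun h => by have := p.2.1; rw [h] at this; exact lt_irrefl _ this
    simp [FF, one_apply_ne this, one_apply_ne this.symm]
  · have : (qq (pt ζ : XX blk ord)).1 j = ζ j := rfl
    simp only [FF, this, re_mul_star, h1]
    simp
  · simp only [FF, tr_qq, vv_pt]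
    simp [Pi.single_apply, apply_ite]

theorem eq_pt (hn : ord.Nodup) (hall : ∀ j, j ∈ ord) {dx : H → ℕ} {x : XX blk ord}
    (h : gg blk ord dx x = 0) (h' : simple ord dx (qq x) = -1) :
    x = pt x.2.1 ∧ ∀ j, x.2.1 j ^ dx j = -1 ∧ ‖x.2.1 j‖ = 1 := by
  have key := peel hn hall (vv x) (fun j => x.2.1 j ^ dx j) (fun j => (zero_unit h j).2)
    (fun j k hk => (ext_ne hk).1) (fun j => ⟨_, sig_nonneg _, ext_self _ _ j⟩)
    (by simp only [simple, rf, of_qq] at h'; exact h')
  refine ⟨Prod.ext (funext fun p => ?_) (Prod.ext rfl (funext fun j => ?_)),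
    fun j => ⟨(key j).2, (zero_unit h j).1⟩⟩
  · have : p.1.1 ≠ p.1.2 := fun h => by have := p.2.1; rw [h] at this; exact lt_irrefl _ this
    have h1 := congrFun (key p.1.2).1 p.1.1
    rw [vv, ext_ix, Pi.single_eq_of_ne this] at h1
    exact h1
  · have h1 := congrFun (key j).1 j
    rw [vv, ext_self, Pi.single_eq_same] at h1
    exact sig_eq_one (by exact_mod_cast h1)

variable (blk ord) in
/-- Rotation of the phases. -/
noncomputable def rot (ω : H → ℂ) : XX blk ord →L[ℝ] XX blk ord :=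
  (ContinuousLinearMap.id ℝ _).prodMap
    ((ContinuousLinearMap.pi fun j => (ContinuousLinearMap.mul ℝ ℂ (ω j)).comp
      (ContinuousLinearMap.proj j)).prodMap (ContinuousLinearMap.id ℝ _))

theorem rot_apply (ω : H → ℂ) (x : XX blk ord) :
    rot blk ord ω x = (x.1, fun j => ω j * x.2.1 j, x.2.2) := rfl

theorem rot_mul (ω ω' : H → ℂ) :
    rot blk ord (ω * ω') = (rot blk ord ω).comp (rot blk ord ω') := by
  ext x <;> simp [rot_apply, mul_assoc]

theorem rot_det {ω : H → ℂ} (h : ∀ j, ω j ≠ 0) : 0 < (rot blk ord ω).det := by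
  choose η hη using fun j => IsAlgClosed.exists_eq_mul_self (ω j)
  have h0 : ∀ j, η j ≠ 0 := fun j h' => h j (by rw [hη j, h', mul_zero])
  have h1 : ω = η * η := funext hη
  have h2 : η * η⁻¹ = 1 := funext fun j => mul_inv_cancel₀ (h0 j)
  have h3 : rot blk ord 1 = ContinuousLinearMap.id ℝ _ := by
    ext x <;> simp [rot_apply]
  have hm : ∀ a b : H → ℂ, (rot blk ord (a * b)).det =
      (rot blk ord a).det * (rot blk ord b).det := fun a b => by
    rw [rot_mul]
    exact LinearMap.det_comp _ _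
  have h4 : (rot blk ord η).det ≠ 0 := by
    have := hm η η⁻¹
    rw [h2, h3] at this
    intro h5
    rw [h5, zero_mul] at this
    exact one_ne_zero (LinearMap.det_id.symm.trans this)
  rw [h1, hm]
  exact mul_self_pos.2 h4

theorem gg_rot {dx : H → ℕ} {ω : H → ℂ} (h : ∀ j, ω j ^ dx j = 1) (h1 : ∀ j, ‖ω j‖ = 1)
    (x : XX blk ord) : gg blk ord dx (rot blk ord ω x) = gg blk ord dx x := by
  have h2 : simple ord dx (qq (rot blk ord ω x)) = simple ord dx (qq x) := by
    unfold simple
    congr 1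
    refine List.map_congr_left fun j _ => ?_
    simp only [rf, qq, rot_apply, mul_pow, h, one_mul]
    rfl
  rw [gg, gg, h2]
  refine Prod.ext rfl (Prod.ext (funext fun j => ?_) rfl)
  simp only [FF, re_mul_star, qq, rot_apply, norm_mul, h1, one_mul]

theorem hd_re {f : ℝ → ℂ} {f' : ℂ} {s : ℝ} (h : HasDerivAt f f' s) :
    HasDerivAt (fun s => (f s).re) f'.re s :=
  Complex.reCLM.hasFDerivAt.comp_hasDerivAt s h

theorem hd_im {f : ℝ → ℂ} {f' : ℂ} {s : ℝ} (h : HasDerivAt f f' s) :
    HasDerivAt (fun s => (f s).im) f'.im s :=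
  Complex.imCLM.hasFDerivAt.comp_hasDerivAt s h

theorem hd_ofReal {f : ℝ → ℝ} {f' : ℝ} {s : ℝ} (h : HasDerivAt f f' s) :
    HasDerivAt (fun s => (f s : ℂ)) (f' : ℂ) s :=
  Complex.ofRealCLM.hasFDerivAt.comp_hasDerivAt s h

theorem hd_proj {f : ℝ → XX blk ord} (h : HasDerivAt f 0 0) :
    (∀ p, HasDerivAt (fun s => (f s).1 p) 0 0) ∧ (∀ j, HasDerivAt (fun s => (f s).2.1 j) 0 0) ∧
      ∀ j, HasDerivAt (fun s => (f s).2.2 j) 0 0 := by
  have h1 : HasDerivAt (fun s => (f s).1) 0 0 := by simpa using h.hasFDerivAt.fst.hasDerivAt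
  have h2 : HasDerivAt (fun s => (f s).2) 0 0 := by simpa using h.hasFDerivAt.snd.hasDerivAt
  have h3 : HasDerivAt (fun s => (f s).2.1) 0 0 := by simpa using h2.hasFDerivAt.fst.hasDerivAt
  have h4 : HasDerivAt (fun s => (f s).2.2) 0 0 := by simpa using h2.hasFDerivAt.snd.hasDerivAt
  exact ⟨hasDerivAt_pi.1 h1, hasDerivAt_pi.1 h3, hasDerivAt_pi.1 h4⟩

theorem vv_deriv (ζ : H → ℂ) (w : XX blk ord) (j k : H) :
    HasDerivAt (fun s : ℝ => vv (pt ζ + s • w) j k) (ext w.1 (fun j => (w.2.2 j : ℂ)) j k) 0 := by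
  unfold vv ext
  split_ifs with h1 h2
  · exact hd_ofReal (sig_deriv _)
  · simpa [pt] using (hasDerivAt_id (0 : ℝ)).smul_const (w.1 ⟨(k, j), h2⟩)
  · exact hasDerivAt_const _ _

theorem qq_deriv (ζ : H → ℂ) (w : XX blk ord) (j a b : H) :
    HasDerivAt (fun s : ℝ => (qq (pt ζ + s • w)).2 j a b)
      ((if b = j then ext w.1 (fun j => (w.2.2 j : ℂ)) j a else 0) +
        if a = j then star (ext w.1 (fun j => (w.2.2 j : ℂ)) j b) else 0) 0 := by
  have := (vv_deriv ζ w j a).mul (vv_deriv ζ w j b).star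
  refine this.congr_deriv ?_
  simp only [zero_smul, add_zero, vv_pt, Pi.single_apply]
  split_ifs <;> simp

theorem ze_deriv (ζ : H → ℂ) (w : XX blk ord) (j : H) :
    HasDerivAt (fun s : ℝ => (qq (pt ζ + s • w)).1 j) (w.2.1 j) 0 := by
  simpa [qq, pt] using ((hasDerivAt_id (0 : ℝ)).smul_const (w.2.1 j)).const_add (ζ j)

theorem nondeg (hn : ord.Nodup) (hall : ∀ j, j ∈ ord) {ζ : H → ℂ} {dx : H → ℕ}
    (hdx : ∀ j, 1 ≤ dx j) (hζ : ∀ j, ζ j ^ dx j = -1) (h1 : ∀ j, ‖ζ j‖ = 1) :
    (fderiv ℝ (gg blk ord dx) (pt ζ)).det ≠ 0 := by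
  intro hdet
  obtain ⟨w, hw, hw0⟩ : ∃ w : XX blk ord, fderiv ℝ (gg blk ord dx) (pt ζ) w = 0 ∧ w ≠ 0 := by
    have := LinearMap.bot_lt_ker_of_det_eq_zero hdet
    obtain ⟨w, hw, hw0⟩ := SetLike.exists_of_lt this
    exact ⟨w, hw, by simpa using hw0⟩
  apply hw0
  have hg : HasDerivAt (fun s : ℝ => gg blk ord dx (pt ζ + s • w)) 0 0 := by
    have h2 : HasDerivAt (fun s : ℝ => (pt ζ : XX blk ord) + s • w) w 0 := by
      simpa using ((hasDerivAt_id (0 : ℝ)).smul_const w).const_add (pt ζ)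
    have h3 : HasFDerivAt (gg blk ord dx) (fderiv ℝ (gg blk ord dx) (pt ζ))
        ((fun s : ℝ => (pt ζ : XX blk ord) + s • w) 0) := by
      simpa using ((gg_smooth dx).differentiable two_ne_zero (pt ζ)).hasFDerivAt
    exact (h3.comp_hasDerivAt 0 h2).congr_deriv hw
  set v' := ext w.1 fun j => (w.2.2 j : ℂ) with hv'
  set R' : H → Matrix H H ℂ := fun j => Matrix.of fun a b =>
    (if a = j ∧ b = j then dx j * ζ j ^ (dx j - 1) * w.2.1 j else 0) -
      2 * ((if b = j then v' j a else 0) + if a = j then star (v' j b) else 0) with hR'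
  have hM := prod_deriv hn hall (fun s j => rf (qq (pt ζ + s • w)) (dx j) j) R' (fun j a b => by
      have h2 := ((((ze_deriv ζ w j).pow (dx j)).sub_const 1).mul
        (qq_deriv ζ w j a b)).const_add ((1 : Matrix H H ℂ) a b)
      refine h2.congr_deriv ?_
      have e1 : (qq (pt ζ : XX blk ord)).1 j = ζ j := rfl
      have e2 : (qq (pt ζ : XX blk ord)).2 j a b = if a = j ∧ b = j then 1 else 0 := by
        simp only [qq, vv_pt, Pi.single_apply]
        split_ifs <;> simp_all
      simp only [hR', Matrix.of_apply, zero_smul, add_zero, Pi.pow_apply, e1, e2, hζ]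
      split_ifs <;> ring)
    (fun j => by simpa using rf_pt hζ j) (fun j a b h => by
      by_cases ha : a = j <;> by_cases hb : b = j
      · exact Or.inl ⟨ha, by rw [hb]⟩
      · exact Or.inl ⟨ha, (ext_ne (z := w.1) (d := fun j => (w.2.2 j : ℂ)) fun h' =>
          h (by simp [hR', hb, hv', h'])).1⟩
      · exact Or.inr ⟨hb, (ext_ne (z := w.1) (d := fun j => (w.2.2 j : ℂ)) fun h' =>
          h (by simp [hR', ha, hv', h'])).1⟩
      · simp [hR', ha, hb] at h)
  have hr : ∀ j, w.2.2 j = 0 := fun j => by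
    have h2 := (hd_proj hg).2.2 j
    have h3 := (hd_re (HasDerivAt.fun_sum fun k (_ : k ∈ Finset.univ) =>
      qq_deriv ζ w j k k)).sub_const 1
    have h4 := h2.unique h3
    simp [Finset.sum_add_distrib, ext_self] at h4
    linarith
  refine Prod.ext (funext fun p => ?_) (Prod.ext (funext fun j => ?_) (funext hr))
  · have h2 := (hd_proj hg).1 p
    have h3 : HasDerivAt (fun s : ℝ => (gg blk ord dx (pt ζ + s • w)).1 p) _ 0 :=
      (hM p.1.1 p.1.2).fun_neg.fun_sub (hM p.1.2 p.1.1).fun_neg.star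
    have h4 := h2.unique h3
    have hne : p.1.1 ≠ p.1.2 := fun h => by have := p.2.1; rw [h] at this; exact lt_irrefl _ this
    simp [p.2.1, p.2.1.not_gt, hR', hne, hv', ext_ix] at h4
    change w.1 p = 0
    linear_combination (1 / 4 : ℂ) * h4
  · have h2 := (hd_proj hg).2.1 j
    have h3 := (hd_ofReal ((hd_re ((ze_deriv ζ w j).mul (ze_deriv ζ w j).star)).sub_const 1)).add
      ((hd_ofReal (hd_im (hM j j).neg)).const_mul Complex.I)
    have h4 := h2.unique h3
    have e1 : (qq (pt ζ : XX blk ord)).1 j = ζ j := rfl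
    have e2 : ζ j * star (ζ j) = 1 := by
      rw [Complex.star_def, Complex.mul_conj, Complex.normSq_eq_norm_sq, h1]; simp
    have e3 : ζ j ^ (dx j - 1) = -star (ζ j) := by
      have := hζ j
      rw [← Nat.sub_add_cancel (hdx j), pow_succ] at this
      linear_combination star (ζ j) * this - ζ j ^ (dx j - 1) * e2
    have e4 : (dx j : ℝ) ≠ 0 := by have := hdx j; positivity
    simp only [zero_smul, add_zero, e1, lt_irrefl, if_false, hR', Matrix.of_apply, and_self,
      if_true, hv', ext_self, hr, e3] at h4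
    have h5 := congrArg Complex.re h4
    have h6 := congrArg Complex.im h4
    simp at h5 h6
    have h7 : star (ζ j) * w.2.1 j = 0 := by
      apply Complex.ext
      · simp; linarith
      · apply mul_left_cancel₀ e4
        simp only [Complex.star_def, Complex.mul_im, Complex.conj_re, Complex.conj_im,
          Complex.zero_im]
        linarith
    have : w.2.1 j = 0 := by linear_combination ζ j * h7 - w.2.1 j * e2
    simpa using this

theorem eq_one_of_sum {U : Matrix H H ℂ} (h : ∑ i, ∑ j, Complex.normSq ((U - 1) i j) = 0) :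
    U = 1 := by
  rw [← sub_eq_zero]
  ext i j
  have h1 := (Finset.sum_eq_zero_iff_of_nonneg fun i _ => Finset.sum_nonneg fun j _ =>
    Complex.normSq_nonneg _).1 h i (Finset.mem_univ i)
  exact Complex.normSq_eq_zero.1 ((Finset.sum_eq_zero_iff_of_nonneg fun j _ =>
    Complex.normSq_nonneg _).1 h1 j (Finset.mem_univ j))

theorem exists_root {d : ℕ} (hd : 1 ≤ d) : ∃ ζ : ℂ, ζ ^ d = -1 ∧ ‖ζ‖ = 1 := by
  obtain ⟨ζ, hζ⟩ := IsAlgClosed.exists_pow_nat_eq (-1 : ℂ) hd
  refine ⟨ζ, hζ, ?_⟩
  have := congrArg norm hζ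
  rw [norm_pow, norm_neg, norm_one] at this
  exact (pow_eq_one_iff_of_nonneg (norm_nonneg _) (by omega)).1 this

theorem sign_eq (hn : ord.Nodup) (hall : ∀ j, j ∈ ord) {ζ ξ : H → ℂ} {dx : H → ℕ}
    (hdx : ∀ j, 1 ≤ dx j) (hζ : ∀ j, ζ j ^ dx j = -1 ∧ ‖ζ j‖ = 1)
    (hξ : ∀ j, ξ j ^ dx j = -1 ∧ ‖ξ j‖ = 1) :
    0 < (fderiv ℝ (gg blk ord dx) (pt ζ)).det * (fderiv ℝ (gg blk ord dx) (pt ξ)).det := by
  have h0 : ∀ j, ζ j ≠ 0 := fun j h => by have := (hζ j).2; simp [h] at this
  have h0' : ∀ j, ξ j ≠ 0 := fun j h => by have := (hξ j).2; simp [h] at this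
  set ω : H → ℂ := fun j => ξ j / ζ j with hω
  have h1 : rot blk ord ω (pt ζ) = pt ξ := by
    simp [rot_apply, pt, hω, h0]
  have h2 : gg blk ord dx ∘ rot blk ord ω = gg blk ord dx := funext fun x =>
    gg_rot (fun j => by simp [hω, div_pow, (hζ j).1, (hξ j).1])
      (fun j => by simp [hω, (hζ j).2, (hξ j).2]) x
  have h3 : fderiv ℝ (gg blk ord dx) (pt ζ) =
      (fderiv ℝ (gg blk ord dx) (pt ξ)).comp (rot blk ord ω) := by
    conv_lhs => rw [← h2]
    rw [fderiv_comp _ ((gg_smooth dx).differentiable two_ne_zero _) (rot blk ord ω).differentiableAt,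
      h1, ContinuousLinearMap.fderiv]
  have h4 : (fderiv ℝ (gg blk ord dx) (pt ζ)).det =
      (fderiv ℝ (gg blk ord dx) (pt ξ)).det * (rot blk ord ω).det := by
    rw [h3]
    exact LinearMap.det_comp _ _
  have h5 := nondeg (blk := blk) hn hall hdx (fun j => (hξ j).1) fun j => (hξ j).2
  have h6 : 0 < (rot blk ord ω).det := rot_det fun j => div_ne_zero (h0' j) (h0 j)
  rw [h4, mul_right_comm]
  exact mul_pos (mul_self_pos.2 h5) h6

end CellAux

open CellAux in
/-- A family homotopic to the ordered product of powers of the pseudo-reflections takes the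
value `1`. -/
theorem cell {H B : Type} [Fintype H] [DecidableEq H] [DecidableEq B] (blk : H → B)
    {ord : List H} (hn : ord.Nodup) (hall : ∀ j, j ∈ ord) (dx : H → ℕ) (hdx : ∀ j, 1 ≤ dx j)
    (Ψ : ℝ × Par H → Matrix H H ℂ) (hsm : Smo Ψ)
    (hU : ∀ t, ∀ y ∈ Adm blk ord, UB blk (Ψ (t, y)))
    (h1 : ∀ y ∈ Adm blk ord, Ψ (1, y) = -(ord.map fun j => rf y (dx j) j).prod) :
    ∃ y ∈ Adm blk ord, Ψ (0, y) = 1 := by
  obtain ⟨Φ, hΦ, hΦ1, hΦ2⟩ : ∃ Φ : ℝ × Par H → Matrix H H ℂ, Smo Φ ∧
      (∀ y, Φ (1, y) = -simple ord dx y) ∧ ∀ t, ∀ y ∈ Adm blk ord, Φ (t, y) = Ψ (t, y) := by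
    refine ⟨fun p => Ψ p + (p.1 : ℂ) • (-simple ord dx p.2 - Ψ (1, p.2)), fun i j => ?_,
      fun y => by simp, fun t y hy => by simp [h1 y hy, simple]⟩
    exact (hsm i j).add ((cd_ofReal contDiff_fst).mul
      (((smo_simple dx i j).comp contDiff_snd).neg.sub
        ((hsm i j).comp (contDiff_const.prodMk contDiff_snd))))
  have hq : ContDiff ℝ 2 fun p : ℝ × XX blk ord => (p.1, qq p.2) :=
    contDiff_fst.prodMk (qq_smooth.comp contDiff_snd)
  have hG : ContDiff ℝ 2 fun p : ℝ × Par H => FF blk ord (Φ p) p.2 := FF_smooth hΦ contDiff_snd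
  choose ζ hζ using fun j => exists_root (hdx j)
  have hg : (fun y : XX blk ord => FF blk ord (Φ (1, qq y)) (qq y)) = gg blk ord dx := by
    funext y
    rw [hΦ1, gg]
  obtain ⟨x, hx, hx'⟩ := deg (fun p : ℝ × XX blk ord => FF blk ord (Φ (p.1, qq p.2)) (qq p.2))
    (fun p => ∑ i, ∑ j, Complex.normSq ((Φ (p.1, qq p.2) - 1) i j)) bb (hG.comp hq)
    (ContDiff.sum fun i _ => ContDiff.sum fun j _ => by
      have : ContDiff ℝ 2 fun p : ℝ × XX blk ord => (Φ (p.1, qq p.2) - 1) i j :=
        ((hΦ i j).comp hq).sub contDiff_const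
      simp only [Complex.normSq_apply]
      exact ((cd_re this).mul (cd_re this)).add ((cd_im this).mul (cd_im this)))
    bb_smooth bb_nonneg (isCompact_closedBall 0 2) (fun t _ x hx hb => supp hx hb)
    (fun t _ x hx => gap (zero_herm hall hx (hΦ2 t _ (zero_adm hx) ▸ hU t _ (zero_adm hx))))
    (fun t _ x hx hb => by
      obtain ⟨j, hj⟩ := bb_fderiv hb
      refine degen _ hG t hj fun h => ?_
      have := (small hx.le j).2
      rw [h] at this
      norm_num at this)
    (fderiv ℝ (gg blk ord dx) (pt ζ)).det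
    (fun x hx hc => by
      have h2 : gg blk ord dx x = 0 := (congrFun hg x).symm.trans hx
      have h3 : simple ord dx (qq x) = -1 := by
        rw [← eq_one_of_sum hc, hΦ1, neg_neg]
      obtain ⟨h4, h5⟩ := eq_pt hn hall h2 h3
      simp only [hg]
      rw [h4]
      exact sign_eq hn hall hdx hζ h5)
    (pt ζ) ((congrFun hg _).trans (gg_pt hn hall (fun j => (hζ j).1) fun j => (hζ j).2))
    (by simp [hΦ1, simple_pt hn hall fun j => (hζ j).1])
    (by rw [bb_one fun j => by simp [pt]]; exact one_ne_zero)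
  exact ⟨qq x, zero_adm hx, (hΦ2 0 _ (zero_adm hx)).symm.trans (eq_one_of_sum hx')⟩

end Crest.Agent.R174
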