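import Mathlib

/-! Row 174 (nonsingular systems of equations over groups): definitions.

Outline of the proof.  Suppose `g ≠ 1` is a product of conjugates of the relators.  Write this
product as one word `W` whose letters sit at distinct positions, and let `cW W` be the monomial
matrix of the labelled cycle read from `W` (one extra index `none`).
* `dyck`: the cancellation pairing `ν` of `W` makes `ν * cW W` diagonal up to `L/2` transpositions.
* `build`: `cW W` is the face rotation `Φ` up to (faces + stems) transpositions.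
* `mirror`: the mirror pairing, twisted by unitaries `γ r` that mix the faces of type `r`, times
  `Φ`, is a product of reflections.
* `exists_gamma` (a degree argument on unitary groups): for some `γ`, `ν` and the twisted mirror
  pairing differ by few reflections.
Hence `diag (ζ g, ω, …, ω)` is a product of `2 L` reflections in dimension `L + 1`, which the
phase inequality `no_RP` forbids. -/

set_option autoImplicit false

namespace Crest.Agent.R174

open Matrix Monoid

section refl
variable {κ A : Type*} [Fintype κ] [DecidableEq κ] [Ring A] [StarRing A]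

/-- A reflection along a unit column vector. -/
def IsRefl (R : Matrix κ κ A) : Prop :=
  ∃ v : κ → A, star v ⬝ᵥ v = 1 ∧ R = 1 - 2 • vecMulVec v (star v)

/-- Products of `k` reflections. -/
inductive RP : ℕ → Matrix κ κ A → Prop
  | one : RP 0 1
  | mul {k : ℕ} {X R : Matrix κ κ A} : RP k X → IsRefl R → RP (k + 1) (X * R)

/-- Products of `k` complex pseudo-reflections. -/
inductive PR : ℕ → Matrix κ κ ℂ → Prop
  | one : PR 0 1
  | mul {k : ℕ} {X : Matrix κ κ ℂ} {v : κ → ℂ} {ζ : ℂ} : PR k X → star v ⬝ᵥ v = 1 → ‖ζ‖ = 1 →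
      PR (k + 1) (X * (1 + (ζ - 1) • vecMulVec v (star v)))

/-- A scalar matrix viewed over `A`, with one more index on which it is the identity. -/
def emb (A : Type*) [Ring A] [Algebra ℂ A] (X : Matrix κ κ ℂ) : Matrix (Option κ) (Option κ) A :=
  Matrix.of fun i j => match i, j with
    | none, none => 1
    | some i, some j => algebraMap ℂ A (X i j)
    | _, _ => 0

end refl

/-- Monomial elements: `j` is sent to `perm j` with label `lab j`. -/
@[ext] structure Mon (κ Γ : Type*) where
  perm : Equiv.Perm κ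
  lab : κ → Γ

namespace Mon
variable {κ Γ : Type*} [Group Γ]

instance : Mul (Mon κ Γ) := ⟨fun m n => ⟨m.perm * n.perm, fun j => m.lab (n.perm j) * n.lab j⟩⟩
instance : One (Mon κ Γ) := ⟨⟨1, fun _ => 1⟩⟩
instance : Inv (Mon κ Γ) := ⟨fun m => ⟨m.perm⁻¹, fun j => (m.lab (m.perm⁻¹ j))⁻¹⟩⟩

@[simp] theorem mul_perm (m n : Mon κ Γ) : (m * n).perm = m.perm * n.perm := rfl
@[simp] theorem mul_lab (m n : Mon κ Γ) (j : κ) :
    (m * n).lab j = m.lab (n.perm j) * n.lab j := rfl
@[simp] theorem one_perm : (1 : Mon κ Γ).perm = 1 := rfl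
@[simp] theorem one_lab (j : κ) : (1 : Mon κ Γ).lab j = 1 := rfl
@[simp] theorem inv_perm (m : Mon κ Γ) : m⁻¹.perm = m.perm⁻¹ := rfl
@[simp] theorem inv_lab (m : Mon κ Γ) (j : κ) : m⁻¹.lab j = (m.lab (m.perm⁻¹ j))⁻¹ := rfl

instance : Group (Mon κ Γ) := Group.ofLeftAxioms
  (fun a b c => by ext j <;> simp [mul_assoc])
  (fun a => by ext j <;> simp)
  (fun a => by ext j <;> simp)

end Mon

section mon
variable {κ Γ : Type*} [DecidableEq κ] [Group Γ]

/-- A labelled transposition. -/
def tr (i j : κ) (x : Γ) : Mon κ Γ :=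
  ⟨Equiv.swap i j, fun k => if k = i then x else if k = j then x⁻¹ else 1⟩

/-- A diagonal element. -/
def dg (x : κ → Γ) : Mon κ Γ := ⟨1, x⟩

/-- Products of `k` labelled transpositions. -/
inductive MP : ℕ → Mon κ Γ → Prop
  | one : MP 0 1
  | mul {k : ℕ} {m : Mon κ Γ} {i j : κ} (x : Γ) : MP k m → i ≠ j → MP (k + 1) (m * tr i j x)

/-- Two monomial elements that differ by `k` labelled transpositions. -/
def Near (k : ℕ) (m n : Mon κ Γ) : Prop := MP k (m⁻¹ * n)

/-- `m` acts trivially outside `S`. -/
def Supp (m : Mon κ Γ) (S : Set κ) : Prop := ∀ j, j ∉ S → m.perm j = j ∧ m.lab j = 1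

/-- The matrix of a monomial element with unitary labels. -/
def mat {A : Type*} [Ring A] [StarRing A] (m : Mon κ (unitary A)) : Matrix κ κ A :=
  Matrix.of fun i j => if i = m.perm j then (m.lab j : A) else 0

/-- A scalar monomial matrix. -/
noncomputable def monoMat (a : Equiv.Perm κ) (φ : κ → Circle) : Matrix κ κ ℂ :=
  Matrix.of fun i j => if i = a j then (φ j : ℂ) else 0

end mon

section words
variable {G Γ ι : Type*} [Group G] [Group Γ] [DecidableEq ι] {m : ℕ}

/-- The monomial element of one symbol of a positioned word. -/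
def cw (lam : G →* Γ) : G ⊕ ι → Mon (Option ι) Γ :=
  Sum.elim (fun g => dg fun o => if o = none then lam g else 1) fun p => tr none (some p) 1

/-- The labelled cycle of a positioned word. -/
def cW (lam : G →* Γ) (W : List (G ⊕ ι)) : Mon (Option ι) Γ := (W.map (cw lam)).prod

/-- The positions of a positioned word. -/
def pos (W : List (G ⊕ ι)) : List ι := W.filterMap Sum.getRight?

/-- A letter or its inverse in the free product. -/
def lt (G : Type*) [Group G] (x : Fin m × Bool) : Coprod G (FreeGroup (Fin m)) :=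
  Coprod.inr (cond x.2 (FreeGroup.of x.1) (FreeGroup.of x.1)⁻¹)

/-- The value of a positioned word in the free product. -/
def val (lt' : ι → Fin m × Bool) (W : List (G ⊕ ι)) : Coprod G (FreeGroup (Fin m)) :=
  (W.map (Sum.elim Coprod.inl fun p => lt G (lt' p))).prod

/-- The value of a list of (coefficient, letter) pairs. -/
def hv (l : List (G × (Fin m × Bool))) : Coprod G (FreeGroup (Fin m)) :=
  (l.map fun a => Coprod.inl a.1 * lt G a.2).prod

/-- `u` or its inverse. -/
def sg {M : Type*} [Group M] (b : Bool) (u : M) : M := cond b u u⁻¹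

end words

section darts
variable {m N : ℕ} {Sl St : Type*}

/-- Mirror pairs of positions: a slot of a relator in a pair of faces, or a stem letter. -/
abbrev HH (Sl St : Type*) (N : ℕ) : Type _ := (Sl × Fin N) ⊕ St

/-- The letter of a mirror pair. -/
def blkH (sl : Sl → Fin m × Bool) (stl : St → Fin m) : HH Sl St N → Fin m :=
  Sum.elim (fun a => (sl a.1).1) stl

/-- The signed letter at a position (`inl` = positive, `inr` = negative). -/
def letH (sl : Sl → Fin m × Bool) (stl : St → Fin m) :
    HH Sl St N ⊕ HH Sl St N → Fin m × Bool :=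
  Sum.elim (fun h => (blkH sl stl h, true)) fun h => (blkH sl stl h, false)

/-- The position of slot `s` in the positive (`b = true`) or negative face of the pair `P`. -/
def dart (sl : Sl → Fin m × Bool) (s : Sl) (P : Fin N) (b : Bool) : HH Sl St N ⊕ HH Sl St N :=
  if (sl s).2 = b then Sum.inl (Sum.inl (s, P)) else Sum.inr (Sum.inl (s, P))

/-- The face rotation. -/
structure IsFace {G Γ : Type*} [Group G] [Group Γ] (lam : G →* Γ) (sl : Sl → Fin m × Bool)
    (x : Sl → G) (prv : Equiv.Perm Sl) (Φ : Mon (Option (HH Sl St N ⊕ HH Sl St N)) Γ) : Prop where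
  base : Φ.perm none = none ∧ Φ.lab none = 1
  posF : ∀ s P, Φ.perm (some (dart sl s P true)) = some (dart sl (prv s) P true) ∧
    Φ.lab (some (dart sl s P true)) = lam (x s)
  negF : ∀ s P, Φ.perm (some (dart sl (prv s) P false)) = some (dart sl s P false) ∧
    Φ.lab (some (dart sl (prv s) P false)) = (lam (x s))⁻¹
  stem : ∀ t, Φ.perm (some (Sum.inl (Sum.inr t))) = some (Sum.inr (Sum.inr t)) ∧
    Φ.lab (some (Sum.inl (Sum.inr t))) = 1 ∧
    Φ.perm (some (Sum.inr (Sum.inr t))) = some (Sum.inl (Sum.inr t)) ∧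
    Φ.lab (some (Sum.inr (Sum.inr t))) = 1

/-- The block matrix `⊕ₛ γ(rel s)^(-ε s) ⊕ 1`. -/
noncomputable def Gam [DecidableEq Sl] [DecidableEq St] (rel : Sl → Fin m) (sl : Sl → Fin m × Bool)
    (γ : Fin m → Matrix (Fin N) (Fin N) ℂ) : Matrix (HH Sl St N) (HH Sl St N) ℂ :=
  Matrix.fromBlocks (Matrix.of fun a b => if a.1 = b.1 then
    (cond (sl a.1).2 (star (γ (rel a.1))) (γ (rel a.1))) a.2 b.2 else 0) 0 0 1

end darts

section cells
variable {H B : Type*} [Fintype H] [DecidableEq H]

/-- Parameters of the pseudo-reflections: a phase and a rank-one projection for each index. -/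
abbrev Par (H : Type*) : Type _ := (H → ℂ) × (H → H → H → ℂ)

/-- Admissible parameters. -/
def Adm (blk : H → B) (ord : List H) : Set (Par H) :=
  {y | ∀ j, ‖y.1 j‖ = 1 ∧ ∃ v : H → ℂ, star v ⬝ᵥ v = 1 ∧
    (∀ k, v k ≠ 0 → ord.idxOf k ≤ ord.idxOf j ∧ blk k = blk j) ∧
    Matrix.of (y.2 j) = vecMulVec v (star v)}

/-- The `n`-th power of the `j`-th pseudo-reflection. -/
noncomputable def rf (y : Par H) (n : ℕ) (j : H) : Matrix H H ℂ :=
  1 + (y.1 j ^ n - 1) • Matrix.of (y.2 j)

/-- Block-diagonal unitary matrices. -/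
def UB (blk : H → B) (X : Matrix H H ℂ) : Prop :=
  X ∈ Matrix.unitaryGroup H ℂ ∧ ∀ i j, blk i ≠ blk j → X i j = 0

/-- Entrywise `C²` matrix functions. -/
def Smo {E : Type*} [NormedAddCommGroup E] [NormedSpace ℝ E] (Ψ : E → Matrix H H ℂ) : Prop :=
  ∀ i j, ContDiff ℝ 2 fun p => Ψ p i j

end cells

end Crest.Agent.R174
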