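import Crest.Agent.R174.Stokes

/-! Row 174: a degree argument. -/

set_option autoImplicit false

namespace Crest.Agent.R174

open MeasureTheory Set

/-- Persistence of zeros along a homotopy.

Proof.  Suppose there is no zero at `t = 0` with `c = 0`.  By compactness choose `δ ∈ (0, 1/2)`
with `δ ≤ ‖f‖` on the three compact sets `{(t,x) ∈ [0,1] × K : 1 ≤ c ≤ 2}` (`hgap`),
`{x ∈ K : c (0,x) ≤ 2}` (`hgap` and the assumption) and
`{x ∈ K : c (1,x) ≤ 2, J₀ * det ≤ 0}` (`hgap`, `hJ`; `x ↦ det` is continuous).  Let `φ` be a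
`ContDiffBump (0 : X)` with `rOut = δ`, `χ s = Real.smoothTransition (2 - s)`,
`η p = φ (f p) * χ (c p) * β p.2 ≥ 0`.  Apply `stokes` (with `borel X`, `Measure.addHaar`): for
`u ∈ ker (fderiv f p)`, `fderiv η p u = φ χ' β (dc u) + φ χ (dβ u.2)`; if `φ (f p) ≠ 0` and
`β ≠ 0` then `c ∉ [1,2]` and `χ` is locally constant there; if `φ (f p) = 0` or `dβ = 0` take any
nonzero `u` in the kernel (`finrank (ℝ × X) > finrank X`), otherwise a nonzero combination of the
two vectors of `hdeg` killed by `dβ ∘ snd`.  At `t = 0`, `η = 0`.  At `t = 1`,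
`J₀ * (η * det) ≥ 0` is continuous, compactly supported and positive at `x₀`, so its integral is
positive (`Continuous.integral_pos_of_hasCompactSupport_nonneg_nonzero`). -/
theorem deg {X : Type*} [NormedAddCommGroup X] [NormedSpace ℝ X] [FiniteDimensional ℝ X]
    (f : ℝ × X → X) (c : ℝ × X → ℝ) (β : X → ℝ) (hf : ContDiff ℝ 2 f) (hc : ContDiff ℝ 2 c)
    (hβ : ContDiff ℝ 2 β) (hβ0 : ∀ x, 0 ≤ β x) {K : Set X} (hK : IsCompact K)
    (hsupp : ∀ t ∈ Icc (0 : ℝ) 1, ∀ x, ‖f (t, x)‖ < 1 / 2 → β x ≠ 0 → x ∈ K)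
    (hgap : ∀ t ∈ Icc (0 : ℝ) 1, ∀ x, f (t, x) = 0 → c (t, x) = 0 ∨ 4 ≤ c (t, x))
    (hdeg : ∀ t ∈ Icc (0 : ℝ) 1, ∀ x, ‖f (t, x)‖ < 1 / 2 → fderiv ℝ β x ≠ 0 →
      ∃ u v : ℝ × X, LinearIndependent ℝ ![u, v] ∧ fderiv ℝ f (t, x) u = 0 ∧
        fderiv ℝ f (t, x) v = 0)
    (J₀ : ℝ) (hJ : ∀ x, f (1, x) = 0 → c (1, x) = 0 →
      0 < J₀ * (fderiv ℝ (fun y => f (1, y)) x).det)
    (x₀ : X) (h₀ : f (1, x₀) = 0) (h₀' : c (1, x₀) = 0) (h₀'' : β x₀ ≠ 0) :
    ∃ x, f (0, x) = 0 ∧ c (0, x) = 0 := by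
  by_contra hcon
  push Not at hcon
  borelize X
  have hfc := hf.continuous
  have hcc := hc.continuous
  have h01 : (0 : ℝ) ∈ Icc (0 : ℝ) 1 := ⟨le_rfl, zero_le_one⟩
  have h11 : (1 : ℝ) ∈ Icc (0 : ℝ) 1 := ⟨zero_le_one, le_rfl⟩
  have hdet : Continuous fun x => (fderiv ℝ (fun y => f (1, y)) x).det :=
    ContinuousLinearMap.continuous_det.comp
      ((hf.comp (contDiff_const.prodMk contDiff_id)).continuous_fderiv (by norm_num))
  obtain ⟨δ₁, hδ₁, H₁⟩ := ((isCompact_Icc (a := (0 : ℝ)) (b := 1)).prod hK |>.inter_right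
    (isClosed_Icc (a := (1 : ℝ)) (b := 2) |>.preimage hcc)).exists_forall_le'
    (f := fun p => ‖f p‖) (by fun_prop) (a := 0) (by
      rintro ⟨t, x⟩ ⟨⟨ht, -⟩, h1, h2⟩
      refine norm_pos_iff.mpr fun h => ?_
      rcases hgap t ht x h with h3 | h3 <;> linarith)
  obtain ⟨δ₂, hδ₂, H₂⟩ := (hK.inter_right
    (isClosed_le (f := fun x => c (0, x)) (g := fun _ => (2 : ℝ)) (by fun_prop)
      continuous_const)).exists_forall_le'
    (f := fun x => ‖f (0, x)‖) (by fun_prop) (a := 0) (by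
      rintro x ⟨-, h1⟩
      refine norm_pos_iff.mpr fun h => ?_
      have h1 : c (0, x) ≤ 2 := h1
      rcases hgap 0 h01 x h with h3 | h3
      exacts [hcon x h h3, by linarith])
  obtain ⟨δ₃, hδ₃, H₃⟩ := (hK.inter_right
    ((isClosed_le (f := fun x => c (1, x)) (g := fun _ => (2 : ℝ)) (by fun_prop)
      continuous_const).inter
      (isClosed_le (f := fun x => J₀ * (fderiv ℝ (fun y => f (1, y)) x).det)
        (g := fun _ => (0 : ℝ)) (continuous_const.mul hdet) continuous_const))).exists_forall_le'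
    (f := fun x => ‖f (1, x)‖) (by fun_prop) (a := 0) (by
      rintro x ⟨-, h1, h2⟩
      refine norm_pos_iff.mpr fun h => ?_
      have h1 : c (1, x) ≤ 2 := h1
      rcases hgap 1 h11 x h with h3 | h3
      exacts [(hJ x h h3).not_ge h2, by linarith])
  set δ := min (min δ₁ δ₂) (min δ₃ (1 / 2)) with hδ
  have hδ0 : 0 < δ := by positivity
  have l1 : δ ≤ δ₁ := (min_le_left _ _).trans (min_le_left _ _)
  have l2 : δ ≤ δ₂ := (min_le_left _ _).trans (min_le_right _ _)
  have l3 : δ ≤ δ₃ := (min_le_right _ _).trans (min_le_left _ _)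
  have l4 : δ ≤ 1 / 2 := (min_le_right _ _).trans (min_le_right _ _)
  let φ : ContDiffBump (0 : X) := ⟨δ / 2, δ, by positivity, by linarith⟩
  have hφ : ∀ y, φ y ≠ 0 → ‖y‖ < δ := fun y hy => by
    have : y ∈ Function.support φ := hy
    rwa [φ.support_eq, mem_ball_zero_iff] at this
  have hφ0 : φ 0 = 1 := φ.one_of_mem_closedBall (Metric.mem_closedBall_self φ.rIn_pos.le)
  let A : ℝ × X → ℝ := fun p => φ (f p)
  let B : ℝ × X → ℝ := fun p => Real.smoothTransition (2 - c p)
  let C : ℝ × X → ℝ := fun p => β p.2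
  have hA : ContDiff ℝ 2 A := φ.contDiff.comp hf
  have hB : ContDiff ℝ 2 B := Real.smoothTransition.contDiff.comp (contDiff_const.sub hc)
  have hC : ContDiff ℝ 2 C := hβ.comp contDiff_snd
  have hB2 : ∀ p, B p ≠ 0 → c p ≤ 2 := fun p hp => by
    by_contra h
    exact hp (Real.smoothTransition.zero_of_nonpos (by linarith))
  have hne : ∀ p, A p * B p * C p ≠ 0 → ‖f p‖ < δ ∧ c p ≤ 2 ∧ β p.2 ≠ 0 := fun p hp =>
    ⟨hφ _ (left_ne_zero_of_mul (left_ne_zero_of_mul hp)),
      hB2 _ (right_ne_zero_of_mul (left_ne_zero_of_mul hp)), right_ne_zero_of_mul hp⟩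
  have hs : ∀ t ∈ Icc (0 : ℝ) 1, ∀ x, A (t, x) * B (t, x) * C (t, x) ≠ 0 → x ∈ K :=
    fun t ht x hx => hsupp t ht x ((hne _ hx).1.trans_le l4) (hne _ hx).2.2
  have hst := stokes (Measure.addHaar : Measure X) (fun p => A p * B p * C p) f
    ((hA.mul hB).mul hC) hf hK hs (fun t ht x => by
      have dA := (hA.differentiable (by norm_num) (t, x)).hasFDerivAt
      have dB := (hB.differentiable (by norm_num) (t, x)).hasFDerivAt
      have dC := (hC.differentiable (by norm_num) (t, x)).hasFDerivAt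
      have e0 : fderiv ℝ (fun p => A p * B p * C p) (t, x) = _ := ((dA.mul dB).mul dC).fderiv
      have eA : ∀ u, fderiv ℝ f (t, x) u = 0 → fderiv ℝ A (t, x) u = 0 := fun u hu => by
        have : fderiv ℝ A (t, x) = (fderiv ℝ φ (f (t, x))).comp (fderiv ℝ f (t, x)) :=
          fderiv_comp (g := φ) (t, x) ((φ.contDiff (n := 1)).differentiable (by norm_num) _)
            (hf.differentiable (by norm_num) _)
        rw [this, ContinuousLinearMap.comp_apply, hu, map_zero]
      have eC : ∀ u, fderiv ℝ C (t, x) u = fderiv ℝ β x u.2 := fun u => by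
        have : fderiv ℝ C (t, x) = _ :=
          ((hβ.differentiable (by norm_num) x).hasFDerivAt.comp (t, x) hasFDerivAt_snd).fderiv
        rw [this]; rfl
      obtain ⟨u₀, hu₀, hu₀'⟩ := Submodule.exists_mem_ne_zero_of_ne_bot
        (LinearMap.ker_ne_bot_of_finrank_lt (f := (fderiv ℝ f (t, x) : ℝ × X →ₗ[ℝ] X)) (by simp))
      have hu₀ : fderiv ℝ f (t, x) u₀ = 0 := hu₀
      by_cases hA0 : A (t, x) = 0
      · exact ⟨u₀, hu₀', by simp [e0, hA0, eA u₀ hu₀], hu₀⟩
      have hfδ := hφ _ hA0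
      have eB : C (t, x) = 0 ∨ fderiv ℝ B (t, x) = 0 := by
        refine or_iff_not_imp_left.mpr fun hC0 => ?_
        have hxK := hsupp t ht x (hfδ.trans_le l4) hC0
        have hn : ¬ (1 ≤ c (t, x) ∧ c (t, x) ≤ 2) := fun h => by
          have := H₁ (t, x) ⟨⟨ht, hxK⟩, h⟩
          linarith
        rcases lt_or_ge (c (t, x)) 1 with h | h
        · have : B =ᶠ[nhds (t, x)] fun _ => 1 := by
            filter_upwards [hcc.continuousAt.eventually_lt continuousAt_const h] with p hp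
            exact Real.smoothTransition.one_of_one_le (by linarith)
          rw [this.fderiv_eq]; simp
        · have h2 : 2 < c (t, x) := by
            by_contra h3; exact hn ⟨h, not_lt.mp h3⟩
          have : B =ᶠ[nhds (t, x)] fun _ => 0 := by
            filter_upwards [continuousAt_const.eventually_lt hcc.continuousAt h2] with p hp
            exact Real.smoothTransition.zero_of_nonpos (by linarith)
          rw [this.fderiv_eq]; simp
      have key : ∀ u, fderiv ℝ f (t, x) u = 0 → fderiv ℝ β x u.2 = 0 →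
          fderiv ℝ (fun p => A p * B p * C p) (t, x) u = 0 := fun u h1 h2 => by
        rcases eB with h | h <;> simp [e0, eA u h1, eC, h2, h]
      by_cases hβd : fderiv ℝ β x = 0
      · exact ⟨u₀, hu₀', key u₀ hu₀ (by simp [hβd]), hu₀⟩
      obtain ⟨u, v, huv, hu, hv⟩ := hdeg t ht x (hfδ.trans_le l4) hβd
      by_cases ha : fderiv ℝ β x u.2 = 0
      · exact ⟨u, huv.ne_zero 0, key u hu ha, hu⟩
      have h1 : fderiv ℝ f (t, x) (fderiv ℝ β x v.2 • u + (-fderiv ℝ β x u.2) • v) = 0 := by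
        simp [hu, hv]
      refine ⟨_, fun h0 => ha ?_, key _ h1 ?_, h1⟩
      · exact neg_eq_zero.mp ((LinearIndependent.pair_iff.mp huv) _ _ h0).2
      · simp [mul_comm])
  have z0 : ∀ x, A (0, x) * B (0, x) * C (0, x) = 0 := fun x => by
    by_contra h
    have := H₂ x ⟨hs 0 h01 x h, (hne _ h).2.1⟩
    linarith [(hne _ h).1]
  simp only [z0, zero_mul, integral_zero] at hst
  have hpos := Continuous.integral_pos_of_hasCompactSupport_nonneg_nonzero
    (μ := (Measure.addHaar : Measure X))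
    (f := fun x => J₀ * (A (1, x) * B (1, x) * C (1, x) * (fderiv ℝ (fun y => f (1, y)) x).det))
    (x := x₀)
    (continuous_const.mul ((((hA.mul hB).mul hC).continuous.comp
      (continuous_const.prodMk continuous_id)).mul hdet))
    (HasCompactSupport.intro hK fun x hx => by
      have : A (1, x) * B (1, x) * C (1, x) = 0 := by
        by_contra h; exact hx (hs 1 h11 x h)
      rw [this, zero_mul, mul_zero])
    (fun x => by
      by_cases h : A (1, x) * B (1, x) * C (1, x) = 0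
      · simp only [h, zero_mul, mul_zero]; exact le_rfl
      have h1 : 0 ≤ J₀ * (fderiv ℝ (fun y => f (1, y)) x).det := by
        by_contra h2
        have := H₃ x ⟨hs 1 h11 x h, (hne _ h).2.1, (not_le.mp h2).le⟩
        linarith [(hne _ h).1]
      have h2 : 0 ≤ A (1, x) * B (1, x) * C (1, x) :=
        mul_nonneg (mul_nonneg φ.nonneg (Real.smoothTransition.nonneg _)) (hβ0 x)
      simp only [Pi.zero_apply]
      rw [mul_left_comm]
      exact mul_nonneg h2 h1)
    (by
      have h1 : A (1, x₀) = 1 := by simp only [A, h₀, hφ0]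
      have h2 : B (1, x₀) = 1 := Real.smoothTransition.one_of_one_le (by rw [h₀']; norm_num)
      rw [mul_left_comm, h1, h2, one_mul, one_mul]
      exact mul_ne_zero h₀'' (hJ x₀ h₀ h₀').ne')
  rw [integral_const_mul, ← hst, mul_zero] at hpos
  exact lt_irrefl _ hpos

end Crest.Agent.R174
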