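import Crest.Agent.R174.MonC

/-! Row 174: the cancellation pairing. -/

set_option autoImplicit false

namespace Crest.Agent.R174

open Monoid

variable {G Γ ι : Type*} [Group G] [Group Γ] [DecidableEq ι] {m : ℕ}

/-- Positioned words that cancel down to a coefficient. -/
inductive Dy (lt' : ι → Fin m × Bool) : List (G ⊕ ι) → G → Prop
  | nil : Dy lt' [] 1
  | coef {W : List (G ⊕ ι)} {g : G} (x : G) : Dy lt' W g → Dy lt' (W ++ [Sum.inl x]) (g * x)
  | brk {W V : List (G ⊕ ι)} {g : G} {p q : ι} : Dy lt' W g → Dy lt' V 1 →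
      lt' q = ((lt' p).1, !(lt' p).2) → Dy lt' (W ++ Sum.inr p :: (V ++ [Sum.inr q])) g

namespace DyckA

/-- the inverse letter -/
def iv (s : Fin m × Bool) : Fin m × Bool := (s.1, !s.2)

@[simp] lemma iv_iv (s : Fin m × Bool) : iv (iv s) = s := by simp [iv]

/-- reduced stacks -/
def Red : List (G × (Fin m × Bool)) → Prop
  | a :: b :: l => ¬(a.1 = 1 ∧ b.2 = iv a.2) ∧ Red (b :: l)
  | _ => True

lemma Red.tail {a : G × (Fin m × Bool)} {l : List (G × (Fin m × Bool))} (h : Red (a :: l)) :
    Red l := by
  cases l with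
  | nil => trivial
  | cons b l => exact h.2

open Classical in
/-- the action of a letter on states -/
noncomputable def act (s : Fin m × Bool) :
    G × List (G × (Fin m × Bool)) → G × List (G × (Fin m × Bool))
  | (g, []) => (1, [(g, s)])
  | (g, a :: l) => if g = 1 ∧ a.2 = iv s then (a.1, l) else (1, (g, s) :: a :: l)

lemma act_red (s : Fin m × Bool) (σ : G × List (G × (Fin m × Bool))) (h : Red σ.2) :
    Red (act s σ).2 := by
  obtain ⟨g, _ | ⟨a, l⟩⟩ := σ
  · trivial
  · simp only [act]
    split_ifs with hc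
    · exact h.tail
    · exact ⟨hc, h⟩

lemma act_act (s : Fin m × Bool) (σ : G × List (G × (Fin m × Bool))) (h : Red σ.2) :
    act (iv s) (act s σ) = σ := by
  obtain ⟨g, _ | ⟨a, l⟩⟩ := σ
  · simp [act]
  · by_cases hc : g = 1 ∧ a.2 = iv s
    · have e : act s (g, a :: l) = (a.1, l) := by simp only [act, if_pos hc]
      rw [e]
      obtain ⟨y, s'⟩ := a
      obtain ⟨rfl, rfl⟩ := hc
      cases l with
      | nil => rfl
      | cons b l => simp only [act]; exact if_neg h.1
    · have e : act s (g, a :: l) = (1, (g, s) :: a :: l) := by simp only [act, if_neg hc]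
      rw [e]
      simp [act]

variable (G m) in
/-- reduced states -/
def St : Type _ := {σ : G × List (G × (Fin m × Bool)) // Red σ.2}

/-- a letter as a permutation of the states -/
noncomputable def P (s : Fin m × Bool) : Equiv.Perm (St G m) where
  toFun σ := ⟨act s σ.1, act_red s _ σ.2⟩
  invFun σ := ⟨act (iv s) σ.1, act_red _ _ σ.2⟩
  left_inv σ := Subtype.ext (act_act s _ σ.2)
  right_inv σ := Subtype.ext (by have := act_act (iv s) _ σ.2; rwa [iv_iv] at this)

variable (G m) in
/-- coefficients as permutations of the states -/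
def Q : G →* Equiv.Perm (St G m) where
  toFun x :=
    { toFun := fun σ => ⟨(σ.1.1 * x⁻¹, σ.1.2), σ.2⟩
      invFun := fun σ => ⟨(σ.1.1 * x, σ.1.2), σ.2⟩
      left_inv := fun σ => Subtype.ext (by simp)
      right_inv := fun σ => Subtype.ext (by simp) }
  map_one' := Equiv.ext fun σ => Subtype.ext (by simp)
  map_mul' x y := Equiv.ext fun σ => Subtype.ext (by simp [mul_assoc])

variable (G m) in
/-- the action of the free product -/
noncomputable def rho : Coprod G (FreeGroup (Fin m)) →* Equiv.Perm (St G m) :=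
  Coprod.lift (Q G m) (FreeGroup.lift fun i => P (i, false))

lemma rho_inl (x : G) (σ : St G m) :
    ((rho G m (Coprod.inl x))⁻¹ σ).1 = (σ.1.1 * x, σ.1.2) := by
  rw [rho, Coprod.lift_apply_inl]; rfl

lemma rho_lt (s : Fin m × Bool) (σ : St G m) : ((rho G m (lt G s))⁻¹ σ).1 = act s σ.1 := by
  obtain ⟨i, b⟩ := s
  cases b
  · simp only [lt, rho, cond_false, Coprod.lift_apply_inr, map_inv, FreeGroup.lift_apply_of,
      inv_inv]
    rfl
  · simp only [lt, rho, cond_true, Coprod.lift_apply_inr, FreeGroup.lift_apply_of]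
    rfl

/-- the invariant of prefixes -/
inductive Inv (lt' : ι → Fin m × Bool) : List (G ⊕ ι) → G → List (G × (Fin m × Bool)) → Prop
  | base {W : List (G ⊕ ι)} {g : G} : Dy lt' W g → Inv lt' W g []
  | push {W V : List (G ⊕ ι)} {y g : G} {st : List (G × (Fin m × Bool))} (p : ι) :
      Inv lt' W y st → Dy lt' V g → Inv lt' (W ++ Sum.inr p :: V) g ((y, lt' p) :: st)

omit [DecidableEq ι] in
lemma Inv.ext {lt' : ι → Fin m × Bool} {W X : List (G ⊕ ι)} {y y' : G}
    {st : List (G × (Fin m × Bool))} (h : Inv lt' W y st)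
    (hX : ∀ V, Dy lt' V y → Dy lt' (V ++ X) y') : Inv lt' (W ++ X) y' st := by
  cases h with
  | base h => exact Inv.base (hX _ h)
  | push p h hV =>
    rw [List.append_assoc, List.cons_append]
    exact Inv.push p h (hX _ hV)

omit [DecidableEq ι] in
lemma Inv.letter {lt' : ι → Fin m × Bool} {W : List (G ⊕ ι)} {g : G}
    {st : List (G × (Fin m × Bool))} (h : Inv lt' W g st) (q : ι) :
    Inv lt' (W ++ [Sum.inr q]) (act (lt' q) (g, st)).1 (act (lt' q) (g, st)).2 := by
  have hp : Inv lt' (W ++ [Sum.inr q]) 1 ((g, lt' q) :: st) := Inv.push q h Dy.nil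
  cases h with
  | base h => exact hp
  | push p h hV =>
    simp only [act]
    split_ifs with hc
    · obtain ⟨rfl, hc⟩ := hc
      rw [List.append_assoc, List.cons_append]
      refine h.ext fun V' hV' => Dy.brk hV' hV ?_
      have : iv (lt' p) = lt' q := by rw [hc, iv_iv]
      exact this.symm
    · exact hp

omit [DecidableEq ι] in
lemma inv_run (lt' : ι → Fin m × Bool) (W : List (G ⊕ ι)) :
    Inv lt' W ((rho G m (val lt' W))⁻¹ ⟨(1, []), trivial⟩).1.1
      ((rho G m (val lt' W))⁻¹ ⟨(1, []), trivial⟩).1.2 := by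
  induction W using List.reverseRecOn with
  | nil => simpa [val] using Inv.base Dy.nil
  | append_singleton W a ih =>
    have e : val lt' (W ++ [a]) = val lt' W * Sum.elim Coprod.inl (fun p => lt G (lt' p)) a := by
      simp [val]
    rw [e, map_mul, mul_inv_rev, Equiv.Perm.mul_apply]
    cases a with
    | inl x =>
      rw [Sum.elim_inl, rho_inl]
      exact ih.ext fun V hV => Dy.coef x hV
    | inr q =>
      rw [Sum.elim_inr, rho_lt]
      exact ih.letter q

end DyckA

/-- Proof (van der Waerden's trick).  States: `(g, st)` with `g : G` and `st : List (G × letter)`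
a stack (most recent first) such that an entry `(1, s)` never sits on top of an entry with letter
`s⁻¹`.  `x : G` acts by `g ↦ g x`; a letter `s` pops `(y, s⁻¹)` if `g = 1` and the top letter is
`s⁻¹` (new state `(y, rest)`), and otherwise pushes `(g, s)` (new state `(1, (g,s) :: st)`); `s` and
`s⁻¹` act by inverse maps on reduced states.  This gives a hom from the free product to the
(opposite) permutation group, so reading `W` from `(1, [])` ends in `(g, [])`.  Invariant for
prefixes: a prefix with state `(g, [(y₁,s₁), …])` is `W₀ ++ p :: W₁ ++ … ++ p :: W_k` with the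
pieces in `Dy` (inductive predicate on state and word). -/
theorem dy_of_val (lt' : ι → Fin m × Bool) (W : List (G ⊕ ι)) (g : G)
    (h : val lt' W = Coprod.inl g) : Dy lt' W g := by
  have := DyckA.inv_run lt' W
  rw [h, DyckA.rho_inl] at this
  simp only [one_mul] at this
  generalize hst : ([] : List (G × (Fin m × Bool))) = st at this
  cases this with
  | base h => exact h
  | push p h hV => cases hst

namespace DyckA

/-- a circle-labelled monomial element on positions, viewed on `Option ι` -/
noncomputable def nu (sc : Circle →* Γ) (a : Mon ι Circle) : Mon (Option ι) Γ :=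
  ⟨a.perm.optionCongr, fun o => o.elim 1 fun p => sc (a.lab p)⟩

omit [DecidableEq ι] in
lemma nu_mul (sc : Circle →* Γ) (a b : Mon ι Circle) : nu sc (a * b) = nu sc a * nu sc b := by
  ext o : 2
  · cases o <;> simp [nu]
  · cases o <;> simp [nu]

omit [DecidableEq ι] in
lemma nu_one (sc : Circle →* Γ) : nu sc (1 : Mon ι Circle) = 1 := by
  ext o : 2
  · cases o <;> simp [nu]
  · cases o <;> simp [nu]

omit [DecidableEq ι] in
lemma supp_nu (sc : Circle →* Γ) {a : Mon ι Circle} {S : Set ι} (h : Supp a S) :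
    Supp (nu sc a) {o | ∃ p ∈ S, o = some p} := by
  rintro (_ | p) hp
  · simp [nu]
  · have := h p fun hS => hp ⟨p, hS, rfl⟩
    simp [nu, this.1, this.2]

/-- the diagonal element -/
def dd (x y : Γ) (l : List ι) : Mon (Option ι) Γ :=
  dg fun o => o.elim x fun p => if p ∈ l then y else 1

lemma bracket (sc : Circle →* Γ) (ω ζ : Circle) {p q : ι} (hpq : p ≠ q) {l : List ι}
    (hp : p ∉ l) (hq : q ∉ l) :
    nu sc (tr p q (ω * ζ⁻¹)) * tr none (some p) 1 * dd (sc ζ) (sc ω) l * tr none (some q) 1 =
      dd (sc (ω * (ω * ζ⁻¹))⁻¹) (sc ω) (p :: (l ++ [q])) *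
        tr none (some p) (sc (ω * (ω * ζ⁻¹))⁻¹) := by
  have hqp := hpq.symm
  ext o : 2
  · rcases o with _ | r
    · simp [nu, dd, dg, tr, Equiv.swap_apply_def, hpq, hqp]
    · by_cases h1 : r = p
      · subst h1; simp [nu, dd, dg, tr, Equiv.swap_apply_def, hpq, hqp]
      · by_cases h2 : r = q
        · subst h2; simp [nu, dd, dg, tr, Equiv.swap_apply_def, hpq, hqp]
        · simp [nu, dd, dg, tr, Equiv.swap_apply_def, h1, h2]
  · rcases o with _ | r
    · simp only [nu, dd, dg, tr, Equiv.swap_apply_def, Mon.mul_lab, Mon.mul_perm]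
      simp [hpq, hqp, hq, ← map_inv, ← map_mul, mul_comm]
    · by_cases h1 : r = p
      · subst h1
        simp only [nu, dd, dg, tr, Equiv.swap_apply_def, Mon.mul_lab, Mon.mul_perm]
        simp [hpq, hqp, hp]
      · by_cases h2 : r = q
        · subst h2
          simp only [nu, dd, dg, tr, Equiv.swap_apply_def, Mon.mul_lab, Mon.mul_perm]
          simp [hpq, hqp, hq, ← map_inv, ← map_mul]
        · simp only [nu, dd, dg, tr, Equiv.swap_apply_def, Mon.mul_lab, Mon.mul_perm]
          simp [h1, h2]

lemma dd_mul {x x' y : Γ} {l l' : List ι} (h : l.Disjoint l') :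
    dd x y l * dd x' y l' = dd (x * x') y (l ++ l') := by
  ext o : 2
  · simp [dd, dg]
  · rcases o with _ | r
    · simp [dd, dg]
    · by_cases h1 : r ∈ l
      · have : r ∉ l' := fun h2 => h h1 h2
        simp [dd, dg, h1, this]
      · simp [dd, dg, h1]

omit [Group G] [DecidableEq ι] in
lemma pos_append (W V : List (G ⊕ ι)) : pos (W ++ V) = pos W ++ pos V := by
  simp [pos]

lemma main (lam : G →* Γ) (sc : Circle →* Γ) (hsc : ∀ z x, sc z * x = x * sc z)
    (lt' : ι → Fin m × Bool) (ω : Circle) {W : List (G ⊕ ι)} {g : G} (h : Dy lt' W g)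
    (hW : (pos W).Nodup) :
    ∃ (a : Mon ι Circle) (ζ : Circle) (k : ℕ), 2 * k = (pos W).length ∧
      (∀ p ∈ pos W, lt' (a.perm p) = iv (lt' p)) ∧ a * a = 1 ∧ Supp a {p | p ∈ pos W} ∧
      Near k (nu sc a * cW lam W) (dd (lam g * sc ζ) (sc ω) (pos W)) := by
  induction h with
  | nil =>
    refine ⟨1, 1, 0, by simp [pos], by simp [pos], mul_one _, fun _ _ => ⟨rfl, rfl⟩, ?_⟩
    have : dd (lam 1 * sc 1) (sc ω) (pos ([] : List (G ⊕ ι))) = 1 := by
      ext o : 2
      · rfl
      · cases o <;> simp [dd, dg, pos]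
    rw [this, nu_one]
    simpa [cW] using Near.refl (1 : Mon (Option ι) Γ)
  | @coef W g x _ ih =>
    have e : pos (W ++ [Sum.inl x]) = pos W := by simp [pos]
    rw [e] at hW ⊢
    obtain ⟨a, ζ, k, h1, h2, h3, h4, h5⟩ := ih hW
    refine ⟨a, ζ, k, h1, h2, h3, h4, ?_⟩
    have := h5.mul (Near.refl (cW lam [(Sum.inl x : G ⊕ ι)]))
    rw [mul_assoc, ← cW_append, add_zero] at this
    convert this using 1
    ext o : 2
    · simp [dd, dg, cW, cw]
    · cases o
      · simp [dd, dg, cW, cw, mul_assoc, hsc]
      · simp [dd, dg, cW, cw]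
  | @brk W V g p q _ _ hpq ihW ihV =>
    have e : pos (W ++ Sum.inr p :: (V ++ [Sum.inr q])) = pos W ++ p :: (pos V ++ [q]) := by
      simp [pos]
    rw [e] at hW ⊢
    have hW' := hW
    rw [List.nodup_append] at hW'
    obtain ⟨n1, n2, n3⟩ := hW'
    rw [List.nodup_cons, List.nodup_append] at n2
    obtain ⟨n4, n5, -, n6⟩ := n2
    have hpV : p ∉ pos V := fun h => n4 (List.mem_append_left _ h)
    have hne : p ≠ q := fun h => n4 (by simp [h])
    have hqV : q ∉ pos V := fun h => n6 q h q (by simp) rfl
    have hpW : p ∉ pos W := fun h => n3 p h p (by simp) rfl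
    have hqW : q ∉ pos W := fun h => n3 q h q (by simp) rfl
    have hWV : ∀ r ∈ pos W, r ∉ pos V := fun r h h' => n3 r h r (by simp [h']) rfl
    obtain ⟨a, ζ, k, h1, h2, h3, h4, h5⟩ := ihW n1
    obtain ⟨b, ξ, l, g1, g2, g3, g4, g5⟩ := ihV n5
    set t : Mon ι Circle := tr p q (ω * ξ⁻¹) with ht
    have hts : Supp t {p, q} := Supp.tr _ _ _
    have cat : Commute a t := h4.commute hts (by
      rw [Set.disjoint_left]; rintro r hr (rfl | rfl); exacts [hpW hr, hqW hr])
    have cab : Commute a b := h4.commute g4 (by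
      rw [Set.disjoint_left]; exact fun r hr hr' => hWV r hr hr')
    have ctb : Commute t b := hts.commute g4 (by
      rw [Set.disjoint_left]; rintro r (rfl | rfl) hr; exacts [hpV hr, hqV hr])
    refine ⟨a * t * b, ζ * (ω * (ω * ξ⁻¹))⁻¹, k + (l + 1), ?_, ?_, ?_, ?_, ?_⟩
    · simp only [List.length_append, List.length_cons, List.length_nil]; omega
    · intro r hr
      simp only [Mon.mul_perm, Equiv.Perm.mul_apply, ht, tr]
      simp only [List.mem_append, List.mem_cons, List.not_mem_nil, or_false] at hr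
      rcases hr with hr | rfl | hr | rfl
      · rw [(g4 r (hWV r hr)).1, Equiv.swap_apply_of_ne_of_ne (by rintro rfl; exact hpW hr)
          (by rintro rfl; exact hqW hr)]
        exact h2 r hr
      · rw [(g4 r hpV).1, Equiv.swap_apply_left, (h4 q hqW).1]
        exact hpq
      · have hm : b.perm r ∈ pos V := g4.mem hr
        have m1 : b.perm r ≠ p := fun h => hpV (h ▸ hm)
        have m2 : b.perm r ≠ q := fun h => hqV (h ▸ hm)
        rw [Equiv.swap_apply_of_ne_of_ne m1 m2, (h4 _ fun h => hWV _ h hm).1]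
        exact g2 r hr
      · rw [(g4 r hqV).1, Equiv.swap_apply_right, (h4 p hpW).1]
        have : lt' r = iv (lt' p) := hpq
        rw [this, iv_iv]
    · have htt : t * t = 1 := tr_mul_self hne _
      calc a * t * b * (a * t * b) = (a * a) * (t * t) * (b * b) := by
            rw [← sq, (cab.mul_left ctb).mul_pow, cat.mul_pow, sq, sq, sq]
        _ = 1 := by rw [h3, htt, g3, mul_one, mul_one]
    · refine ((h4.mono ?_).mul (hts.mono ?_)).mul (g4.mono ?_)
      · intro r hr; simp only [Set.mem_setOf_eq] at hr ⊢; simp [hr]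
      · rintro r (rfl | rfl) <;> simp
      · intro r hr; simp only [Set.mem_setOf_eq] at hr ⊢; simp [hr]
    · have e1 : cW lam (W ++ Sum.inr p :: (V ++ [Sum.inr q])) =
          cW lam W * (tr none (some p) 1 * cW lam V * tr none (some q) 1) := by
        simp [cW, cw, mul_assoc]
      have c1 : Commute (nu sc t) (cW lam W) := (supp_nu sc hts).commute (supp_cW lam W) (by
        rw [Set.disjoint_left]
        rintro o ⟨r, hr, rfl⟩ (h | ⟨r', hr', h⟩)
        · cases h
        · cases h
          rcases hr with rfl | rfl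
          exacts [hpW hr', hqW hr'])
      have c2 : Commute (nu sc b) (cW lam W) := (supp_nu sc g4).commute (supp_cW lam W) (by
        rw [Set.disjoint_left]
        rintro o ⟨r, hr, rfl⟩ (h | ⟨r', hr', h⟩)
        · cases h
        · cases h
          exact hWV _ hr' hr)
      have c3 : Commute (nu sc b) (tr none (some p) 1) :=
        (supp_nu sc g4).commute (Supp.tr _ _ _) (by
          rw [Set.disjoint_left]
          rintro o ⟨r, hr, rfl⟩ (h | h)
          · cases h
          · cases h
            exact hpV hr)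
      have e2 : nu sc (a * t * b) * cW lam (W ++ Sum.inr p :: (V ++ [Sum.inr q])) =
          (nu sc a * cW lam W) *
            (nu sc t * tr none (some p) 1 * (nu sc b * cW lam V) * tr none (some q) 1) := by
        rw [e1, nu_mul, nu_mul]
        simp only [mul_assoc]
        rw [c2.left_comm, c1.left_comm, c3.left_comm]
      have n7 : Near (l + 1)
          (nu sc t * tr none (some p) 1 * (nu sc b * cW lam V) * tr none (some q) 1)
          (dd (sc (ω * (ω * ξ⁻¹))⁻¹) (sc ω) (p :: (pos V ++ [q]))) := by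
        have a1 := ((Near.refl (nu sc t * tr none (some p) 1)).mul g5).mul
          (Near.refl (tr none (some q) (1 : Γ)))
        rw [map_one, one_mul, ht, bracket sc ω ξ hne hpV hqV, zero_add, add_zero] at a1
        exact a1.trans (Near.tr_right (by simp) _ _).symm
      have := h5.mul n7
      rw [dd_mul (fun r h h' => n3 r h r h' rfl), mul_assoc (lam g), ← map_mul] at this
      rw [e2]
      exact this

end DyckA

/-- Proof: induction on `Dy` for words with `(pos W).Nodup`, with a `ν : Mon` supported on the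
positions of `W` (keep `σ`, `φ` trivial outside), and the diagonal `lam g * sc ζ` at `none`,
`sc ω` on the positions of `W`, `1` elsewhere.  Concatenation: supports commute
(`Supp.commute`, `supp_cW`, `Near.mul`).  Bracket: with `S p = tr none (some p) 1` and `D_V` the
diagonal of `V` (value `sc ζ` at `none`), `tr p q (sc φ) * S p * D_V * S q` fixes `q` with label
`sc (φ ζ)` and exchanges `none` and `p` with labels `sc φ⁻¹` (from `none`... compute it) — choose
`φ = ω ζ⁻¹`; it is the new diagonal times one transposition of `none` and `p`. -/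
theorem dyck [Fintype ι] (lam : G →* Γ) (sc : Circle →* Γ) (hsc : ∀ z x, sc z * x = x * sc z)
    (lt' : ι → Fin m × Bool) (W : List (G ⊕ ι)) (hW : (pos W).Nodup) (hall : ∀ p, p ∈ pos W)
    (g : G) (h : val lt' W = Coprod.inl g) (ω : Circle) :
    ∃ (σ : Equiv.Perm ι) (φ : ι → Circle) (ζ : Circle) (k : ℕ), 2 * k = Fintype.card ι ∧
      (∀ p, lt' (σ p) = ((lt' p).1, !(lt' p).2)) ∧ (∀ p, σ (σ p) = p) ∧
      (∀ p, φ (σ p) = (φ p)⁻¹) ∧
      Near k (⟨σ.optionCongr, fun o => o.elim 1 fun p => sc (φ p)⟩ * cW lam W)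
        (dg fun o => o.elim (lam g * sc ζ) fun _ => sc ω) := by
  obtain ⟨a, ζ, k, h1, h2, h3, -, h5⟩ := DyckA.main lam sc hsc lt' ω (dy_of_val lt' W g h) hW
  refine ⟨a.perm, a.lab, ζ, k, ?_, fun p => h2 p (hall p), fun p => ?_, fun p => ?_, ?_⟩
  · rw [h1, ← List.toFinset_card_of_nodup hW, ← Finset.card_univ]
    congr 1
    ext p
    simp [hall p]
  · exact congrArg (fun c : Mon ι Circle => c.perm p) h3
  · exact eq_inv_of_mul_eq_one_left (congrArg (fun c : Mon ι Circle => c.lab p) h3)
  · simpa only [DyckA.dd, DyckA.nu, hall, if_true] using h5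

end Crest.Agent.R174
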