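import Crest.Agent.R174.Defs

/-! Row 174: homotopy classes of smooth families of block-diagonal unitaries. -/

set_option autoImplicit false
set_option linter.unusedSectionVars false

namespace Crest.Agent.R174

open Matrix

section smo
variable {H : Type*} [Fintype H] [DecidableEq H] {E F : Type*} [NormedAddCommGroup E]
  [NormedSpace ℝ E] [NormedAddCommGroup F] [NormedSpace ℝ F]

theorem Smo.const (X : Matrix H H ℂ) : Smo fun _ : E => X := fun _ _ => contDiff_const

theorem Smo.mul {Ψ Θ : E → Matrix H H ℂ} (h : Smo Ψ) (h' : Smo Θ) : Smo fun p => Ψ p * Θ p := by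
  intro i j
  simp only [Matrix.mul_apply]
  exact ContDiff.sum fun k _ => (h i k).mul (h' k j)

theorem Smo.star {Ψ : E → Matrix H H ℂ} (h : Smo Ψ) : Smo fun p => star (Ψ p) := fun i j =>
  Complex.conjCLE.contDiff.comp (h j i)

theorem Smo.comp {Ψ : E → Matrix H H ℂ} (h : Smo Ψ) {f : F → E} (hf : ContDiff ℝ 2 f) :
    Smo fun p => Ψ (f p) := fun i j => (h i j).comp hf

end smo

section ub
variable {H B : Type*} [Fintype H] [DecidableEq H] {blk : H → B}

theorem UB.one : UB blk (1 : Matrix H H ℂ) :=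
  ⟨one_mem _, fun _ _ h => Matrix.one_apply_ne fun e => h (congrArg blk e)⟩

theorem UB.mul {X Y : Matrix H H ℂ} (h : UB blk X) (h' : UB blk Y) : UB blk (X * Y) := by
  refine ⟨mul_mem h.1 h'.1, fun i j hij => ?_⟩
  rw [Matrix.mul_apply]
  refine Finset.sum_eq_zero fun k _ => ?_
  by_cases hk : blk i = blk k
  · rw [h'.2 k j (hk ▸ hij), mul_zero]
  · rw [h.2 i k hk, zero_mul]

theorem UB.star {X : Matrix H H ℂ} (h : UB blk X) : UB blk (star X) :=
  ⟨Unitary.star_mem h.1, fun i j hij => by rw [star_apply, h.2 j i hij.symm, star_zero]⟩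

theorem UB.star_mul {X : Matrix H H ℂ} (h : UB blk X) : Star.star X * X = 1 := h.1.1

theorem UB.mul_star {X : Matrix H H ℂ} (h : UB blk X) : X * Star.star X = 1 := h.1.2

theorem proj_mul {q : Matrix H H ℂ} (hq : q * q = q) (z w : ℂ) :
    (1 + (z - 1) • q) * (1 + (w - 1) • q) = 1 + (z * w - 1) • q := by
  simp only [mul_add, add_mul, one_mul, mul_one, smul_mul_assoc, mul_smul_comm, hq]
  module

theorem UB.proj {q : Matrix H H ℂ} (hq : q * q = q) (hs : Star.star q = q)
    (hb : ∀ i j, blk i ≠ blk j → q i j = 0) {z : ℂ} (hz : ‖z‖ = 1) : UB blk (1 + (z - 1) • q) := by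
  have h1 : Star.star (1 + (z - 1) • q) = 1 + (Star.star z - 1) • q := by
    rw [star_add, star_one, star_smul, hs, star_sub, star_one]
  have h2 : Star.star z * z = 1 := by
    rw [Complex.star_def, Complex.conj_mul', hz]; simp
  refine ⟨⟨?_, ?_⟩, fun i j hij => ?_⟩
  · rw [h1, proj_mul hq, h2]; simp
  · rw [h1, proj_mul hq, mul_comm, h2]; simp
  · rw [Matrix.add_apply, Matrix.smul_apply, hb i j hij, smul_zero, add_zero]
    exact UB.one.2 i j hij

theorem proj_pow {q : Matrix H H ℂ} (hq : q * q = q) (z : ℂ) (n : ℕ) :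
    (1 + (z - 1) • q) ^ n = 1 + (z ^ n - 1) • q := by
  induction n with
  | zero => simp
  | succ n ih => rw [pow_succ, ih, proj_mul hq, pow_succ]

end ub

section fam
variable {H B : Type*} [Fintype H] [DecidableEq H] {E : Type*} [NormedAddCommGroup E]
  [NormedSpace ℝ E]

/-- smooth families, block-diagonal unitary on `C` -/
def Fam (blk : H → B) (C : Set E) : Submonoid (E → Matrix H H ℂ) where
  carrier := {Θ | Smo Θ ∧ ∀ y ∈ C, UB blk (Θ y)}
  one_mem' := ⟨Smo.const 1, fun _ _ => UB.one⟩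
  mul_mem' h h' := ⟨h.1.mul h'.1, fun y hy => (h.2 y hy).mul (h'.2 y hy)⟩

variable {blk : H → B} {C : Set E}

/-- adjoint family -/
def Fam.st (Θ : Fam blk C) : Fam blk C :=
  ⟨fun y => star (Θ.1 y), Θ.2.1.star, fun y hy => (Θ.2.2 y hy).star⟩

/-- constant family -/
def Fam.cst (C : Set E) {X : Matrix H H ℂ} (h : UB blk X) : Fam blk C :=
  ⟨fun _ => X, Smo.const X, fun _ _ => h⟩

/-- smooth homotopy -/
def homCon (blk : H → B) (C : Set E) : Con (Fam blk C) where
  r Θ Θ' := ∃ K : ℝ × E → Matrix H H ℂ, Smo K ∧ (∀ t, ∀ y ∈ C, UB blk (K (t, y))) ∧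
    (∀ y ∈ C, K (0, y) = Θ.1 y) ∧ ∀ y ∈ C, K (1, y) = Θ'.1 y
  iseqv :=
    { refl := fun Θ => ⟨fun p => Θ.1 p.2, Θ.2.1.comp contDiff_snd, fun _ y hy => Θ.2.2 y hy,
        fun _ _ => rfl, fun _ _ => rfl⟩
      symm := by
        rintro Θ Θ' ⟨K, h1, h2, h3, h4⟩
        refine ⟨fun p => K (1 - p.1, p.2), h1.comp (by fun_prop), fun t y hy => h2 _ y hy,
          fun y hy => ?_, fun y hy => ?_⟩
        · simpa using h4 y hy
        · simpa using h3 y hy
      trans := by
        rintro Θ Θ' Θ'' ⟨K, h1, h2, h3, h4⟩ ⟨K', h1', h2', h3', h4'⟩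
        refine ⟨fun p => K p * star (Θ'.1 p.2) * K' p,
          (h1.mul (Θ'.2.1.star.comp contDiff_snd)).mul h1',
          fun t y hy => ((h2 t y hy).mul (Θ'.2.2 y hy).star).mul (h2' t y hy),
          fun y hy => ?_, fun y hy => ?_⟩
        · simp only [h3 y hy, h3' y hy, mul_assoc, (Θ'.2.2 y hy).star_mul, mul_one]
        · simp only [h4 y hy, h4' y hy, (Θ'.2.2 y hy).mul_star, one_mul] }
  mul' := by
    rintro Θ Θ' Ξ Ξ' ⟨K, h1, h2, h3, h4⟩ ⟨K', h1', h2', h3', h4'⟩
    exact ⟨fun p => K p * K' p, h1.mul h1', fun t y hy => (h2 t y hy).mul (h2' t y hy),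
      fun y hy => by simp [h3 y hy, h3' y hy], fun y hy => by simp [h4 y hy, h4' y hy]⟩

/-- homotopy classes -/
def QQ (blk : H → B) (C : Set E) : Type _ := (homCon blk C).Quotient

instance : Monoid (QQ blk C) := inferInstanceAs (Monoid (homCon blk C).Quotient)

/-- the class of a family -/
def cls₀ : Fam blk C →* QQ blk C := (homCon blk C).mk'

theorem cls₀_eq {Θ Θ' : Fam blk C} : cls₀ Θ = cls₀ Θ' ↔ homCon blk C Θ Θ' := Con.eq _

theorem cls₀_congr {Θ Θ' : Fam blk C} (h : ∀ y ∈ C, Θ.1 y = Θ'.1 y) : cls₀ Θ = cls₀ Θ' :=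
  cls₀_eq.2 ⟨fun p => Θ.1 p.2, Θ.2.1.comp contDiff_snd, fun _ y hy => Θ.2.2 y hy,
    fun _ _ => rfl, h⟩

/-- the class of a family, as a unit -/
def cls : Fam blk C →* (QQ blk C)ˣ where
  toFun Θ := ⟨cls₀ Θ, cls₀ (Fam.st Θ),
    by rw [← map_mul, ← map_one cls₀]; exact cls₀_congr fun y hy => (Θ.2.2 y hy).mul_star,
    by rw [← map_mul, ← map_one cls₀]; exact cls₀_congr fun y hy => (Θ.2.2 y hy).star_mul⟩
  map_one' := Units.ext (map_one cls₀)
  map_mul' Θ Θ' := Units.ext (map_mul cls₀ Θ Θ')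

theorem cls_eq {Θ Θ' : Fam blk C} : cls Θ = cls Θ' ↔ homCon blk C Θ Θ' :=
  Units.ext_iff.trans cls₀_eq

theorem cls_congr {Θ Θ' : Fam blk C} (h : ∀ y ∈ C, Θ.1 y = Θ'.1 y) : cls Θ = cls Θ' :=
  Units.ext (cls₀_congr h)

theorem cls_st (Θ : Fam blk C) : cls (Fam.st Θ) = (cls Θ)⁻¹ := Units.ext rfl

theorem cls_proj {q : Matrix H H ℂ} (hq : q * q = q) (hs : star q = q)
    (hb : ∀ i j, blk i ≠ blk j → q i j = 0) (Θ : Fam blk C)
    (h : ∀ y ∈ C, Θ.1 y = 1 + ((-1 : ℂ) - 1) • q) : cls Θ = 1 := by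
  rw [← map_one cls, cls_eq]
  refine ⟨fun p => 1 + (Complex.exp (((1 - p.1) * Real.pi : ℝ) * Complex.I) - 1) • q, fun i j => ?_,
    fun t y _ => UB.proj hq hs hb (Complex.norm_exp_ofReal_mul_I _), fun y hy => ?_,
    fun y _ => by simp⟩
  · simp only [Matrix.add_apply, Matrix.smul_apply, smul_eq_mul]
    refine contDiff_const.add (ContDiff.mul (ContDiff.sub (ContDiff.cexp (ContDiff.mul ?_
      contDiff_const)) contDiff_const) contDiff_const)
    exact Complex.ofRealCLM.contDiff.comp ((contDiff_const.sub contDiff_fst).mul contDiff_const)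
  · simp [h y hy]

theorem UB.diag (φ : H → Circle) : UB blk (diagonal fun j => (φ j : ℂ)) := by
  refine ⟨⟨?_, ?_⟩, fun i j hij => diagonal_apply_ne _ fun e => hij (congrArg blk e)⟩
  · rw [star_eq_conjTranspose, diagonal_conjTranspose, diagonal_mul_diagonal, ← diagonal_one]
    congr 1; funext j
    simp [Complex.conj_mul', Circle.norm_coe]
  · rw [star_eq_conjTranspose, diagonal_conjTranspose, diagonal_mul_diagonal, ← diagonal_one]
    congr 1; funext j
    simp [Complex.mul_conj', Circle.norm_coe]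

theorem cls_diag (φ : H → Circle) : cls (Fam.cst C (UB.diag (blk := blk) φ)) = 1 := by
  rw [← map_one cls, cls_eq]
  refine ⟨fun p => diagonal fun j => (Circle.exp ((1 - p.1) * Complex.arg (φ j)) : ℂ), fun i j => ?_,
    fun t y _ => UB.diag _, fun y _ => by simp [Fam.cst, Circle.exp_arg],
    fun y _ => by simp⟩
  simp only [diagonal_apply, Circle.coe_exp]
  split_ifs
  · refine ContDiff.cexp (ContDiff.mul ?_ contDiff_const)
    exact Complex.ofRealCLM.contDiff.comp ((contDiff_const.sub contDiff_fst).mul contDiff_const)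
  · exact contDiff_const

/-- permutation matrix -/
def pm (τ : Equiv.Perm H) : Matrix H H ℂ := Matrix.of fun i j => if i = τ j then 1 else 0

theorem mul_pm (X : Matrix H H ℂ) (τ : Equiv.Perm H) : X * pm τ = X.submatrix id τ := by
  ext i k
  simp [pm, Matrix.mul_apply]

theorem pm_mul' (τ : Equiv.Perm H) (X : Matrix H H ℂ) : pm τ * X = X.submatrix τ.symm id := by
  ext i k
  simp [pm, Matrix.mul_apply, ← Equiv.symm_apply_eq]

theorem pm_mul (σ τ : Equiv.Perm H) : pm (σ * τ) = pm σ * pm τ := by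
  rw [mul_pm]; rfl

theorem pm_one : pm (1 : Equiv.Perm H) = 1 := by
  rfl

theorem star_pm (τ : Equiv.Perm H) : star (pm τ) = pm τ⁻¹ := by
  ext i k
  simp only [pm, star_apply, of_apply, Equiv.Perm.eq_inv_iff_eq]
  by_cases h : k = τ i
  · simp [h]
  · simp [h, Ne.symm h]

theorem UB.pm {τ : Equiv.Perm H} (h : ∀ j, blk (τ j) = blk j) : UB blk (pm τ) := by
  refine ⟨⟨?_, ?_⟩, fun i j hij => ?_⟩
  · rw [star_pm, ← pm_mul, inv_mul_cancel, pm_one]
  · rw [star_pm, ← pm_mul, mul_inv_cancel, pm_one]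
  · simp only [R174.pm, of_apply]
    rw [if_neg]
    rintro rfl
    exact hij (h j)

theorem cls_pm_invol {τ : Equiv.Perm H} (h : ∀ j, blk (τ j) = blk j) (h2 : τ * τ = 1) :
    cls (Fam.cst C (UB.pm h)) = 1 := by
  have h3 : pm τ * pm τ = 1 := by rw [← pm_mul, h2, pm_one]
  refine cls_proj (q := (1 / 2 : ℂ) • (1 - pm τ)) ?_ ?_ (fun i j hij => ?_) _ fun y _ => ?_
  · rw [smul_mul_smul_comm, mul_sub, sub_mul, sub_mul, h3]
    simp only [one_mul, mul_one]
    module
  · rw [star_smul, star_sub, star_pm, inv_eq_of_mul_eq_one_right h2]; simp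
  · rw [Matrix.smul_apply, Matrix.sub_apply, UB.one.2 i j hij, (UB.pm h).2 i j hij]; simp
  · change pm τ = _
    module

theorem cls_pm (τ : Equiv.Perm H) (h : ∀ j, blk (τ j) = blk j) :
    cls (Fam.cst C (UB.pm h)) = 1 := by
  induction hn : τ.support.card using Nat.strong_induction_on generalizing τ with
  | _ n ih =>
    by_cases h1 : τ = 1
    · subst h1
      rw [← map_one cls]
      exact cls_congr fun _ _ => pm_one
    · obtain ⟨x, hx⟩ : ∃ x, τ x ≠ x := by
        by_contra hc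
        push Not at hc
        exact h1 (Equiv.ext hc)
      have hsw : ∀ j, blk (Equiv.swap x (τ x) j) = blk j := by
        intro j
        rw [Equiv.swap_apply_def]
        split_ifs with h2 h3
        · rw [h2, h]
        · rw [h3, h]
        · rfl
      have h4 : ∀ j, blk ((Equiv.swap x (τ x) * τ) j) = blk j := fun j => by
        rw [Equiv.Perm.mul_apply, hsw, h]
      have h5 := ih _ (hn ▸ Equiv.Perm.card_support_swap_mul hx) _ h4 rfl
      have h6 := cls_pm_invol (C := C) hsw (Equiv.swap_mul_self _ _)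
      rw [← one_mul 1]
      conv_rhs => rw [← h5]; lhs; rw [h5, ← h6]
      rw [← map_mul]
      refine cls_congr fun y _ => ?_
      change pm τ = pm _ * pm _
      rw [← pm_mul, ← mul_assoc, Equiv.swap_mul_self, one_mul]

theorem monoMat_eq (a : Equiv.Perm H) (φ : H → Circle) :
    monoMat a φ = pm a * diagonal fun j => (φ j : ℂ) := by
  ext i j
  simp [monoMat, pm, mul_diagonal]

theorem UB.mono {a : Equiv.Perm H} (h : ∀ j, blk (a j) = blk j) (φ : H → Circle) :
    UB blk (monoMat a φ) := monoMat_eq a φ ▸ (UB.pm h).mul (UB.diag φ)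

theorem cls_mono {a : Equiv.Perm H} (h : ∀ j, blk (a j) = blk j) (φ : H → Circle) :
    cls (Fam.cst C (UB.mono h φ)) = 1 := by
  rw [← one_mul 1]
  conv_rhs => rw [← cls_diag (C := C) (blk := blk) φ]; lhs; rw [cls_diag, ← cls_pm a h]
  rw [← map_mul]
  exact cls_congr fun y _ => monoMat_eq a φ

theorem UB.negOne : UB blk (-1 : Matrix H H ℂ) := by
  have := UB.proj (blk := blk) (q := (1 : Matrix H H ℂ)) (mul_one _) (star_one _) UB.one.2
    (z := -1) (by simp)
  convert this using 1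
  module

theorem cls_negOne : cls (Fam.cst C (UB.negOne (blk := blk))) = 1 :=
  cls_proj (q := 1) (mul_one _) (star_one _) UB.one.2 _ fun y _ => by
    change (-1 : Matrix H H ℂ) = _
    module

end fam

end Crest.Agent.R174
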