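import Crest.Agent.R174.Cell
import Crest.Agent.R174.GammaA

/-! Row 174: the Gerstenhaber–Rothaus type statement. -/

set_option autoImplicit false
set_option linter.unusedSectionVars false
set_option linter.deprecated false

namespace Crest.Agent.R174

open Matrix

section blocks
variable {m N : ℕ} {Sl St : Type} [Fintype Sl] [DecidableEq Sl] [Fintype St] [DecidableEq St]

/-- block-diagonal matrices along the slots -/
def blockD (St : Type) [Fintype St] [DecidableEq St] :
    (Sl → Matrix (Fin N) (Fin N) ℂ) →* Matrix (HH Sl St N) (HH Sl St N) ℂ where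
  toFun Y := Matrix.fromBlocks (Matrix.of fun a b => if a.1 = b.1 then Y a.1 a.2 b.2 else 0) 0 0 1
  map_one' := by
    rw [← fromBlocks_one]
    congr 1
    ext ⟨s, P⟩ ⟨s', P'⟩
    by_cases h : s = s' <;> simp [one_apply, h]
  map_mul' Y Z := by
    rw [fromBlocks_multiply]
    simp only [Matrix.mul_zero, Matrix.zero_mul, add_zero, zero_add, Matrix.mul_one]
    congr 1
    ext ⟨s, P⟩ ⟨s', P'⟩
    simp only [of_apply, Matrix.mul_apply, Fintype.sum_prod_type, Pi.mul_apply]
    rw [Finset.sum_eq_single s (fun t _ ht => by simp [Ne.symm ht]) (by simp)]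
    by_cases h : s = s' <;> simp [h]

theorem blockD_apply (Y : Sl → Matrix (Fin N) (Fin N) ℂ) : blockD St Y =
    Matrix.fromBlocks (Matrix.of fun a b => if a.1 = b.1 then Y a.1 a.2 b.2 else 0) 0 0 1 := rfl

theorem star_blockD (Y : Sl → Matrix (Fin N) (Fin N) ℂ) :
    star (blockD St Y) = blockD St (star Y) := by
  rw [blockD_apply, blockD_apply, star_eq_conjTranspose, fromBlocks_conjTranspose]
  simp only [conjTranspose_zero, conjTranspose_one]
  congr 1
  ext ⟨s, P⟩ ⟨s', P'⟩
  by_cases h : s = s'
  · subst h; simp [star_apply]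
  · simp [h, Ne.symm h]

theorem UB.blockD (sl : Sl → Fin m × Bool) (stl : St → Fin m) {Y : Sl → Matrix (Fin N) (Fin N) ℂ}
    (h : ∀ s, Y s ∈ Matrix.unitaryGroup (Fin N) ℂ) : UB (blkH sl stl) (blockD St Y) := by
  refine ⟨⟨?_, ?_⟩, ?_⟩
  · rw [star_blockD, ← map_mul, ← map_one (R174.blockD St)]
    congr 1; funext s; exact (h s).1
  · rw [star_blockD, ← map_mul, ← map_one (R174.blockD St)]
    congr 1; funext s; exact (h s).2
  · rintro (⟨s, P⟩ | t) (⟨s', P'⟩ | t') hij
    · have : s ≠ s' := fun e => hij (by simp [blkH, e])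
      simp [blockD_apply, this]
    · simp [blockD_apply]
    · simp [blockD_apply]
    · have : t ≠ t' := fun e => hij (by simp [e])
      simp [blockD_apply, this]

theorem Smo.blockD {E : Type*} [NormedAddCommGroup E] [NormedSpace ℝ E]
    {Y : E → Sl → Matrix (Fin N) (Fin N) ℂ} (h : ∀ s, Smo fun y => Y y s) :
    Smo fun y => blockD St (Y y) := by
  rintro (⟨s, P⟩ | t) (⟨s', P'⟩ | t')
  · by_cases e : s = s'
    · simpa [blockD_apply, e] using h s' P P'
    · simpa [blockD_apply, e] using contDiff_const
  all_goals simpa [blockD_apply] using contDiff_const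

variable {E : Type*} [NormedAddCommGroup E] [NormedSpace ℝ E]

/-- a family of `N × N` unitaries acting on one slot -/
def iota (sl : Sl → Fin m × Bool) (stl : St → Fin m) (C : Set E) (s : Sl) :
    Fam (fun _ : Fin N => ()) C →* Fam (blkH (N := N) sl stl) C where
  toFun X := ⟨fun y => blockD St (Pi.mulSingle s (X.1 y)), Smo.blockD fun t => by
      by_cases e : t = s
      · subst e; simpa using X.2.1
      · simpa [e] using Smo.const 1,
    fun y hy => UB.blockD sl stl fun t => by
      by_cases e : t = s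
      · subst e; simpa using (X.2.2 y hy).1
      · simp [e]⟩
  map_one' := Subtype.ext <| funext fun y => by simp
  map_mul' X Y := Subtype.ext <| funext fun y => by simp [Pi.mulSingle_mul]

variable (sl : Sl → Fin m × Bool) (stl : St → Fin m) (C : Set E)

theorem iota_commute {s s' : Sl} (h : s ≠ s') (X X' : Fam (fun _ : Fin N => ()) C) :
    Commute (iota sl stl C s X) (iota sl stl C s' X') :=
  Subtype.ext <| funext fun y =>
    ((Pi.mulSingle_commute (f := fun _ => Matrix (Fin N) (Fin N) ℂ) h (X.1 y) (X'.1 y)).map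
      (blockD St)).eq

theorem cls_iota {s s' : Sl} (h : (sl s).1 = (sl s').1) (X : Fam (fun _ : Fin N => ()) C) :
    cls (iota sl stl C s X) = cls (iota sl stl C s' X) := by
  let τ : Equiv.Perm (HH Sl St N) :=
    Equiv.sumCongr (Equiv.prodCongr (Equiv.swap s s') (Equiv.refl _)) (Equiv.refl _)
  have hτ : ∀ j, blkH sl stl (τ j) = blkH sl stl j := by
    rintro (⟨t, P⟩ | t)
    · simp only [τ, blkH, Equiv.sumCongr_apply, Sum.map_inl, Equiv.prodCongr_apply, Prod.map,
        Sum.elim_inl, Equiv.swap_apply_def]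
      split_ifs with h1 h2
      · rw [h1, h]
      · rw [h2, h]
      · rfl
    · rfl
  have h1 := cls_pm (C := C) τ hτ
  rw [← mul_one (cls (iota sl stl C s X)), ← one_mul (cls (iota sl stl C s' X))]
  conv_lhs => rw [← h1]
  conv_rhs => rw [← h1]
  rw [← map_mul, ← map_mul]
  refine cls_congr fun y _ => ?_
  change blockD St (Pi.mulSingle s (X.1 y)) * pm τ = pm τ * blockD St (Pi.mulSingle s' (X.1 y))
  rw [mul_pm, pm_mul']
  ext (⟨t, P⟩ | t) (⟨t', P'⟩ | t')
  · simp only [τ, blockD_apply, submatrix_apply, id, Equiv.sumCongr_apply, Sum.map_inl,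
      Equiv.prodCongr_apply, Prod.map, Equiv.refl_apply, fromBlocks_apply₁₁, of_apply,
      Equiv.sumCongr_symm, Equiv.prodCongr_symm, Equiv.symm_swap, Equiv.refl_symm,
      Equiv.swap_apply_eq_iff, Pi.mulSingle_apply, Equiv.swap_apply_right]
  all_goals simp [τ, blockD_apply]

theorem prod_mulSingle {M : Type*} [Monoid M] (Y : Sl → M) (l : List Sl) (hl : l.Nodup) :
    (l.map fun s => (Pi.mulSingle s (Y s) : Sl → M)).prod = fun s => if s ∈ l then Y s else 1 := by
  induction l with
  | nil => funext s; simp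
  | cons a l ih =>
    rw [List.nodup_cons] at hl
    rw [List.map_cons, List.prod_cons, ih hl.2]
    funext s
    by_cases e : s = a
    · subst e; simp [hl.1]
    · simp [e]

end blocks

section rfs
variable {H B : Type} [Fintype H] [DecidableEq H] {blk : H → B} {ord : List H}

theorem Adm.proj {y : Par H} (hy : y ∈ Adm blk ord) (j : H) :
    of (y.2 j) * of (y.2 j) = of (y.2 j) ∧ star (of (y.2 j)) = of (y.2 j) ∧
      ∀ i k, blk i ≠ blk k → of (y.2 j) i k = 0 := by
  obtain ⟨-, v, h1, h2, h3⟩ := hy j
  rw [h3]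
  refine ⟨?_, ?_, fun i k hik => ?_⟩
  · rw [vecMulVec_mul_vecMulVec, h1, one_smul]
  · rw [star_eq_conjTranspose, conjTranspose_vecMulVec, star_star]
  · rw [vecMulVec_apply]
    by_cases hi : v i = 0
    · rw [hi, zero_mul]
    · by_cases hk : v k = 0
      · simp [hk]
      · exact absurd ((h2 i hi).2.trans (h2 k hk).2.symm) hik

theorem mem_of_idxOf_le {l l' : List H} {k j : H} (hj : j ∈ l)
    (h : (l ++ l').idxOf k ≤ (l ++ l').idxOf j) : k ∈ l := by
  by_contra hkl
  rw [List.idxOf_append_of_notMem hkl, List.idxOf_append_of_mem hj] at h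
  have := List.idxOf_lt_length_of_mem hj
  omega

theorem smo_rf (n : ℕ) (j : H) : Smo fun y : Par H => rf y n j := by
  intro a b
  simp only [rf, Matrix.add_apply, Matrix.smul_apply, of_apply, smul_eq_mul]
  fun_prop

/-- the pseudo-reflections as families -/
noncomputable def rfF (blk : H → B) (ord : List H) (n : ℕ) (j : H) : Fam blk (Adm blk ord) :=
  ⟨fun y => rf y n j, smo_rf n j, fun y hy =>
    UB.proj (Adm.proj hy j).1 (Adm.proj hy j).2.1 (Adm.proj hy j).2.2 (by rw [norm_pow, (hy j).1, one_pow])⟩

theorem cls_rfF (n : ℕ) (j : H) : cls (rfF blk ord n j) = cls (rfF blk ord 1 j) ^ n := by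
  rw [← map_pow]
  refine cls_congr fun y hy => ?_
  change rf y n j = rf y 1 j ^ n
  rw [rf, rf, pow_one, proj_pow (Adm.proj hy j).1]

theorem PR_rf {y : Par H} (hy : y ∈ Adm blk ord) (l : List H) :
    PR l.length (l.map fun j => rf y 1 j).prod := by
  induction l using List.reverseRecOn with
  | nil => exact PR.one
  | append_singleton l j ih =>
    obtain ⟨h0, v, h1, -, h3⟩ := hy j
    rw [List.map_append, List.prod_append, List.length_append]
    simp only [List.map_cons, List.map_nil, List.prod_cons, List.prod_nil, mul_one,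
      List.length_singleton, rf, pow_one, h3]
    simp only [rf, pow_one] at ih
    exact PR.mul ih h1 h0

theorem coe_prod_Fam {E I : Type*} [NormedAddCommGroup E] [NormedSpace ℝ E] {C : Set E}
    (f : I → Fam blk C) (l : List I) (y : E) :
    (l.map f).prod.1 y = (l.map fun i => (f i).1 y).prod := by
  induction l with
  | nil => rfl
  | cons a l ih => rw [List.map_cons, List.prod_cons, List.map_cons, List.prod_cons, ← ih]; rfl

end rfs

theorem List.prod_toFinset_of_nodup_aux {m N : ℕ} {M : Type*} [CommMonoid M]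
    (f : Fin m × Fin N → M) : (((List.finRange m) ×ˢ (List.finRange N)).map f).prod = ∏ p, f p := by
  rw [← List.prod_toFinset _ ((List.nodup_finRange m).product (List.nodup_finRange N))]
  congr 1
  exact Finset.eq_univ_of_forall fun ⟨_, _⟩ => by simp

theorem Finset.prod_zpow_aux {I M : Type*} [CommGroup M] (s : Finset I) (x : M) (f : I → ℤ) :
    ∏ i ∈ s, x ^ f i = x ^ ∑ i ∈ s, f i := by
  classical
  induction s using Finset.induction_on with
  | empty => simp
  | insert a s ha ih => rw [Finset.prod_insert ha, Finset.sum_insert ha, ih, _root_.zpow_add]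

/-- For some unitaries `γ r`, the monomial matrix and `Gam γ` agree on a subspace of dimension
`m N`.

Proof.  `H = HH Sl St N`, `blk = blkH sl stl`.  For each `r` there are two different slots
`s r ≠ s' r` with `rel = r` and letter `r` (`hM`, `2 ≤ d`).  `low = (finRange m).flatMap fun r =>
(finRange N).map fun P => inl (s r, P)`, `high` = the other indices, `ord = low ++ high`,
`dx = d` on `low`, `1` on `high`, `C = Adm blk ord`.  For `y ∈ C` each `rf y n j` is in `UB blk`,
`rf y n j = (rf y 1 j)^n`, and for `j = inl (s r, P)` the vector `v` is supported on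
`{inl (s r, _)}`, so `rf y 1 j = ι (s r) (ρ r P y)` where `ρ r P y = 1 + (ζ_j - 1) • submatrix` is
an `N × N` unitary and `ι s X` is the matrix acting as `X` on the slot `s` and as `1` elsewhere
(`ι s` is multiplicative, `ι s X` and `ι s' X'` commute for `s ≠ s'`, `Gam γ` is the product of the
`ι s (γ (rel s))^(-ε s)` over any enumeration of the slots).  Put `γ r = (∏_P ρ r P)⁻¹`.
Work in the group `C → unitaryGroup H ℂ`: `Fb` = block-diagonal families that extend to `Smo`
functions on `Par H`; `Nul` = families `Θ` with a `Smo` homotopy `Ĥ : ℝ × Par H → Matrix`,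
in `UB blk` on `C`, `Ĥ (0,y) = 1`, `Ĥ (1,y) = Θ y` on `C`.  `Nul` is a subgroup (pointwise product,
`star`), normalised by `Fb`.  Constants `1 + (e^{iθ} - 1) • q` (`q` a block-diagonal projection) are
in `Nul` (path `e^{iθt}`), hence so are diagonal unitaries, swaps inside a block, `-1`,
`monoMat a φ` (induction on the support of `a`) and the permutation matrices exchanging two slots
with the same letter.  So in `Q = Fb / Nul` the class `a l X` of `ι s X` depends only on the letter
`l` of `s`, and all these classes commute (use two different slots).  In the commutative group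
they generate (`Subgroup.closureCommGroupOfComm`), `[Gam γ] = ∏_s (a (l s) (γ (rel s)))^(-ε s) =
∏_r (a r (γ r))^(-d) = ∏_r ∏_P (a r (ρ r P))^d = [∏_low rf y d j]`.  Hence
`Ψ₀ = (monoMat a φ)⁻¹ * Gam γ * ∏_high rf y 1 j` and `-(∏_ord rf y (dx j) j)` differ by an
element of `Nul`; `cell` for `Ĥ (t,y) * Ψ₀ y` gives `y` with `Ψ₀ y = 1`. -/
theorem exists_gamma {m N d : ℕ} (hd : 2 ≤ d) {Sl St : Type} [Fintype Sl] [DecidableEq Sl]
    [Fintype St] [DecidableEq St] (rel : Sl → Fin m) (sl : Sl → Fin m × Bool) (stl : St → Fin m)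
    (hM : ∀ r l, (∑ s, if rel s = r ∧ (sl s).1 = l then (cond (sl s).2 1 (-1) : ℤ) else 0) =
      if r = l then (d : ℤ) else 0)
    (a : Equiv.Perm (HH Sl St N)) (ha : ∀ h, blkH sl stl (a h) = blkH sl stl h)
    (φ : HH Sl St N → Circle) :
    ∃ γ : Fin m → Matrix (Fin N) (Fin N) ℂ, (∀ r, γ r ∈ Matrix.unitaryGroup (Fin N) ℂ) ∧
      ∃ (k : ℕ) (π : Matrix (HH Sl St N) (HH Sl St N) ℂ),
        k + m * N = Fintype.card (HH Sl St N) ∧ PR k π ∧ monoMat a φ = Gam rel sl γ * π := by
  classical
  have hslots : ∀ r : Fin m, ∃ s s' : Sl, (sl s).1 = r ∧ (sl s').1 = r ∧ s ≠ s' := by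
    intro r
    have h1 := hM r r
    rw [if_pos rfl, ← Finset.sum_filter] at h1
    have h2 : (d : ℤ) ≤ (Finset.univ.filter fun s => rel s = r ∧ (sl s).1 = r).card := by
      rw [← h1, Finset.card_eq_sum_ones]
      push_cast
      exact Finset.sum_le_sum fun s _ => by cases (sl s).2 <;> simp
    obtain ⟨s, hs, s', hs', hne⟩ := Finset.one_lt_card.1
      (show 1 < (Finset.univ.filter fun s => rel s = r ∧ (sl s).1 = r).card by omega)
    exact ⟨s, s', (Finset.mem_filter.1 hs).2.2, (Finset.mem_filter.1 hs').2.2, hne⟩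
  choose s s' hs hs' hne using hslots
  have hsinj : Function.Injective s := fun r r' h => by rw [← hs r, h, hs]
  let blk := blkH (N := N) sl stl
  let idx : Fin m × Fin N → HH Sl St N := fun p => Sum.inl (s p.1, p.2)
  have hidx : Function.Injective idx := by
    rintro ⟨r, P⟩ ⟨r', P'⟩ h
    simp only [idx, Sum.inl.injEq, Prod.mk.injEq] at h
    exact Prod.ext (hsinj h.1) h.2
  let low : List (HH Sl St N) := ((List.finRange m) ×ˢ (List.finRange N)).map idx
  have hlowN : low.Nodup := ((List.nodup_finRange m).product (List.nodup_finRange N)).map hidx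
  have hlow : ∀ j, j ∈ low ↔ ∃ r P, j = Sum.inl (s r, P) := by
    intro j
    simp only [low, List.mem_map, Prod.exists, List.mem_product, List.mem_finRange, true_and, idx]
    exact ⟨fun ⟨r, P, h⟩ => ⟨r, P, h.symm⟩, fun ⟨r, P, h⟩ => ⟨r, P, h.symm⟩⟩
  let high : List (HH Sl St N) := (Finset.univ.filter fun j => j ∉ low).toList
  have hhigh : ∀ j, j ∈ high ↔ j ∉ low := fun j => by simp [high]
  let ord := low ++ high
  have hn : ord.Nodup := List.nodup_append.2 ⟨hlowN, Finset.nodup_toList _, fun x hx z hz e =>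
    (hhigh z).1 hz (e ▸ hx)⟩
  have hall : ∀ j, j ∈ ord := fun j => by
    rw [List.mem_append, hhigh]; exact em _
  have hlen : high.length + m * N = Fintype.card (HH Sl St N) := by
    have h1 : ord.toFinset = Finset.univ := Finset.eq_univ_of_forall fun j => by simpa using hall j
    rw [← Finset.card_univ, ← h1, List.toFinset_card_of_nodup hn, List.length_append]
    simp [low, List.length_product, add_comm]
  let dx : HH Sl St N → ℕ := fun j => if j ∈ low then d else 1
  let C := Adm blk ord
  -- the small reflections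
  have hsupp : ∀ y ∈ C, ∀ r P, ∃ v : Fin N → ℂ, star v ⬝ᵥ v = 1 ∧
      (of fun a b => y.2 (idx (r, P)) (idx (r, a)) (idx (r, b))) = vecMulVec v (star v) ∧
      ∀ a b, y.2 (idx (r, P)) a b ≠ 0 → (∃ P, a = idx (r, P)) ∧ ∃ P, b = idx (r, P) := by
    intro y hy r P
    obtain ⟨-, v, h1, h2, h3⟩ := hy (idx (r, P))
    have h4 : ∀ k, v k ≠ 0 → ∃ P, k = idx (r, P) := by
      intro k hk
      obtain ⟨h5, h6⟩ := h2 k hk
      have hj : idx (r, P) ∈ low := (hlow _).2 ⟨r, P, rfl⟩
      have hkl : k ∈ low := mem_of_idxOf_le hj h5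
      obtain ⟨r', P', rfl⟩ := (hlow k).1 hkl
      have : r' = r := by simpa [blk, blkH, idx, hs] using h6
      exact ⟨P', by rw [this]⟩
    have h5 : ∀ a b, y.2 (idx (r, P)) a b = v a * star (v b) := fun a b =>
      congrFun (congrFun h3 a) b
    refine ⟨fun a => v (idx (r, a)), ?_, ?_, fun a b hab => ?_⟩
    · rw [← h1, dotProduct, dotProduct]
      refine Fintype.sum_of_injective (fun a => idx (r, a))
        (fun a b h => (Prod.mk.inj (hidx h)).2) _ _ (fun k hk => ?_) fun _ => rfl
      by_cases h0 : v k = 0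
      · simp [h0]
      · obtain ⟨P', rfl⟩ := h4 k h0
        exact absurd ⟨P', rfl⟩ hk
    · ext a b; simp [h5, vecMulVec_apply]
    · rw [h5] at hab
      exact ⟨h4 a (left_ne_zero_of_mul hab), h4 b (by simpa using right_ne_zero_of_mul hab)⟩
  let ρ : Fin m → Fin N → Fam (fun _ : Fin N => ()) C := fun r P =>
    ⟨fun y => 1 + (y.1 (idx (r, P)) - 1) •
        of fun a b => y.2 (idx (r, P)) (idx (r, a)) (idx (r, b)), fun a b => by
      simp only [Matrix.add_apply, Matrix.smul_apply, of_apply, smul_eq_mul]
      fun_prop, fun y hy => by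
      obtain ⟨v, h1, h2, -⟩ := hsupp y hy r P
      beta_reduce
      rw [h2]
      exact UB.proj (by rw [vecMulVec_mul_vecMulVec, h1, one_smul])
        (by rw [star_eq_conjTranspose, conjTranspose_vecMulVec, star_star])
        (fun _ _ h => absurd rfl h) (hy _).1⟩
  have hρ : ∀ r P, cls (rfF blk ord 1 (idx (r, P))) = cls (iota sl stl C (s r) (ρ r P)) := by
    intro r P
    refine cls_congr fun y hy => ?_
    obtain ⟨-, -, -, h3⟩ := hsupp y hy r P
    change rf y 1 (idx (r, P)) = blockD St (Pi.mulSingle (s r) ((ρ r P).1 y))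
    have h4 : ∀ a b, (∀ P, a ≠ idx (r, P)) ∨ (∀ P, b ≠ idx (r, P)) → y.2 (idx (r, P)) a b = 0 := by
      intro a b hab
      by_contra h0
      obtain ⟨⟨P1, h5⟩, P2, h6⟩ := h3 a b h0
      exact hab.elim (fun h => h _ h5) fun h => h _ h6
    ext (⟨t, Q⟩ | t) (⟨t', Q'⟩ | t')
    · simp only [rf, pow_one, blockD_apply, Matrix.add_apply, Matrix.smul_apply, of_apply,
        fromBlocks_apply₁₁, smul_eq_mul]
      by_cases e : t = s r
      · by_cases e' : t' = s r
        · subst e e'
          simp [ρ, idx, one_apply]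
        · rw [h4 _ _ (Or.inr fun P h => e' (by simpa [idx] using congrArg (Sum.map Prod.fst id) h))]
          have : t ≠ t' := fun h => e' (h ▸ e)
          simp [this]
      · rw [h4 _ _ (Or.inl fun P h => e (by simpa [idx] using congrArg (Sum.map Prod.fst id) h))]
        by_cases e' : t = t'
        · subst e'; simp [e, one_apply]
        · simp [e']
    · simp [rf, blockD_apply, h4 _ (Sum.inr t') (Or.inr fun P h => by simp [idx] at h)]
    · simp [rf, blockD_apply, h4 (Sum.inr t) _ (Or.inl fun P h => by simp [idx] at h)]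
    · simp [rf, blockD_apply, h4 (Sum.inr t) _ (Or.inl fun P h => by simp [idx] at h), one_apply]
  -- the commutative group
  let A : Fin m → Fam (fun _ : Fin N => ()) C →* (QQ blk C)ˣ := fun l =>
    cls.comp (iota sl stl C (s l))
  have hA : ∀ t X, cls (iota sl stl C t X) = A (sl t).1 X := fun t X =>
    cls_iota sl stl C (hs _).symm X
  have hcomm : ∀ l l' X X', A l X * A l' X' = A l' X' * A l X := by
    intro l l' X X'
    obtain ⟨t, ht, htl⟩ : ∃ t, (sl t).1 = l' ∧ s l ≠ t := by
      by_cases e : s l = s l'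
      · exact ⟨s' l', hs' l', e ▸ hne l'⟩
      · exact ⟨s l', hs l', e⟩
    rw [← ht, ← hA]
    exact ((iota_commute sl stl C htl X X').map cls).eq
  let K : Subgroup (QQ blk C)ˣ := Subgroup.closure (Set.range fun p : _ × _ => A p.1 p.2)
  let _ : CommGroup K := Subgroup.closureCommGroupOfComm (by
    rintro _ ⟨p, rfl⟩ _ ⟨q, rfl⟩; exact hcomm _ _ _ _)
  let α : Fin m → Fam (fun _ : Fin N => ()) C →* K := fun l =>
    (A l).codRestrict K fun X => Subgroup.subset_closure ⟨(l, X), rfl⟩
  have hα : ∀ l X, A l X = K.subtype (α l X) := fun _ _ => rfl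
  let g : Fin m → Fam (fun _ : Fin N => ()) C := fun r => Fam.st ((List.finRange N).map (ρ r)).prod
  have hαst : ∀ l X, α l (Fam.st X) = (α l X)⁻¹ := fun l X => Subtype.ext <| by
    change cls (iota sl stl C (s l) (Fam.st X)) = (cls (iota sl stl C (s l) X))⁻¹
    rw [← cls_st]
    refine cls_congr fun y _ => ?_
    change blockD St (Pi.mulSingle (s l) (star (X.1 y))) = star (blockD St _)
    rw [star_blockD]
    congr 1
    funext t
    by_cases e : t = s l
    · subst e; simp
    · simp [e]
  let Y : Sl → Fam (fun _ : Fin N => ()) C := fun t => cond (sl t).2 (Fam.st (g (rel t))) (g (rel t))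
  let GF : Fam blk C := (Finset.univ.toList.map fun t => iota sl stl C t (Y t)).prod
  have hGF : ∀ y, GF.1 y = Gam rel sl fun r => (g r).1 y := by
    intro y
    rw [coe_prod_Fam]
    change (Finset.univ.toList.map fun t => blockD St (Pi.mulSingle t ((Y t).1 y))).prod = _
    rw [← Function.comp_def (blockD St), ← List.map_map, ← map_list_prod,
      prod_mulSingle _ _ (Finset.nodup_toList _), blockD_apply, Gam]
    congr 1
    ext a b
    simp only [of_apply, Finset.mem_toList, Finset.mem_univ, if_true, Y]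
    cases (sl a.1).2 <;> rfl
  have hG : cls GF = cls (low.map (rfF blk ord d)).prod := by
    have e1 : cls GF = K.subtype (∏ t, α (sl t).1 (Y t)) := by
      rw [← Finset.prod_map_toList, map_list_prod, map_list_prod, List.map_map, List.map_map]
      congr 1
      exact List.map_congr_left fun t _ => hA t _
    have e2 : cls (low.map (rfF blk ord d)).prod =
        K.subtype (∏ r, ∏ P, α r (ρ r P) ^ d) := by
      rw [← Fintype.prod_prod_type', ← List.prod_toFinset_of_nodup_aux (m := m) (N := N),
        map_list_prod, map_list_prod, List.map_map, List.map_map, List.map_map]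
      congr 1
      refine List.map_congr_left fun p _ => ?_
      simp only [Function.comp_apply, map_pow]
      rw [cls_rfF, hρ]; rfl
    rw [e1, e2]
    congr 1
    have e3 : ∀ t, α (sl t).1 (Y t) = ∏ r, ∏ l, α l (g r) ^
        (-(if rel t = r ∧ (sl t).1 = l then (cond (sl t).2 1 (-1) : ℤ) else 0)) := by
      intro t
      rw [Finset.prod_eq_single (rel t) (fun r _ hr => by simp [Ne.symm hr]) (by simp),
        Finset.prod_eq_single (sl t).1 (fun l _ hl => by simp [Ne.symm hl]) (by simp)]
      simp only [Y]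
      cases (sl t).2 <;> simp [hαst]
    simp only [e3]
    rw [Finset.prod_comm]
    refine Finset.prod_congr rfl fun r _ => ?_
    rw [Finset.prod_comm]
    simp only [Finset.prod_zpow_aux, Finset.sum_neg_distrib, hM]
    rw [Finset.prod_eq_single r (fun l _ hl => by simp [Ne.symm hl]) (by simp), if_pos rfl,
      Finset.prod_pow]
    simp only [g, hαst, map_list_prod, List.map_map]
    rw [← List.ofFn_eq_map, List.prod_ofFn]
    simp
  let hi : Fam blk C := (high.map (rfF blk ord 1)).prod
  have hcls : cls (Fam.st (Fam.cst C (UB.mono ha φ)) * GF * hi) =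
      cls (Fam.cst C UB.negOne * ((low.map (rfF blk ord d)).prod * hi)) := by
    simp only [map_mul, cls_st, cls_negOne, hG]
    rw [cls_mono ha φ]
    simp
  obtain ⟨Ψ, h1, h2, h3, h4⟩ := cls_eq.1 hcls
  obtain ⟨y, hy, h0⟩ := cell blk hn hall dx (fun j => by simp only [dx]; split_ifs <;> omega)
    Ψ h1 h2 fun y hy => by
      rw [h4 y hy]
      change -1 * ((low.map (rfF blk ord d)).prod.1 y * hi.1 y) = _
      rw [coe_prod_Fam, coe_prod_Fam, neg_one_mul, List.map_append, List.prod_append]
      congr 2
      · exact congrArg _ (List.map_congr_left fun j hj => by simp [dx, hj, rfF])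
      · exact congrArg _ (List.map_congr_left fun j hj => by simp [dx, (hhigh j).1 hj, rfF])
  rw [h3 y hy] at h0
  change star (monoMat a φ) * GF.1 y * hi.1 y = 1 at h0
  refine ⟨fun r => (g r).1 y, fun r => ((g r).2.2 y hy).1, high.length, _, hlen, PR_rf hy high, ?_⟩
  rw [← hGF]
  have h5 := congrArg (monoMat a φ * ·) h0
  simp only [← mul_assoc, (UB.mono ha φ).mul_star, one_mul, mul_one] at h5
  rw [← h5, coe_prod_Fam (rfF blk ord 1)]
  rfl

end Crest.Agent.R174
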