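import Crest.Agent.R174.Defs

/-! Row 174: group-theoretic reductions. -/

set_option autoImplicit false

namespace Crest.Agent.R174

open Monoid

variable {G : Type*} [Group G]

/-- The exponent-sum vector. -/
def expo (G : Type*) [Group G] (n : ℕ) :
    Coprod G (FreeGroup (Fin n)) →* Multiplicative (Fin n → ℤ) :=
  Coprod.lift (1 : G →* Multiplicative (Fin n → ℤ))
    (FreeGroup.lift fun k => Multiplicative.ofAdd (Pi.single k 1))

@[simp] theorem expo_inl {n : ℕ} (g : G) : expo G n (Coprod.inl g) = 1 := by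
  simp [expo]

@[simp] theorem expo_inr_of {n : ℕ} (k : Fin n) :
    expo G n (Coprod.inr (FreeGroup.of k)) = Multiplicative.ofAdd (Pi.single k 1) := by
  simp [expo]

theorem exists_expo {n : ℕ} (v : Fin n → ℤ) :
    ∃ x : FreeGroup (Fin n), expo G n (Coprod.inr x) = Multiplicative.ofAdd v := by
  refine ⟨(List.ofFn fun k => FreeGroup.of k ^ v k).prod, ?_⟩
  rw [map_list_prod, map_list_prod, List.map_ofFn, List.map_ofFn, List.prod_ofFn]
  apply Multiplicative.toAdd.injective
  ext l
  simp [toAdd_prod, Pi.single_apply]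

/-- Reduction to a scalar exponent matrix.  Proof: the matrix has a rational right inverse
(`mulVecLin` is onto, as its range has dimension `m`); clear denominators and double to get an
integer matrix `B` with `M B = d • 1`, `2 ≤ d`; `β = Coprod.map id (lift fun l => ∏_k of k ^ B l k)`
(a list product) and `expo (β u) = expo u ᵥ* B` (both sides are homs). -/
theorem reduce {n m : ℕ} (w : Fin m → Coprod G (FreeGroup (Fin n)))
    (hrank : (Matrix.of fun (i : Fin m) (j : Fin n) =>
      ((Multiplicative.toAdd (expo G n (w i)) j : ℤ) : ℚ)).rank = m) :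
    ∃ (d : ℕ) (β : Coprod G (FreeGroup (Fin n)) →* Coprod G (FreeGroup (Fin m))), 2 ≤ d ∧
      (∀ g, β (Coprod.inl g) = Coprod.inl g) ∧
      ∀ r l, Multiplicative.toAdd (expo G m (β (w r))) l = if r = l then (d : ℤ) else 0 := by
  set M : Matrix (Fin m) (Fin n) ℚ := Matrix.of fun (i : Fin m) (j : Fin n) =>
      ((Multiplicative.toAdd (expo G n (w i)) j : ℤ) : ℚ) with hM
  have hsurj : Function.Surjective M.mulVec := by
    have : LinearMap.range M.mulVecLin = ⊤ := by
      apply Submodule.eq_top_of_finrank_eq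
      rw [Module.finrank_fin_fun]
      exact hrank
    exact LinearMap.range_eq_top.1 this
  obtain ⟨B, hB⟩ := Matrix.mulVec_surjective_iff_exists_right_inverse.1 hsurj
  set D : ℕ := ∏ p : Fin n × Fin m, (B p.1 p.2).den with hD
  have hD0 : 0 < D := Finset.prod_pos fun p _ => (B p.1 p.2).den_pos
  have hint : ∀ i j, ∃ z : ℤ, (z : ℚ) = (2 * D : ℕ) * B i j := by
    intro i j
    obtain ⟨k, hk⟩ : (B i j).den ∣ D :=
      Finset.dvd_prod_of_mem (fun p : Fin n × Fin m => (B p.1 p.2).den) (Finset.mem_univ (i, j))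
    refine ⟨2 * k * (B i j).num, ?_⟩
    rw [hk]
    push_cast
    rw [← Rat.den_mul_eq_num]
    ring
  choose B' hB' using hint
  choose x hx using fun l : Fin n => exists_expo (G := G) (B' l)
  refine ⟨2 * D, Coprod.map (MonoidHom.id G) (FreeGroup.lift x), by omega, fun g => by simp, ?_⟩
  have key : (expo G m).comp (Coprod.map (MonoidHom.id G) (FreeGroup.lift x)) =
      (AddMonoidHom.toMultiplicative (Matrix.of B').vecMulLinear.toAddMonoidHom).comp
        (expo G n) := by
    refine Coprod.hom_ext ?_ ?_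
    · ext g : 1
      simp
    · refine FreeGroup.ext_hom _ _ fun k => ?_
      simp [hx]
  intro r l
  have h₁ := DFunLike.congr_fun key (w r)
  simp only [MonoidHom.comp_apply] at h₁
  rw [h₁]
  have h₂ := congrFun (congrFun hB r) l
  rw [Matrix.mul_apply, Matrix.one_apply] at h₂
  apply Int.cast_injective (α := ℚ)
  have h₃ : ∑ j, M r j * B' j l = (2 * D : ℕ) * ∑ j, M r j * B j l := by
    rw [Finset.mul_sum]
    exact Finset.sum_congr rfl fun j _ => by rw [hB']; ring
  rw [h₂] at h₃
  simpa [Matrix.vecMul, dotProduct, hM] using h₃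

theorem hv_append {m : ℕ} (l l' : List (G × (Fin m × Bool))) : hv (l ++ l') = hv l * hv l' := by
  simp [hv]

/-- Every element is the value of a nonempty list of pairs (`x = (x t) (1 t⁻¹)`). -/
theorem exists_hv {m : ℕ} (hm : 1 ≤ m) (u : Coprod G (FreeGroup (Fin m))) :
    ∃ l : List (G × (Fin m × Bool)), l ≠ [] ∧ hv l = u := by
  have hinl : ∀ g : G, hv [(g, ((⟨0, hm⟩ : Fin m), true)), (1, (⟨0, hm⟩, false))] =
      Coprod.inl g := by
    intro g
    simp [hv, lt]
  have key : ∃ l : List (G × (Fin m × Bool)), hv l = u := by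
    induction u using Coprod.induction_on with
    | inl g => exact ⟨_, hinl g⟩
    | inr x =>
      induction x using FreeGroup.induction_on with
      | C1 => exact ⟨[], by simp [hv]⟩
      | of k => exact ⟨[(1, (k, true))], by simp [hv, lt]⟩
      | inv_of k _ => exact ⟨[(1, (k, false))], by simp [hv, lt]⟩
      | mul x y hx hy =>
        obtain ⟨l, hl⟩ := hx
        obtain ⟨l', hl'⟩ := hy
        exact ⟨l ++ l', by rw [hv_append, hl, hl', map_mul]⟩
    | mul x y hx hy =>
      obtain ⟨l, hl⟩ := hx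
      obtain ⟨l', hl'⟩ := hy
      exact ⟨l ++ l', by rw [hv_append, hl, hl']⟩
  obtain ⟨l, hl⟩ := key
  exact ⟨l ++ [(1, ((⟨0, hm⟩ : Fin m), true)), (1, (⟨0, hm⟩, false))], by simp,
    by rw [hv_append, hl, hinl, map_one, mul_one]⟩

theorem expo_hv {m k : ℕ} (a : Fin k → G × (Fin m × Bool)) (l : Fin m) :
    Multiplicative.toAdd (expo G m (hv (List.ofFn a))) l =
      ∑ i, if (a i).2.1 = l then (cond (a i).2.2 1 (-1) : ℤ) else 0 := by
  rw [hv, map_list_prod, List.map_ofFn, List.map_ofFn, List.prod_ofFn, toAdd_prod,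
    Finset.sum_apply]
  refine Finset.sum_congr rfl fun i _ => ?_
  rcases hi : a i with ⟨g, k, _ | _⟩ <;> by_cases hk : k = l <;> simp [hi, lt, hk]

section
variable {H : Type*} [Group H] {m : ℕ}

/-- The product of the conjugates named by a list. -/
def cprod (w : Fin m → H) (L : List (H × (Fin m × Bool))) : H :=
  (L.map fun t => t.1 * sg t.2.2 (w t.2.1) * t.1⁻¹).prod

/-- The number of occurrences of a label. -/
def lcnt (y : Fin m × Bool) (L : List (H × (Fin m × Bool))) : ℕ :=
  (L.map fun t => if t.2 = y then 1 else 0).sum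

theorem cprod_append (w : Fin m → H) (L L' : List (H × (Fin m × Bool))) :
    cprod w (L ++ L') = cprod w L * cprod w L' := by
  simp [cprod]

omit [Group H] in
theorem lcnt_append (y : Fin m × Bool) (L L' : List (H × (Fin m × Bool))) :
    lcnt y (L ++ L') = lcnt y L + lcnt y L' := by
  simp [lcnt]

omit [Group H] in
theorem lcnt_le (y : Fin m × Bool) (L : List (H × (Fin m × Bool))) : lcnt y L ≤ L.length := by
  induction L with
  | nil => simp [lcnt]
  | cons t L ih =>
    simp only [lcnt, List.map_cons, List.sum_cons, List.length_cons] at ih ⊢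
    split_ifs <;> omega

theorem exists_cprod (w : Fin m → H) {u : H} (hu : u ∈ Subgroup.normalClosure (Set.range w)) :
    ∃ L, cprod w L = u := by
  induction hu using Subgroup.closure_induction'' with
  | one => exact ⟨[], by simp [cprod]⟩
  | mem x hx =>
    obtain ⟨_, ⟨r, rfl⟩, hc⟩ := Group.mem_conjugatesOfSet_iff.1 hx
    obtain ⟨h, rfl⟩ := isConj_iff.1 hc
    exact ⟨[(h, (r, true))], by simp [cprod, sg]⟩
  | inv_mem x hx =>
    obtain ⟨_, ⟨r, rfl⟩, hc⟩ := Group.mem_conjugatesOfSet_iff.1 hx
    obtain ⟨h, rfl⟩ := isConj_iff.1 hc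
    exact ⟨[(h, (r, false))], by simp [cprod, sg, mul_assoc]⟩
  | mul x y _ _ hx hy =>
    obtain ⟨l, hl⟩ := hx
    obtain ⟨l', hl'⟩ := hy
    exact ⟨l ++ l', by rw [cprod_append, hl, hl']⟩

theorem exists_pad (w : Fin m → H) (c : Fin m → ℕ) :
    ∃ P, cprod w P = 1 ∧ ∀ r b, lcnt (r, b) P = c r := by
  rw [← Finset.univ_sum_single c]
  refine Finset.sum_induction _
    (fun c : Fin m → ℕ => ∃ P, cprod w P = 1 ∧ ∀ r b, lcnt (r, b) P = c r) ?_ ?_ ?_
  · rintro a b ⟨P, hP, hP'⟩ ⟨Q, hQ, hQ'⟩
    exact ⟨P ++ Q, by rw [cprod_append, hP, hQ, mul_one],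
      fun r b => by rw [lcnt_append, hP', hQ', Pi.add_apply]⟩
  · exact ⟨[], by simp [cprod], fun r b => by simp [lcnt]⟩
  · intro r₀ _
    generalize c r₀ = k
    induction k with
    | zero => exact ⟨[], by simp [cprod], fun r b => by simp [lcnt]⟩
    | succ k ih =>
      obtain ⟨P, hP, hP'⟩ := ih
      refine ⟨P ++ [(1, (r₀, true)), (1, (r₀, false))], ?_, fun r b => ?_⟩
      · rw [cprod_append, hP]
        simp [cprod, sg]
      · rw [lcnt_append, hP']
        by_cases hr : r = r₀
        · subst hr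
          cases b <;> simp [lcnt]
        · simp [lcnt, hr, Ne.symm hr]

theorem exists_faces (w : Fin m → H) (L : List (H × (Fin m × Bool))) {N : ℕ}
    (hN : ∀ y, lcnt y L = N) :
    ∃ (fl : List ((Fin m × Bool) × Fin N)) (h : (Fin m × Bool) × Fin N → H), fl.Nodup ∧
      (∀ f, f ∈ fl) ∧ (fl.map fun f => h f * sg f.1.2 (w f.1.1) * (h f)⁻¹).prod = cprod w L := by
  have hc : ∀ y, Fintype.card {i : Fin L.length // (L.get i).2 = y} = N := by
    intro y
    rw [← hN y, Fintype.card_subtype, Finset.card_filter, lcnt]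
    conv_rhs => rw [← List.ofFn_get L, List.map_ofFn, List.sum_ofFn]
    rfl
  set e : Fin L.length ≃ (Fin m × Bool) × Fin N :=
    (Equiv.sigmaFiberEquiv fun i => (L.get i).2).symm.trans
      ((Equiv.sigmaCongrRight fun y => Fintype.equivFinOfCardEq (hc y)).trans
        (Equiv.sigmaEquivProd _ _)) with he
  have he' : ∀ i, (e i).1 = (L.get i).2 := fun i => rfl
  refine ⟨List.ofFn e, fun f => (L.get (e.symm f)).1, List.nodup_ofFn.2 e.injective,
    fun f => List.mem_ofFn.2 ⟨e.symm f, e.apply_symm_apply f⟩, ?_⟩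
  rw [cprod]
  conv_rhs => rw [← List.ofFn_get L]
  rw [List.map_ofFn, List.map_ofFn]
  congr 2
  ext i
  simp only [Function.comp_apply, Equiv.symm_apply_apply, he']

end

theorem expo_cprod {m d : ℕ} (w : Fin m → Coprod G (FreeGroup (Fin m)))
    (hw : ∀ r l, Multiplicative.toAdd (expo G m (w r)) l = if r = l then (d : ℤ) else 0)
    (L : List (Coprod G (FreeGroup (Fin m)) × (Fin m × Bool))) (r : Fin m) :
    Multiplicative.toAdd (expo G m (cprod w L)) r =
      d * ((lcnt (r, true) L : ℤ) - lcnt (r, false) L) := by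
  induction L with
  | nil => simp [cprod, lcnt]
  | cons t L ih =>
    obtain ⟨h, r', b⟩ := t
    simp only [cprod, lcnt, List.map_cons, List.prod_cons, List.sum_cons, map_mul, toAdd_mul,
      Pi.add_apply] at ih ⊢
    rw [ih]
    by_cases hr : r' = r
    · subst hr
      cases b <;> simp [sg, hw] <;> ring
    · cases b <;> simp [sg, hw, hr]

/-- A coefficient in the normal closure is a balanced product of conjugates.  Proof: closure
induction gives a list `L` of triples `(h, r, b)` with product `inl g`; applying `expo` shows that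
`(r, true)` and `(r, false)` occur equally often; append pairs `(1, r, true), (1, r, false)` until
every label occurs `N = L.length` times; `Equiv.sigmaFiberEquiv` and `Fintype.equivFinOfCardEq` give
`e : Fin F ≃ (Fin m × Bool) × Fin N` over the labels, `fl = List.ofFn e`. -/
theorem faces {m d : ℕ} (hd : 2 ≤ d) (w : Fin m → Coprod G (FreeGroup (Fin m)))
    (hw : ∀ r l, Multiplicative.toAdd (expo G m (w r)) l = if r = l then (d : ℤ) else 0) (g : G)
    (hg : Coprod.inl g ∈ Subgroup.normalClosure (Set.range w)) :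
    ∃ (N : ℕ) (fl : List ((Fin m × Bool) × Fin N))
      (h : (Fin m × Bool) × Fin N → Coprod G (FreeGroup (Fin m))), fl.Nodup ∧ (∀ f, f ∈ fl) ∧
      (fl.map fun f => h f * sg f.1.2 (w f.1.1) * (h f)⁻¹).prod = Coprod.inl g := by
  obtain ⟨L, hL⟩ := exists_cprod w hg
  have hbal : ∀ r, lcnt (r, true) L = lcnt (r, false) L := by
    intro r
    have := expo_cprod w hw L r
    rw [hL, expo_inl] at this
    have hd0 : (d : ℤ) ≠ 0 := by omega
    have h0 : (d : ℤ) * ((lcnt (r, true) L : ℤ) - lcnt (r, false) L) = 0 := by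
      rw [← this]; rfl
    have := (mul_eq_zero.1 h0).resolve_left hd0
    omega
  obtain ⟨P, hP, hP'⟩ := exists_pad w fun r => L.length - lcnt (r, true) L
  obtain ⟨fl, h, h₁, h₂, h₃⟩ := exists_faces w (L ++ P) (N := L.length) (by
    rintro ⟨r, b⟩
    rw [lcnt_append, hP']
    have := lcnt_le (r, true) L
    have := hbal r
    cases b <;> omega)
  exact ⟨L.length, fl, h, h₁, h₂, by rw [h₃, cprod_append, hL, hP, mul_one]⟩

end Crest.Agent.R174
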