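import Crest.Agent.R174.Defs
import Crest.Agent.R134.VNA

/-! Row 174: the group von Neumann algebra with its trace. -/

set_option autoImplicit false

namespace Crest.Agent.R174

universe u

open Crest.OpAlg
open scoped InnerProductSpace

theorem trace_of_star {A : Type*} [Ring A] [StarRing A] [Algebra ℂ A] [StarModule ℂ A]
    (τ : A →ₗ[ℂ] ℂ) (h : ∀ a, τ (star a * a) = τ (a * star a)) (a b : A) :
    τ (a * b) = τ (b * a) := by
  have h1 := h (star a + b)
  have h2 := h (star a + Complex.I • b)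
  have h3 := h a
  have h4 := h b
  simp only [star_add, star_star, star_smul, mul_add, add_mul, map_add, smul_mul_assoc,
    mul_smul_comm, map_smul, smul_eq_mul, RCLike.star_def, Complex.conj_I] at h1 h2
  linear_combination (1 / 2 : ℂ) * h1 - (Complex.I / 2) * h2 + (1 / 2 - Complex.I / 2) * h3
    - (1 / 2 + Complex.I ^ 3 / 2) * h4
    + (τ (a * b) - τ (b * a) - τ (star b * star a) + τ (star a * star b)) / 2 * Complex.I_sq

/-- A C⋆-algebra with a trace extending the regular character.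
Proof.  `A = (groupVNA G).toStarSubalgebra` (closed: `Set.isClosed_centralizer`),
`τ x = ⟪δ₁, x δ₁⟫`; the trace property follows from `R134.norm_star_single` by polarization. -/
theorem exists_LG (G : Type u) [Group G] :
    ∃ (A : Type u) (_ : CStarAlgebra A) (τ : A →L[ℂ] ℂ) (lam : G →* unitary A), τ 1 = 1 ∧
      (∀ a b, τ (a * b) = τ (b * a)) ∧ (∀ a, τ (star a) = star (τ a)) ∧
      (∀ a, 0 ≤ (τ (star a * a)).re) ∧ ∀ g, g ≠ 1 → τ (lam g : A) = 0 := by
  classical
  let M := (groupVNA G).toStarSubalgebra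
  have hcl : IsClosed (M : Set (ltwo G →L[ℂ] ltwo G)) := Set.isClosed_centralizer _
  let Ω : ltwo G := lp.single 2 (1 : G) (1 : ℂ)
  have hΩ : ‖Ω‖ = 1 := by rw [lp.norm_single (by norm_num), norm_one]
  let τ : M →L[ℂ] ℂ := (innerSL ℂ Ω).comp ((ContinuousLinearMap.apply ℂ (ltwo G) Ω).comp
    M.toSubalgebra.toSubmodule.subtypeL)
  have hτ : ∀ a : M, τ a = ⟪Ω, (a : ltwo G →L[ℂ] ltwo G) Ω⟫_ℂ := fun _ => rfl
  have hsq : ∀ a : M, τ (star a * a) = ((‖(a : ltwo G →L[ℂ] ltwo G) Ω‖ ^ 2 : ℝ) : ℂ) := fun a => by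
    rw [hτ]
    change ⟪Ω, (star (a : ltwo G →L[ℂ] ltwo G)) ((a : ltwo G →L[ℂ] ltwo G) Ω)⟫_ℂ = _
    rw [ContinuousLinearMap.star_eq_adjoint, ContinuousLinearMap.adjoint_inner_right,
      inner_self_eq_norm_sq_to_K]
    norm_cast
  have hmul : ∀ g h : G, leftRegular (g * h) = leftRegular g * leftRegular h := fun g h => by
    ext ξ k
    simp only [mul_apply_eq_comp, R134.leftRegular_apply, mul_inv_rev, mul_assoc]
  have hone : leftRegular (1 : G) = 1 := by
    ext ξ k
    simp [R134.leftRegular_apply]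
  let l : G → M := fun g => ⟨leftRegular g, R134.leftRegular_mem g⟩
  have hl : ∀ g h, l (g * h) = l g * l h := fun g h => Subtype.ext (hmul g h)
  have hl1 : l 1 = 1 := Subtype.ext hone
  have hls : ∀ g, star (l g) = l g⁻¹ := fun g => Subtype.ext (R134.star_leftRegular g)
  let lam : G →* unitary M :=
    { toFun := fun g => ⟨l g, by
        rw [Unitary.mem_iff, hls, ← hl, ← hl, inv_mul_cancel, mul_inv_cancel, hl1]
        exact ⟨rfl, rfl⟩⟩
      map_one' := Subtype.ext hl1
      map_mul' := fun g h => Subtype.ext (hl g h) }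
  refine ⟨M, inferInstance, τ, lam, ?_, trace_of_star τ.toLinearMap fun a => ?_, fun a => ?_,
    fun a => ?_, fun g hg => ?_⟩
  · rw [hτ]
    change ⟪Ω, Ω⟫_ℂ = 1
    rw [inner_self_eq_norm_sq_to_K, hΩ]; simp
  · have h1 := hsq (star a)
    rw [star_star] at h1
    change τ _ = τ _
    rw [h1, hsq]
    congr 2
    exact (R134.norm_star_single a.2).symm
  · rw [hτ, hτ]
    change ⟪Ω, (star (a : ltwo G →L[ℂ] ltwo G)) Ω⟫_ℂ = _
    rw [ContinuousLinearMap.star_eq_adjoint, ContinuousLinearMap.adjoint_inner_right,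
      ← inner_conj_symm]
    rfl
  · rw [hsq, Complex.ofReal_re]; positivity
  · rw [hτ]
    change ⟪Ω, leftRegular g Ω⟫_ℂ = 0
    rw [R134.leftRegular_single, lp.inner_single_left, lp.single_apply, Pi.single_apply,
      if_neg hg.symm]
    simp

end Crest.Agent.R174
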