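import Crest.Agent.R174.Defs

/-! Row 174: calculus of products of reflections. -/

set_option autoImplicit false

namespace Crest.Agent.R174

open Matrix

section
variable {κ A : Type*} [Fintype κ] [DecidableEq κ] [Ring A] [StarRing A]

theorem RP.mul' {k l : ℕ} {X Y : Matrix κ κ A} (hX : RP k X) (hY : RP l Y) :
    RP (k + l) (X * Y) := by
  induction hY with
  | one => simpa using hX
  | mul _ hR ih => rw [← mul_assoc, ← add_assoc]; exact RP.mul ih hR

theorem IsRefl.conj {R U : Matrix κ κ A} (hR : IsRefl R) (h1 : star U * U = 1)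
    (h2 : U * star U = 1) : IsRefl (U * R * star U) := by
  obtain ⟨v, hv, rfl⟩ := hR
  rw [star_eq_conjTranspose] at *
  refine ⟨U *ᵥ v, ?_, ?_⟩
  · rw [star_mulVec, dotProduct_mulVec, vecMul_vecMul, h1, vecMul_one, hv]
  · rw [star_mulVec, ← vecMulVec_mul, ← mul_vecMulVec, mul_sub, sub_mul, mul_one, h2,
      mul_smul_comm, smul_mul_assoc]

theorem IsRefl.rp {R : Matrix κ κ A} (hR : IsRefl R) : RP 1 R := by
  simpa using RP.mul RP.one hR

/-- `v ↦ U *ᵥ v`. -/
theorem RP.conj {k : ℕ} {X U : Matrix κ κ A} (hX : RP k X) (h1 : star U * U = 1)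
    (h2 : U * star U = 1) : RP k (U * X * star U) := by
  induction hX with
  | one => rw [mul_one, h2]; exact RP.one
  | @mul k X R _ hR ih =>
    have : U * (X * R) * star U = U * X * star U * (U * R * star U) := by
      simp only [mul_assoc]
      rw [← mul_assoc (star U) U, h1, one_mul]
    rw [this]
    exact RP.mul ih (hR.conj h1 h2)

theorem mat_one : mat (1 : Mon κ (unitary A)) = 1 := by
  ext i j
  simp [mat, one_apply]

theorem mat_mul (m n : Mon κ (unitary A)) : mat (m * n) = mat m * mat n := by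
  ext i j
  simp [mat, mul_apply]

theorem star_mat (m : Mon κ (unitary A)) : star (mat m) = mat m⁻¹ := by
  ext i j
  simp only [mat, star_apply, of_apply, Mon.inv_perm, Mon.inv_lab]
  by_cases h : j = m.perm i
  · subst h; simp [← Unitary.star_eq_inv]
  · rw [if_neg h, if_neg (fun e => h (by rw [e]; simp)), star_zero]

variable [Algebra ℂ A] [StarModule ℂ A]

theorem isRefl_of_two {w : κ → A} (h : star w ⬝ᵥ w = 2) : IsRefl (1 - vecMulVec w (star w)) := by
  have hc : ((√2)⁻¹ : ℝ) * ((√2)⁻¹ : ℝ) = (2⁻¹ : ℝ) := by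
    rw [← mul_inv, Real.mul_self_sqrt zero_le_two]
  have hc' : (((√2)⁻¹ : ℝ) : ℂ) * (((√2)⁻¹ : ℝ) : ℂ) = 2⁻¹ := by
    rw [← Complex.ofReal_mul, hc]; simp
  have hs : star ((((√2)⁻¹ : ℝ) : ℂ) • w) = (((√2)⁻¹ : ℝ) : ℂ) • star w := by
    rw [star_smul, Complex.star_def, Complex.conj_ofReal]
  refine ⟨(((√2)⁻¹ : ℝ) : ℂ) • w, ?_, ?_⟩
  · rw [hs, smul_dotProduct, dotProduct_smul, smul_smul, hc', h,
      show (2 : A) = (2 : ℂ) • (1 : A) by rw [two_smul, one_add_one_eq_two], smul_smul]
    simp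
  · rw [hs, smul_vecMulVec, vecMulVec_smul, smul_smul, hc', two_smul, ← add_smul]
    norm_num

theorem isRefl_mat_tr {i j : κ} (h : i ≠ j) (x : unitary A) : IsRefl (mat (tr i j x)) := by
  have h1 : star (Pi.single i 1 - Pi.single j (x : A) : κ → A) =
      Pi.single i 1 - Pi.single j (star (x : A)) := by
    rw [star_sub, Pi.star_single, Pi.star_single, star_one]
  have := isRefl_of_two (w := (Pi.single i 1 - Pi.single j (x : A) : κ → A)) (by
    rw [h1]
    simp [h, h.symm, one_add_one_eq_two])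
  convert this using 1
  rw [h1]
  ext k l
  simp only [mat, tr, of_apply, Matrix.sub_apply, vecMulVec_apply, one_apply, Pi.sub_apply,
    Pi.single_apply]
  by_cases hli : l = i
  · subst hli
    by_cases hk : k = l
    · subst hk; simp [h]
    · by_cases hkj : k = j
      · subst hkj; simp [h, hk]
      · simp [h, hk, hkj]
  · by_cases hlj : l = j
    · subst hlj
      by_cases hk : k = l
      · subst hk; simp [hli]
      · by_cases hki : k = i
        · subst hki; simp [hli, hk, ← Unitary.star_eq_inv]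
        · simp [hk, hki, hli]
    · simp [hli, hlj, Equiv.swap_apply_of_ne_of_ne hli hlj]

/-- `mat (tr i j x)` is the reflection along `(e_i - x e_j)/√2`. -/
theorem MP.rp {k : ℕ} {m : Mon κ (unitary A)} (h : MP k m) : RP k (mat m) := by
  induction h with
  | one => rw [mat_one]; exact RP.one
  | mul x _ hij ih => rw [mat_mul]; exact RP.mul ih (isRefl_mat_tr hij x)

theorem emb_one : emb A (1 : Matrix κ κ ℂ) = 1 := by
  ext (_ | i) (_ | j) <;> simp [emb, one_apply, apply_ite (algebraMap ℂ A)]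

theorem emb_mul (X Y : Matrix κ κ ℂ) : emb A (X * Y) = emb A X * emb A Y := by
  ext (_ | i) (_ | j) <;> simp [emb, mul_apply, Fintype.sum_option, map_sum]

theorem star_emb (X : Matrix κ κ ℂ) : star (emb A X) = emb A (star X) := by
  ext (_ | i) (_ | j) <;> simp [emb, ← algebraMap_star_comm]

theorem IsRefl.emb {R : Matrix κ κ ℂ} (h : IsRefl R) : IsRefl (emb A R) := by
  obtain ⟨v, hv, rfl⟩ := h
  refine ⟨fun o => o.elim 0 fun i => algebraMap ℂ A (v i), ?_, ?_⟩
  · have := congrArg (algebraMap ℂ A) hv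
    simpa [dotProduct, Fintype.sum_option, map_sum, ← algebraMap_star_comm] using this
  · simp only [two_smul]
    ext (_ | i) (_ | j) <;>
      simp [R174.emb, vecMulVec_apply, one_apply, ← algebraMap_star_comm,
        apply_ite (algebraMap ℂ A)]

theorem RP.emb {k : ℕ} {X : Matrix κ κ ℂ} (h : RP k X) : RP k (emb A X) := by
  induction h with
  | one => rw [emb_one]; exact RP.one
  | mul _ hR ih => rw [emb_mul]; exact RP.mul ih hR.emb

end

variable {κ : Type*} [Fintype κ] [DecidableEq κ]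

theorem proj_mul_self {v : κ → ℂ} (hv : star v ⬝ᵥ v = 1) :
    vecMulVec v (star v) * vecMulVec v (star v) = vecMulVec v (star v) := by
  rw [vecMulVec_mul_vecMulVec, hv, one_smul]

omit [Fintype κ] in
theorem pr_conjTranspose (v : κ → ℂ) (ζ : ℂ) :
    (1 + (ζ - 1) • vecMulVec v (star v))ᴴ = 1 + (star ζ - 1) • vecMulVec v (star v) := by
  rw [conjTranspose_add, conjTranspose_one, conjTranspose_smul, conjTranspose_vecMulVec, star_star,
    star_sub, star_one]

theorem star_mul_self_of_norm {ζ : ℂ} (h : ‖ζ‖ = 1) : star ζ * ζ = 1 := by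
  rw [Complex.star_def, Complex.conj_mul', h]; simp

theorem isRefl_blocks {v : κ → ℂ} (hv : star v ⬝ᵥ v = 1) {c : ℂ} (hc : star c * c = 1) :
    IsRefl (fromBlocks (1 - vecMulVec v (star v)) (star c • vecMulVec v (star v))
      (c • vecMulVec v (star v)) (1 - vecMulVec v (star v))) := by
  have h1 : star (Sum.elim v ((-c) • v)) = Sum.elim (star v) ((-star c) • star v) := by
    ext (i | i) <;> simp [mul_comm]
  have := isRefl_of_two (w := Sum.elim v ((-c) • v)) (by
    rw [h1, sumElim_dotProduct_sumElim, smul_dotProduct, dotProduct_smul, smul_smul, hv,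
      neg_mul_neg, hc]
    norm_num)
  convert this using 1
  rw [h1]
  ext (i | i) (j | j) <;> simp [vecMulVec_apply, one_apply]
  · ring
  · ring
  · rw [Complex.star_def] at hc
    linear_combination (-(v i * (starRingEnd ℂ) (v j))) * hc

theorem rp_two_blocks {v : κ → ℂ} (hv : star v ⬝ᵥ v = 1) {ζ : ℂ} (hζ : ‖ζ‖ = 1) :
    RP 2 (fromBlocks (1 + (ζ - 1) • vecMulVec v (star v))ᴴ 0 0
      (1 + (ζ - 1) • vecMulVec v (star v))) := by
  have := RP.mul (isRefl_blocks hv (star_mul_self_of_norm hζ)).rp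
    (isRefl_blocks hv (c := 1) (by simp))
  convert this using 1
  rw [fromBlocks_multiply, pr_conjTranspose]
  have hP := proj_mul_self hv
  generalize vecMulVec v (star v) = P at hP
  simp only [star_one, one_smul, mul_sub, sub_mul, mul_one, one_mul, smul_mul_assoc, hP]
  congr 1 <;> module

theorem PR.unitary {k : ℕ} {π : Matrix κ κ ℂ} (h : PR k π) : π ∈ Matrix.unitaryGroup κ ℂ := by
  induction h with
  | one => exact one_mem _
  | @mul k X v ζ _ hv hζ ih =>
    refine mul_mem ih (mem_unitaryGroup_iff'.2 ?_)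
    rw [star_eq_conjTranspose, pr_conjTranspose]
    have hP := proj_mul_self hv
    generalize vecMulVec v (star v) = P at hP
    simp only [mul_add, add_mul, mul_one, one_mul, smul_mul_assoc, mul_smul_comm, hP]
    linear_combination (norm := module) (star_mul_self_of_norm hζ) • P

/-- Two swaps of the two halves whose matrices differ by `k` pseudo-reflections differ by `2 k`
reflections.  Proof: induction on `PR`.  With `β Y = fromBlocks 0 Yᴴ Y 0` (`β Y * β Y = 1` for
unitary `Y`) and `ρ = 1 + (ζ - 1) v v*`: `β (Y ρ) * β Y = fromBlocks ρᴴ 0 0 (Y ρ Yᴴ)` is the product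
of the reflections along `(v, -c Y v)/√2` and `(v, - Y v)/√2` for a suitable unit `c` (`ζ` or its
conjugate); then `β (Y ρ) β Γ = (β (Y ρ) β Y) (β Y β Γ)`. -/
theorem swap_RP {k : ℕ} {Γ π : Matrix κ κ ℂ} (hΓ : Γ ∈ Matrix.unitaryGroup κ ℂ) (hπ : PR k π) :
    RP (2 * k) (fromBlocks 0 (Γ * π)ᴴ (Γ * π) 0 * fromBlocks 0 Γᴴ Γ 0) := by
  have hβ : ∀ Y ∈ Matrix.unitaryGroup κ ℂ,
      fromBlocks 0 Yᴴ Y 0 * fromBlocks 0 Yᴴ Y 0 = (1 : Matrix (κ ⊕ κ) (κ ⊕ κ) ℂ) := fun Y hY => by
    have h1 : Yᴴ * Y = 1 := mem_unitaryGroup_iff'.1 hY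
    have h2 : Y * Yᴴ = 1 := mem_unitaryGroup_iff.1 hY
    simp [fromBlocks_multiply, h1, h2]
  induction hπ with
  | one => rw [mul_one, hβ Γ hΓ]; exact RP.one
  | @mul k X v ζ hX hv hζ ih =>
    have hY := mul_mem hΓ hX.unitary
    rw [← mul_assoc Γ X]
    generalize Γ * X = Y at ih hY
    have h1 : Yᴴ * Y = 1 := mem_unitaryGroup_iff'.1 hY
    have h2 : Y * Yᴴ = 1 := mem_unitaryGroup_iff.1 hY
    have h3 := (rp_two_blocks hv hζ).conj (U := fromBlocks 1 0 0 Y)
      (by simp [star_eq_conjTranspose, fromBlocks_conjTranspose, fromBlocks_multiply, h1])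
      (by simp [star_eq_conjTranspose, fromBlocks_conjTranspose, fromBlocks_multiply, h2])
    generalize 1 + (ζ - 1) • vecMulVec v (star v) = ρ at h3
    have h4 := h3.mul' ih
    rw [show 2 + 2 * k = 2 * (k + 1) by ring] at h4
    convert h4 using 1
    rw [← mul_assoc]
    congr 1
    simp [star_eq_conjTranspose, fromBlocks_conjTranspose, fromBlocks_multiply, mul_assoc, h1]

end Crest.Agent.R174
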