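import Crest.Agent.R174.MonC
import Crest.Agent.R174.Refl

/-! Row 174: the twisted mirror pairing. -/

set_option autoImplicit false
set_option linter.unusedSectionVars false

namespace Crest.Agent.R174

open Matrix

variable {m N : ℕ} {Sl St : Type} [Fintype Sl] [DecidableEq Sl] [Fintype St] [DecidableEq St]

namespace Mir

/-- block diagonal matrix, the identity on the stems -/
def bd (St : Type) [DecidableEq St] (δ : Sl → Matrix (Fin N) (Fin N) ℂ) :
    Matrix (HH Sl St N) (HH Sl St N) ℂ :=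
  Matrix.fromBlocks (Matrix.of fun a b => if a.1 = b.1 then δ a.1 a.2 b.2 else 0) 0 0 1

theorem bd_mul (δ δ' : Sl → Matrix (Fin N) (Fin N) ℂ) :
    bd St δ * bd St δ' = bd St fun s => δ s * δ' s := by
  rw [bd, bd, bd, fromBlocks_multiply]
  simp only [Matrix.mul_zero, Matrix.zero_mul, add_zero, zero_add, Matrix.mul_one]
  congr 1
  ext ⟨s, P⟩ ⟨s', P'⟩
  rw [Matrix.mul_apply, Fintype.sum_prod_type, Finset.sum_eq_single s]
  · by_cases h : s = s' <;> simp [h, Matrix.mul_apply]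
  · intro t _ ht
    simp [ht.symm]
  · simp

theorem bd_star (δ : Sl → Matrix (Fin N) (Fin N) ℂ) :
    (bd St δ)ᴴ = bd St fun s => star (δ s) := by
  rw [bd, bd, fromBlocks_conjTranspose]
  simp only [conjTranspose_zero, conjTranspose_one]
  congr 1
  ext ⟨s, P⟩ ⟨s', P'⟩
  by_cases h : s = s'
  · subst h; simp [star_apply]
  · simp [h, Ne.symm h]

theorem bd_one : bd St (fun _ : Sl => (1 : Matrix (Fin N) (Fin N) ℂ)) = 1 := by
  rw [bd, ← fromBlocks_one]
  congr 1
  ext ⟨s, P⟩ ⟨s', P'⟩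
  by_cases h : s = s' <;> simp [h, Matrix.one_apply]

theorem bd_unitary {δ : Sl → Matrix (Fin N) (Fin N) ℂ}
    (hδ : ∀ s, δ s ∈ Matrix.unitaryGroup (Fin N) ℂ) :
    bd St δ ∈ Matrix.unitaryGroup (HH Sl St N) ℂ := by
  rw [Matrix.mem_unitaryGroup_iff, star_eq_conjTranspose, bd_star, bd_mul, ← bd_one]
  congr 1
  funext s
  exact Matrix.mem_unitaryGroup_iff.1 (hδ s)

/-- the matrix acting as `δ` on the darts of the positive faces -/
def WW (St : Type) [DecidableEq St] (sl : Sl → Fin m × Bool) (δ : Sl → Matrix (Fin N) (Fin N) ℂ) :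
    Matrix (HH Sl St N ⊕ HH Sl St N) (HH Sl St N ⊕ HH Sl St N) ℂ :=
  fromBlocks (bd St fun s => cond (sl s).2 (δ s) 1) 0 0 (bd St fun s => cond (sl s).2 1 (δ s))

theorem WW_star (sl : Sl → Fin m × Bool) (δ : Sl → Matrix (Fin N) (Fin N) ℂ) :
    star (WW St sl δ) = WW St sl fun s => star (δ s) := by
  rw [star_eq_conjTranspose, WW, WW, fromBlocks_conjTranspose, bd_star, bd_star]
  simp only [conjTranspose_zero]
  congr 2 <;> funext s <;> cases (sl s).2 <;> simp

theorem WW_mul (sl : Sl → Fin m × Bool) (δ δ' : Sl → Matrix (Fin N) (Fin N) ℂ) :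
    WW St sl δ * WW St sl δ' = WW St sl fun s => δ s * δ' s := by
  rw [WW, WW, WW, fromBlocks_multiply, bd_mul, bd_mul]
  simp only [Matrix.mul_zero, Matrix.zero_mul, add_zero, zero_add]
  congr 2 <;> funext s <;> cases (sl s).2 <;> simp

theorem WW_one (sl : Sl → Fin m × Bool) :
    WW St sl (fun _ => (1 : Matrix (Fin N) (Fin N) ℂ)) = 1 := by
  rw [WW]
  simp only [Bool.cond_self, bd_one, fromBlocks_one]

theorem WW_conj (rel : Sl → Fin m) (sl : Sl → Fin m × Bool)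
    (γ : Fin m → Matrix (Fin N) (Fin N) ℂ) :
    fromBlocks 0 (Gam rel sl γ)ᴴ (Gam rel sl γ) 0 =
      WW St sl (fun s => γ (rel s)) * fromBlocks 0 1 1 0 * star (WW St sl fun s => γ (rel s)) := by
  have h : (Gam rel sl γ : Matrix (HH Sl St N) (HH Sl St N) ℂ) =
      bd St fun s => cond (sl s).2 (star (γ (rel s))) (γ (rel s)) := rfl
  rw [WW_star, WW, WW, fromBlocks_multiply, fromBlocks_multiply, h, bd_star]
  simp only [Matrix.mul_zero, Matrix.zero_mul, add_zero, zero_add, Matrix.mul_one, bd_mul]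
  congr 2 <;> funext s <;> cases (sl s).2 <;> simp

variable {sl : Sl → Fin m × Bool} {δ : Sl → Matrix (Fin N) (Fin N) ℂ}

theorem WW_dd (s s' : Sl) (P P' : Fin N) (b b' : Bool) :
    WW St sl δ (dart sl s P b) (dart sl s' P' b') =
      if s = s' ∧ b = b' then (cond b (δ s) 1) P P' else 0 := by
  by_cases h : s = s'
  · subst h
    cases h1 : (sl s).2 <;> cases b <;> cases b' <;> simp [dart, WW, bd, h1]
  · cases h1 : (sl s).2 <;> cases h2 : (sl s').2 <;> cases b <;> cases b' <;>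
      simp [dart, WW, bd, h1, h2, h]

theorem WW_dl (s : Sl) (P : Fin N) (b : Bool) (t : St) :
    WW St sl δ (dart sl s P b) (Sum.inl (Sum.inr t)) = 0 := by
  unfold dart; split_ifs <;> simp [WW, bd]

theorem WW_dr (s : Sl) (P : Fin N) (b : Bool) (t : St) :
    WW St sl δ (dart sl s P b) (Sum.inr (Sum.inr t)) = 0 := by
  unfold dart; split_ifs <;> simp [WW, bd]

theorem WW_ld (s : Sl) (P : Fin N) (b : Bool) (t : St) :
    WW St sl δ (Sum.inl (Sum.inr t)) (dart sl s P b) = 0 := by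
  unfold dart; split_ifs <;> simp [WW, bd]

theorem WW_rd (s : Sl) (P : Fin N) (b : Bool) (t : St) :
    WW St sl δ (Sum.inr (Sum.inr t)) (dart sl s P b) = 0 := by
  unfold dart; split_ifs <;> simp [WW, bd]

theorem WW_ll (t t' : St) :
    WW St sl δ (Sum.inl (Sum.inr t)) (Sum.inl (Sum.inr t')) = if t = t' then 1 else 0 := by
  simp [WW, bd, Matrix.one_apply]

theorem WW_rr (t t' : St) :
    WW St sl δ (Sum.inr (Sum.inr t)) (Sum.inr (Sum.inr t')) = if t = t' then 1 else 0 := by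
  simp [WW, bd, Matrix.one_apply]

theorem WW_lr (t t' : St) : WW St sl δ (Sum.inl (Sum.inr t)) (Sum.inr (Sum.inr t')) = 0 := by
  simp [WW]

theorem WW_rl (t t' : St) : WW St sl δ (Sum.inr (Sum.inr t)) (Sum.inl (Sum.inr t')) = 0 := by
  simp [WW]

theorem idx_cases (sl : Sl → Fin m × Bool) (prv : Equiv.Perm Sl)
    (o : Option (HH Sl St N ⊕ HH Sl St N)) :
    o = none ∨ (∃ s P, o = some (dart sl s P true)) ∨ (∃ s P, o = some (dart sl (prv s) P false)) ∨
      (∃ t, o = some (Sum.inl (Sum.inr t))) ∨ ∃ t, o = some (Sum.inr (Sum.inr t)) := by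
  rcases o with _ | ((⟨s, P⟩ | t) | (⟨s, P⟩ | t))
  · exact Or.inl rfl
  · cases h : (sl s).2
    · exact Or.inr (Or.inr (Or.inl ⟨prv.symm s, P, by simp [dart, h]⟩))
    · exact Or.inr (Or.inl ⟨s, P, by simp [dart, h]⟩)
  · exact Or.inr (Or.inr (Or.inr (Or.inl ⟨t, rfl⟩)))
  · cases h : (sl s).2
    · exact Or.inr (Or.inl ⟨s, P, by simp [dart, h]⟩)
    · exact Or.inr (Or.inr (Or.inl ⟨prv.symm s, P, by simp [dart, h]⟩))
  · exact Or.inr (Or.inr (Or.inr (Or.inr ⟨t, rfl⟩)))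

theorem dart_inj {s s' : Sl} {P P' : Fin N} {b b' : Bool} :
    (dart sl s P b : HH Sl St N ⊕ HH Sl St N) = dart sl s' P' b' ↔ s = s' ∧ P = P' ∧ b = b' := by
  by_cases h : s = s'
  · subst h
    cases h1 : (sl s).2 <;> cases b <;> cases b' <;> simp [dart, h1]
  · cases h1 : (sl s).2 <;> cases h2 : (sl s').2 <;> cases b <;> cases b' <;>
      simp [dart, h1, h2, h]

theorem swap_dart (s : Sl) (P : Fin N) (b : Bool) :
    Sum.swap (dart sl s P b : HH Sl St N ⊕ HH Sl St N) = dart sl s P (!b) := by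
  cases h1 : (sl s).2 <;> cases b <;> simp [dart, h1]

theorem commute_mat {κ A : Type*} [Fintype κ] [DecidableEq κ] [Ring A] [StarRing A]
    (X : Matrix κ κ A) (Φ : Mon κ (unitary A))
    (h : ∀ i j, X (Φ.perm i) (Φ.perm j) * Φ.lab j = Φ.lab i * X i j) :
    X * mat Φ = mat Φ * X := by
  ext i j
  obtain ⟨i, rfl⟩ := Φ.perm.surjective i
  simp [Matrix.mul_apply, mat, h]

theorem emb_comm {G A : Type*} [Group G] [Ring A] [StarRing A] [Algebra ℂ A]
    {lam : G →* unitary A} {x : Sl → G} {prv : Equiv.Perm Sl} (hδ : ∀ s, δ (prv s) = δ s)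
    {Φ : Mon (Option (HH Sl St N ⊕ HH Sl St N)) (unitary A)} (hΦ : IsFace lam sl x prv Φ) :
    emb A (WW St sl δ) * mat Φ = mat Φ * emb A (WW St sl δ) := by
  refine commute_mat _ _ fun i j => ?_
  rcases idx_cases sl prv i with rfl | ⟨s, P, rfl⟩ | ⟨s, P, rfl⟩ | ⟨t, rfl⟩ | ⟨t, rfl⟩ <;>
    rcases idx_cases sl prv j with rfl | ⟨s', P', rfl⟩ | ⟨s', P', rfl⟩ | ⟨t', rfl⟩ | ⟨t', rfl⟩ <;>
    simp only [hΦ.base.1, hΦ.base.2, hΦ.posF, hΦ.negF, hΦ.stem, emb, Matrix.of_apply, WW_dd, WW_dl,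
      WW_dr, WW_ld, WW_rd, WW_ll, WW_rr, WW_lr, WW_rl, map_zero, zero_mul, mul_zero, one_mul, mul_one,
      Bool.true_eq_false, Bool.false_eq_true, and_false, if_false, and_true,
      EmbeddingLike.apply_eq_iff_eq, cond_true, cond_false, hδ, OneMemClass.coe_one]
  all_goals
    split_ifs with h
    · rw [h, Algebra.commutes]
    · simp

theorem emb_swap (A : Type*) [Ring A] [StarRing A] [Algebra ℂ A] {H : Type*} [Fintype H]
    [DecidableEq H] :
    emb A (fromBlocks 0 1 1 0 : Matrix (H ⊕ H) (H ⊕ H) ℂ) =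
      mat (⟨(Equiv.sumComm H H).optionCongr, fun _ => 1⟩ : Mon (Option (H ⊕ H)) (unitary A)) := by
  ext (_ | (i | i)) (_ | (j | j)) <;> simp [emb, mat, Matrix.one_apply, apply_ite (algebraMap ℂ A)]

end Mir

open Mir

theorem Gam_unitary (rel : Sl → Fin m) (sl : Sl → Fin m × Bool)
    {γ : Fin m → Matrix (Fin N) (Fin N) ℂ} (hγ : ∀ r, γ r ∈ Matrix.unitaryGroup (Fin N) ℂ) :
    (Gam rel sl γ : Matrix (HH Sl St N) (HH Sl St N) ℂ) ∈ Matrix.unitaryGroup _ ℂ := by
  refine bd_unitary (δ := fun s => cond (sl s).2 (star (γ (rel s))) (γ (rel s))) fun s => ?_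
  cases (sl s).2
  · exact hγ _
  · exact Unitary.star_mem (hγ _)

/-- Proof.  Let `U = fromBlocks U₁ 0 0 U₂`, where `U₁` (resp. `U₂`) acts on the slot `s` as
`γ (rel s)` if `(sl s).2 = true` (resp. `false`) and as `1` otherwise and on the stems: `U` acts as
`γ` on the darts of the positive faces.  Then `Gam = U₂ U₁ᴴ` and
`fromBlocks 0 Gamᴴ Gam 0 = U * fromBlocks 0 1 1 0 * Uᴴ`.  `emb (fromBlocks 0 1 1 0) = mat α` with
`α = ⟨optionCongr (Equiv.sumComm _ _), 1⟩`.  `emb U` commutes with `mat Φ` (criterion: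
`X (σ i) (σ j) * lab j = lab i * X i j`; every index is `none`, a dart, or a stem position), and
`α * Φ` exchanges `dart s P true` and `dart (prv s) P false` and fixes the rest (`MP.pairing`,
`MP.rp`, `RP.conj`). -/
theorem mirror {G A : Type*} [Group G] [Ring A] [StarRing A] [Algebra ℂ A] [StarModule ℂ A]
    (lam : G →* unitary A) (rel : Sl → Fin m) (sl : Sl → Fin m × Bool) (x : Sl → G)
    (prv : Equiv.Perm Sl) (hprv : ∀ s, rel (prv s) = rel s)
    (Φ : Mon (Option (HH Sl St N ⊕ HH Sl St N)) (unitary A)) (hΦ : IsFace lam sl x prv Φ)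
    {γ : Fin m → Matrix (Fin N) (Fin N) ℂ} (hγ : ∀ r, γ r ∈ Matrix.unitaryGroup (Fin N) ℂ) :
    RP (Fintype.card Sl * N)
      (emb A (fromBlocks 0 (Gam rel sl γ)ᴴ (Gam rel sl γ) 0) * mat Φ) := by
  have h1 : star (WW St sl fun s => γ (rel s)) * WW St sl (fun s => γ (rel s)) = 1 := by
    rw [WW_star, WW_mul, ← WW_one sl]
    congr 1
    funext s
    exact Matrix.mem_unitaryGroup_iff'.1 (hγ _)
  have h2 : WW St sl (fun s => γ (rel s)) * star (WW St sl fun s => γ (rel s)) = 1 := by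
    rw [WW_star, WW_mul, ← WW_one sl]
    congr 1
    funext s
    exact Matrix.mem_unitaryGroup_iff.1 (hγ _)
  have h3 : emb A (star (WW St sl fun s => γ (rel s))) * mat Φ =
      mat Φ * emb A (star (WW St sl fun s => γ (rel s))) := by
    rw [WW_star]
    exact emb_comm (fun s => by rw [hprv]) hΦ
  rw [WW_conj, emb_mul, emb_mul, mul_assoc, h3, emb_swap, ← mul_assoc, mul_assoc (emb A _),
    ← mat_mul, ← star_emb]
  refine RP.conj (MP.rp ?_) (by rw [star_emb, ← emb_mul, h1, emb_one])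
    (by rw [star_emb, ← emb_mul, h2, emb_one])
  have h4 : Fintype.card Sl * N = Fintype.card (Sl × Fin N) := by simp
  rw [h4]
  refine MP.pairing (fun a : Sl × Fin N => some (dart sl a.1 a.2 true))
    (fun a => some (dart sl (prv a.1) a.2 false)) ?_ (fun a => lam (x a.1)) _ (fun a => ?_)
    (fun a => ?_) fun j hj => ?_
  · rintro (⟨s, P⟩ | ⟨s, P⟩) (⟨s', P'⟩ | ⟨s', P'⟩) <;> simp [dart_inj]
  · simp [hΦ.posF, swap_dart]
  · simp [hΦ.negF, swap_dart]
  · rcases idx_cases sl prv j with rfl | ⟨s, P, rfl⟩ | ⟨s, P, rfl⟩ | ⟨t, rfl⟩ | ⟨t, rfl⟩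
    · simp [hΦ.base]
    · exact absurd (Or.inl ⟨(s, P), rfl⟩) hj
    · exact absurd (Or.inr ⟨(s, P), rfl⟩) hj
    · simp [hΦ.stem]
    · simp [hΦ.stem]

end Crest.Agent.R174
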