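import Crest.Agent.R174.Phase
import Crest.Agent.R174.LG
import Crest.Agent.R174.Gamma
import Crest.Agent.R174.Dyck
import Crest.Agent.R174.Build
import Crest.Agent.R174.Mirror
import Crest.Agent.R174.Grp

/-! Row 174: assembly. -/

set_option autoImplicit false
set_option synthInstance.maxSize 1024

namespace Crest.Agent.R174

open Matrix Monoid

/-- Unit scalars as unitaries of a star algebra. -/
noncomputable def scU (A : Type*) [Ring A] [StarRing A] [Algebra ℂ A] [StarModule ℂ A] :
    Circle →* unitary A where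
  toFun z := ⟨algebraMap ℂ A z, by
    have h : star (z : ℂ) * z = 1 := by
      rw [Complex.star_def, ← Circle.coe_inv_eq_conj, ← Circle.coe_mul, inv_mul_cancel,
        Circle.coe_one]
    rw [Unitary.mem_iff, ← algebraMap_star_comm, ← map_mul, ← map_mul, mul_comm (z : ℂ), h, map_one]
    exact ⟨rfl, rfl⟩⟩
  map_one' := Subtype.ext (by simp)
  map_mul' a b := Subtype.ext (by simp)

theorem near_mat {κ A : Type*} [Fintype κ] [DecidableEq κ] [Ring A] [StarRing A] [Algebra ℂ A]
    [StarModule ℂ A] {k : ℕ} {m n : Mon κ (unitary A)} (h : Near k m n) :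
    ∃ P, RP k P ∧ mat n = mat m * P :=
  ⟨_, MP.rp h, by rw [← mat_mul, mul_inv_cancel_left]⟩

theorem core {G : Type*} [Group G] {m d : ℕ} (hm : 1 ≤ m) (hd : 2 ≤ d)
    (w : Fin m → Coprod G (FreeGroup (Fin m)))
    (hw : ∀ r l, Multiplicative.toAdd (expo G m (w r)) l = if r = l then (d : ℤ) else 0) (g : G)
    (hg : Coprod.inl g ∈ Subgroup.normalClosure (Set.range w)) : g = 1 := by
  classical
  by_contra hg1
  obtain ⟨N, fl, h, hn, hall, hprod⟩ := faces hd w hw g hg
  choose hw' _ hhw using fun f => exists_hv hm (h f)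
  choose wl hwl0 hwl using fun r => exists_hv hm (w r)
  set n : Fin m → ℕ := fun r => (wl r).length - 1 with hn'
  have hlen : ∀ r, n r + 1 = (wl r).length := fun r =>
    Nat.sub_add_cancel (List.length_pos_iff.2 (hwl0 r))
  set a : SlT n → G × (Fin m × Bool) := fun s => (wl s.1).get (Fin.cast (hlen s.1) s.2) with ha
  have hof : ∀ r, hv (List.ofFn fun i => ((a ⟨r, i⟩).1, (a ⟨r, i⟩).2)) = w r := fun r => by
    rw [← hwl r]
    congr 1
    refine List.ext_get (by simp [hlen]) fun i h1 h2 => ?_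
    rw [List.get_ofFn]
    rfl
  obtain ⟨A, _, τ, lam, h1, htr, hst, hpos, hτ⟩ := exists_LG G
  obtain ⟨St, _, _, stl, prv, W, Φ, hprv, hW, hWall, hval, hΦ, hnear⟩ :=
    build lam n (fun s => (a s).1) (fun s => (a s).2) fl hn hall hw'
  simp only [hof, hhw] at hval
  rw [hprod] at hval
  set sl : SlT n → Fin m × Bool := fun s => (a s).2 with hsl
  obtain ⟨ω, hω⟩ := no_RP τ h1 htr hst hpos (lam g) (orderOf g)
    (fun h => hg1 (orderOf_eq_one_iff.1 h)) (fun k => by
      rw [← SubmonoidClass.coe_pow, ← map_pow]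
      by_cases hk : orderOf g ∣ k
      · rw [if_pos hk, orderOf_dvd_iff_pow_eq_one.1 hk, map_one]; exact h1
      · rw [if_neg hk]; exact hτ _ fun h => hk (orderOf_dvd_iff_pow_eq_one.2 h))
    (HH (SlT n) St N ⊕ HH (SlT n) St N)
  obtain ⟨σ, φ, ζ, k, hk, hσ, hσσ, hφ, hD⟩ := dyck lam (scU A)
    (fun z x => Subtype.ext (Algebra.commutes (z : ℂ) (x : A))) (letH sl stl) W hW hWall g hval ω
  have hσ1 : ∀ p, ∃ q, σ (Sum.inl p) = Sum.inr q ∧ blkH sl stl q = blkH sl stl p := fun p => by
    have := hσ (Sum.inl p)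
    rcases hq : σ (Sum.inl p) with q | q
    · rw [hq] at this; simp [letH] at this
    · rw [hq] at this; exact ⟨q, rfl, by simpa [letH] using this⟩
  choose b hb hb' using hσ1
  have hbi : Function.Injective b := fun p p' hpp =>
    Sum.inl_injective (σ.injective (by rw [hb, hb, hpp]))
  set e : Equiv.Perm (HH (SlT n) St N) :=
    Equiv.ofBijective b (Finite.injective_iff_bijective.1 hbi) with he
  have hb2 : ∀ p, σ (Sum.inr (e p)) = Sum.inl p := fun p => by
    rw [← hσσ (Sum.inl p), hb]; rfl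
  have hM : ∀ r l, (∑ s : SlT n, if s.1 = r ∧ (sl s).1 = l then (cond (sl s).2 1 (-1) : ℤ) else 0) =
      if r = l then (d : ℤ) else 0 := fun r l => by
    rw [← hw r l, ← hof r, expo_hv, Fintype.sum_sigma, Finset.sum_eq_single r]
    · simp [hsl]
    · intro r' _ hr'; simp [hr']
    · simp
  obtain ⟨γ, hγ, k', π, hk', hπ, hA⟩ :=
    exists_gamma hd Sigma.fst sl stl hM e hb' fun p => φ (Sum.inl p)
  have hν : mat (⟨σ.optionCongr, fun o => o.elim 1 fun p => scU A (φ p)⟩ :
      Mon (Option (HH (SlT n) St N ⊕ HH (SlT n) St N)) (unitary A)) =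
      emb A (fromBlocks 0 (monoMat e fun p => φ (Sum.inl p))ᴴ
        (monoMat e fun p => φ (Sum.inl p)) 0) := by
    ext i j
    rcases i with _ | i | i <;> rcases j with _ | j | j
    · simp [mat, emb]
    · simp [mat, emb]
    · simp [mat, emb]
    · simp [mat, emb]
    · simp [mat, emb, hb]
    · obtain ⟨j, rfl⟩ := e.surjective j
      have h2 : φ (Sum.inr (e j)) = (φ (Sum.inl j))⁻¹ := by rw [← hφ, hb]; rfl
      by_cases hij : i = j
      · subst hij
        simp [mat, emb, hb2, monoMat, h2, scU, ← Circle.coe_inv_eq_conj]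
      · simp [mat, emb, hb2, monoMat, hij, Ne.symm hij]
    · simp [mat, emb]
    · by_cases hij : i = e j
      · subst hij
        have : σ (Sum.inl j) = Sum.inr (e j) := hb j
        simp [mat, emb, this, monoMat, scU]
      · have : σ (Sum.inl j) = Sum.inr (e j) := hb j
        simp [mat, emb, this, monoMat, hij]
    · obtain ⟨j, rfl⟩ := e.surjective j
      simp [mat, emb, hb2]
  obtain ⟨P₁, hP₁, e₁⟩ := near_mat hD
  obtain ⟨P₂, hP₂, e₂⟩ := near_mat hnear.symm
  have hG := Gam_unitary (St := St) Sigma.fst sl hγ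
  have h3 := (swap_RP hG hπ).emb (A := A)
  have h4 := mirror lam Sigma.fst sl (fun s => (a s).1) prv hprv Φ hΦ hγ
  have h5 : (fromBlocks 0 (Gam Sigma.fst sl γ)ᴴ (Gam Sigma.fst sl γ) 0 *
      fromBlocks 0 (Gam Sigma.fst sl γ)ᴴ (Gam Sigma.fst sl γ) 0 :
      Matrix (HH (SlT n) St N ⊕ HH (SlT n) St N) (HH (SlT n) St N ⊕ HH (SlT n) St N) ℂ) = 1 := by
    have h6 := (Unitary.mem_iff.1 hG).1
    have h7 := (Unitary.mem_iff.1 hG).2
    rw [star_eq_conjTranspose] at h6 h7
    rw [fromBlocks_multiply]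
    simp [h6, h7]
  have h6 := ((h3.mul' h4).mul' hP₂).mul' hP₁
  rw [← hA, emb_mul, mul_assoc (emb A _) (emb A _), ← mul_assoc (emb A _) (emb A _) (mat Φ),
    ← emb_mul, h5, emb_one, one_mul, ← hν, mul_assoc (mat _) (mat Φ), ← e₂, ← mat_mul, ← e₁] at h6
  refine hω ζ ?_
  convert h6 using 1
  · simp only [Fintype.card_sum, Fintype.card_prod, Fintype.card_fin] at hk hk' ⊢
    have : 2 * m * N = 2 * (m * N) := by ring
    simp only [SlT] at hk hk' ⊢
    omega
  · ext i j
    by_cases hij : i = j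
    · subst hij
      rcases i with _ | i
      · simp [mat, dg, scU, Algebra.smul_def, Algebra.commutes]
      · simp [mat, dg, scU]
    · simp [mat, dg, hij]

end Crest.Agent.R174
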