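import Crest.Agent.R174.Defs

/-! Row 174: calculus of monomial elements. -/

set_option autoImplicit false

namespace Crest.Agent.R174

variable {κ Γ : Type*} [DecidableEq κ] [Group Γ]

theorem tr_mul_self {i j : κ} (h : i ≠ j) (x : Γ) : tr i j x * tr i j x = 1 := by
  ext k
  · simp [tr]
  · by_cases hi : k = i
    · subst hi; simp [tr, h.symm]
    · by_cases hj : k = j
      · subst hj; simp [tr, hi]
      · simp [tr, hi, hj, Equiv.swap_apply_of_ne_of_ne hi hj]

theorem MP.mul' {k l : ℕ} {m n : Mon κ Γ} (hm : MP k m) (hn : MP l n) : MP (k + l) (m * n) := by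
  induction hn with
  | one => simpa using hm
  | mul x _ hij ih => rw [← mul_assoc, ← add_assoc]; exact MP.mul x ih hij

theorem MP.tr {i j : κ} (h : i ≠ j) (x : Γ) : MP 1 (tr i j x) := by
  simpa using MP.mul x MP.one h

theorem MP.inv {k : ℕ} {m : Mon κ Γ} (hm : MP k m) : MP k m⁻¹ := by
  induction hm with
  | one => simpa using MP.one
  | mul x _ hij ih =>
    rw [mul_inv_rev, inv_eq_of_mul_eq_one_right (tr_mul_self hij x), add_comm]
    exact (MP.tr hij x).mul' ih

/-- `u * tr i j x * u⁻¹ = tr (u.perm i) (u.perm j) (u.lab j * x * (u.lab i)⁻¹)`. -/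
theorem MP.conj {k : ℕ} {m : Mon κ Γ} (hm : MP k m) (u : Mon κ Γ) : MP k (u * m * u⁻¹) := by
  induction hm with
  | one => simpa using MP.one
  | @mul k m i j x _ hij ih =>
    have h1 : u * (m * R174.tr i j x) * u⁻¹ = u * m * u⁻¹ * (u * R174.tr i j x * u⁻¹) := by group
    have h2 : u * R174.tr i j x * u⁻¹ =
        R174.tr (u.perm i) (u.perm j) (u.lab j * x * (u.lab i)⁻¹) := by
      ext k
      · simp [R174.tr, Equiv.swap_apply_apply]
      · obtain ⟨k, rfl⟩ := u.perm.surjective k
        by_cases hi : k = i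
        · subst hi; simp [R174.tr]
        · by_cases hj : k = j
          · subst hj; simp [R174.tr, hi, mul_assoc]
          · simp [R174.tr, hi, hj, Equiv.swap_apply_of_ne_of_ne hi hj]
    rw [h1, h2]
    exact MP.mul _ ih (u.perm.injective.ne hij)

theorem Near.refl (m : Mon κ Γ) : Near 0 m m := by
  simpa [Near] using MP.one

theorem Near.symm {k : ℕ} {m n : Mon κ Γ} (h : Near k m n) : Near k n m := by
  simpa [Near] using MP.inv h

theorem Near.trans {k l : ℕ} {m n p : Mon κ Γ} (h : Near k m n) (h' : Near l n p) :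
    Near (k + l) m p := by
  have := MP.mul' h h'
  rwa [show m⁻¹ * n * (n⁻¹ * p) = m⁻¹ * p by group] at this

theorem Near.mul {k l : ℕ} {m n m' n' : Mon κ Γ} (h : Near k m n) (h' : Near l m' n') :
    Near (k + l) (m * m') (n * n') := by
  have := MP.mul' (MP.conj h m'⁻¹) h'
  rwa [show m'⁻¹ * (m⁻¹ * n) * m'⁻¹⁻¹ * (m'⁻¹ * n') = (m * m')⁻¹ * (n * n') by group] at this

theorem Near.tr_left {i j : κ} (h : i ≠ j) (x : Γ) (m : Mon κ Γ) : Near 1 m (tr i j x * m) := by
  have := (MP.tr h x).conj m⁻¹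
  rwa [inv_inv, mul_assoc] at this

theorem Near.tr_right {i j : κ} (h : i ≠ j) (x : Γ) (m : Mon κ Γ) : Near 1 m (m * tr i j x) := by
  simpa [Near] using MP.tr h x

omit [DecidableEq κ] in
theorem Supp.mono {m : Mon κ Γ} {S T : Set κ} (h : Supp m S) (hST : S ⊆ T) : Supp m T := by
  exact fun j hj => h j fun hS => hj (hST hS)

omit [DecidableEq κ] in
theorem Supp.mem {m : Mon κ Γ} {S : Set κ} (h : Supp m S) {j : κ} (hj : j ∈ S) :
    m.perm j ∈ S := by
  by_contra hn
  have := m.perm.injective (h _ hn).1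
  exact hn (by rw [this]; exact hj)

omit [DecidableEq κ] in
theorem Supp.mul {m n : Mon κ Γ} {S : Set κ} (h : Supp m S) (h' : Supp n S) :
    Supp (m * n) S := by
  intro j hj
  simp [(h' j hj).1, (h' j hj).2, (h j hj).1, (h j hj).2]

omit [DecidableEq κ] in
theorem Supp.inv {m : Mon κ Γ} {S : Set κ} (h : Supp m S) : Supp m⁻¹ S := by
  intro j hj
  have h1 : m.perm⁻¹ j = j := by rw [Equiv.Perm.inv_eq_iff_eq, (h j hj).1]
  simp [h1, (h j hj).2]

theorem Supp.tr (i j : κ) (x : Γ) : Supp (tr i j x) {i, j} := by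
  intro k hk
  simp only [Set.mem_insert_iff, Set.mem_singleton_iff, not_or] at hk
  simp [R174.tr, hk.1, hk.2, Equiv.swap_apply_of_ne_of_ne hk.1 hk.2]

omit [DecidableEq κ] in
theorem Supp.commute {m n : Mon κ Γ} {S T : Set κ} (h : Supp m S) (h' : Supp n T)
    (hST : Disjoint S T) : Commute m n := by
  have key : ∀ j, m.perm (n.perm j) = n.perm (m.perm j) ∧
      m.lab (n.perm j) * n.lab j = n.lab (m.perm j) * m.lab j := fun j => by
    by_cases hS : j ∈ S
    · have h1 := h' j (Set.disjoint_left.1 hST hS)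
      have h2 := h' _ (Set.disjoint_left.1 hST (h.mem hS))
      simp [h1.1, h1.2, h2.1, h2.2]
    · have h1 := h j hS
      by_cases hT : j ∈ T
      · have h2 := h _ (Set.disjoint_right.1 hST (h'.mem hT))
        simp [h1.1, h1.2, h2.1, h2.2]
      · have h2 := h' j hT
        simp [h1.1, h1.2, h2.1, h2.2]
  change m * n = n * m
  ext j
  · exact (key j).1
  · exact (key j).2

omit [DecidableEq κ] in
/-- A product of elements with pairwise disjoint supports. -/
theorem prod_apply {I : Type*} (l : List I) (hl : l.Nodup) (Y : I → Mon κ Γ) (S : I → Set κ)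
    (hY : ∀ f, Supp (Y f) (S f)) (hS : ∀ f f', f ≠ f' → Disjoint (S f) (S f')) :
    (∀ f ∈ l, ∀ j ∈ S f, (l.map Y).prod.perm j = (Y f).perm j ∧
      (l.map Y).prod.lab j = (Y f).lab j) ∧ Supp (l.map Y).prod {j | ∃ f ∈ l, j ∈ S f} := by
  induction l with
  | nil => exact ⟨by simp, fun j _ => by simp⟩
  | cons f l ih =>
    obtain ⟨hf, hl'⟩ := List.nodup_cons.1 hl
    obtain ⟨h1, h2⟩ := ih hl'
    rw [List.map_cons, List.prod_cons]
    refine ⟨fun f' hf' j hj => ?_, Supp.mul ((hY f).mono fun j hj => ⟨f, by simp, hj⟩)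
      (h2.mono fun j ⟨f', hf', hj⟩ => ⟨f', by simp [hf'], hj⟩)⟩
    rcases List.mem_cons.1 hf' with rfl | hf''
    · have := h2 j fun ⟨g, hg, hjg⟩ =>
        Set.disjoint_left.1 (hS f' g fun e => hf (e ▸ hg)) hj hjg
      simp [this.1, this.2]
    · have h3 := h1 f' hf'' j hj
      have h4 := hY f _ (Set.disjoint_right.1 (hS f f' fun e => hf (e ▸ hf'')) ((hY f').mem hj))
      simp [h3.1, h3.2, h4.1, h4.2]

/-- An involution given by a pairing. -/
theorem MP.pairing {I : Type*} [Fintype I] (a b : I → κ) (hab : Function.Injective (Sum.elim a b))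
    (x : I → Γ) (m : Mon κ Γ) (ha : ∀ i, m.perm (a i) = b i ∧ m.lab (a i) = x i)
    (hb : ∀ i, m.perm (b i) = a i ∧ m.lab (b i) = (x i)⁻¹)
    (hs : Supp m (Set.range a ∪ Set.range b)) : MP (Fintype.card I) m := by
  have hne : ∀ i, a i ≠ b i := fun i e =>
    Sum.inl_ne_inr (hab (a₁ := Sum.inl i) (a₂ := Sum.inr i) e)
  have hlist : ∀ l : List I, MP l.length (l.map fun i => R174.tr (a i) (b i) (x i)).prod := by
    intro l
    induction l with
    | nil => exact MP.one
    | cons i l ih =>
      rw [List.map_cons, List.prod_cons, List.length_cons, add_comm]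
      exact (MP.tr (hne i) (x i)).mul' ih
  obtain ⟨h1, h2⟩ := prod_apply (Finset.univ : Finset I).toList (Finset.nodup_toList _)
    (fun i => R174.tr (a i) (b i) (x i)) (fun i => {a i, b i}) (fun i => Supp.tr _ _ _)
    (fun i i' hii => by
      have e1 : a i ≠ a i' := fun e => hii (Sum.inl_injective (hab (a₁ := .inl i) (a₂ := .inl i') e))
      have e2 : b i ≠ b i' := fun e => hii (Sum.inr_injective (hab (a₁ := .inr i) (a₂ := .inr i') e))
      have e3 : a i ≠ b i' := fun e => Sum.inl_ne_inr (hab (a₁ := .inl i) (a₂ := .inr i') e)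
      have e4 : b i ≠ a i' := fun e => Sum.inr_ne_inl (hab (a₁ := .inr i) (a₂ := .inl i') e)
      simp [e1.symm, e2.symm, e3.symm, e4.symm])
  have key : ∀ j, m.perm j =
      ((Finset.univ : Finset I).toList.map fun i => R174.tr (a i) (b i) (x i)).prod.perm j ∧
      m.lab j =
      ((Finset.univ : Finset I).toList.map fun i => R174.tr (a i) (b i) (x i)).prod.lab j := by
    intro j
    by_cases hj : j ∈ Set.range a ∪ Set.range b
    · rcases hj with ⟨i, rfl⟩ | ⟨i, rfl⟩
      · have := h1 i (by simp) (a i) (by simp)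
        rw [this.1, this.2, (ha i).1, (ha i).2]
        simp [R174.tr]
      · have := h1 i (by simp) (b i) (by simp)
        rw [this.1, this.2, (hb i).1, (hb i).2]
        simp [R174.tr, (hne i).symm]
    · have := h2 j fun ⟨i, _, hi⟩ => hj (by
        rcases hi with rfl | rfl
        exacts [Or.inl ⟨i, rfl⟩, Or.inr ⟨i, rfl⟩])
      rw [this.1, this.2]
      exact hs j hj
  have := hlist (Finset.univ : Finset I).toList
  rw [Finset.length_toList, Finset.card_univ] at this
  convert this using 1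
  ext j
  · exact (key j).1
  · exact (key j).2

section words
variable {G ι : Type*} [Group G] [DecidableEq ι] (lam : G →* Γ)

theorem cW_append (W W' : List (G ⊕ ι)) : cW lam (W ++ W') = cW lam W * cW lam W' := by
  simp [cW]

theorem supp_cW (W : List (G ⊕ ι)) :
    Supp (cW lam W) {o | o = none ∨ ∃ p ∈ pos W, o = some p} := by
  induction W with
  | nil => intro j _; simp [cW]
  | cons c W ih =>
    rw [cW, List.map_cons, List.prod_cons]
    refine Supp.mul ?_ (Supp.mono ih ?_)
    · rcases c with g | p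
      · intro j hj
        simp only [Set.mem_ofPred_eq, not_or] at hj
        simp [cw, dg, hj.1]
      · refine (Supp.tr _ _ _).mono ?_
        rintro o (rfl | rfl)
        · exact Or.inl rfl
        · exact Or.inr ⟨p, by simp [pos], rfl⟩
    · rintro o (rfl | ⟨p, hp, rfl⟩)
      · exact Or.inl rfl
      · refine Or.inr ⟨p, ?_, rfl⟩
        simp only [pos, List.mem_filterMap] at hp ⊢
        obtain ⟨c', hc', h⟩ := hp
        exact ⟨c', List.mem_cons_of_mem _ hc', h⟩

end words

end Crest.Agent.R174
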