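import Crest.Agent.R174.Defs

/-! Row 174: the phase inequality. -/

set_option autoImplicit false

namespace Crest.Agent.R174

open Matrix

namespace Ph
open Complex

variable {𝒜 : Type*} [CStarAlgebra 𝒜]

/-- a tracial positive functional -/
structure IsTr (T : 𝒜 →L[ℂ] ℂ) : Prop where
  tr : ∀ a b, T (a * b) = T (b * a)
  st : ∀ a, T (star a) = star (T a)
  pos : ∀ a, 0 ≤ (T (star a * a)).re

/-- `- T log (1 - y)` -/
noncomputable def Lam (T : 𝒜 →L[ℂ] ℂ) (y : 𝒜) : ℂ := ∑' k : ℕ, T (y ^ k) / k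

lemma pos_of_nonneg [PartialOrder 𝒜] [StarOrderedRing 𝒜] {T : 𝒜 →L[ℂ] ℂ} (hT : IsTr T) {a : 𝒜}
    (ha : 0 ≤ a) : 0 ≤ (T a).re := by
  rw [StarOrderedRing.nonneg_iff] at ha
  induction ha using AddSubmonoid.closure_induction with
  | mem x hx => obtain ⟨s, rfl⟩ := hx; exact hT.pos s
  | zero => simp
  | add x y _ _ hx hy => rw [map_add, add_re]; exact add_nonneg hx hy

lemma contr {T : 𝒜 →L[ℂ] ℂ} (hT : IsTr T) {y : 𝒜} (hy : ‖y‖ ≤ 1) (w : 𝒜) :
    0 ≤ (T (star w * (1 - star y * y) * w)).re := by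
  let := CStarAlgebra.spectralOrder 𝒜
  have := CStarAlgebra.spectralOrderedRing 𝒜
  refine pos_of_nonneg hT (star_left_conjugate_nonneg ?_ w)
  rw [sub_nonneg, ← CStarAlgebra.norm_le_one_iff_of_nonneg _ (star_mul_self_nonneg y),
    CStarRing.norm_star_mul_self]
  nlinarith [norm_nonneg y]

lemma norm_rot {q : 𝒜} (hq : star q = q) (hqq : q * q = q) {c : ℂ} (hc : ‖c‖ = 1) (x : 𝒜) :
    ‖x * (1 + (c - 1) • q)‖ = ‖x‖ := by
  have hcc : c * star c = 1 := by
    rw [Complex.star_def, mul_conj, normSq_eq_norm_sq, hc]; simp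
  have key : ∀ a b : ℂ, a * b = 1 → (1 + (a - 1) • q) * (1 + (b - 1) • q) = 1 := by
    intro a b hab
    rw [add_mul, mul_add, mul_add, one_mul, one_mul, mul_one, smul_mul_smul_comm, hqq, add_assoc,
      ← add_smul, ← add_smul]
    rw [show b - 1 + (a - 1 + (a - 1) * (b - 1)) = a * b - 1 by ring, hab, sub_self, zero_smul,
      add_zero]
  refine CStarRing.norm_mul_mem_unitary x ?_
  rw [Unitary.mem_iff, star_add, star_one, star_smul, hq, star_sub, star_one]
  exact ⟨key _ _ (by rw [mul_comm, hcc]), key _ _ hcc⟩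

lemma step {T : 𝒜 →L[ℂ] ℂ} (hT : IsTr T) {q : 𝒜} (hq : star q = q) (hqq : q * q = q)
    (hTq : T q = 1) {x : 𝒜} (hx : ‖x‖ < 1) :
    -(Lam T (x * (1 - 2 • q))).im ≤ -(Lam T x).im + Real.pi / 2 := by
  have : Nontrivial 𝒜 := ⟨q, 0, fun h => by simp [h] at hTq⟩
  set y : ℝ → 𝒜 := fun s => x * (1 + (exp (s * I) - 1) • q) with hy
  have hyn : ∀ s, ‖y s‖ = ‖x‖ := fun s => norm_rot hq hqq (norm_exp_ofReal_mul_I s) x
  have hyd : ∀ s, HasDerivAt y (I • (y s * q)) s := by
    intro s
    have h1 : HasDerivAt (fun s : ℝ => exp (s * I) - 1) (exp (s * I) * I) s := by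
      have := ((hasDerivAt_id (s : ℂ)).mul_const I).cexp.comp_ofReal.sub_const 1
      simpa using this
    have h2 := ((h1.smul_const q).const_add 1).const_mul x
    convert h2 using 1
    simp only [hy, mul_assoc, add_mul, one_mul, smul_mul_assoc, hqq]
    rw [← mul_smul_comm]
    congr 1
    module
  have hgd : ∀ (k : ℕ) s, HasDerivAt (fun s => T (y s ^ k) / k)
      (I * T (y s ^ k * q) - if k = 0 then I else 0) s := by
    intro k s
    have h : HasDerivAt (fun s => T (y s ^ k) / k) (T (∑ i ∈ Finset.range k,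
        y s ^ (k.pred - i) * (I • (y s * q)) * y s ^ i) / k) s :=
      ((T.restrictScalars ℝ).hasFDerivAt.comp_hasDerivAt s ((hyd s).fun_pow' k)).div_const (k : ℂ)
    refine h.congr_deriv ?_
    rcases k with _ | k
    · simp [hTq]
    · have : ∀ i ∈ Finset.range (k + 1), T (y s ^ ((k + 1).pred - i) * (I • (y s * q)) * y s ^ i) =
          I * T (y s ^ (k + 1) * q) := by
        intro i hi
        have hi' := Finset.mem_range.1 hi
        rw [hT.tr, ← mul_assoc, ← pow_add, mul_smul_comm, map_smul, ← mul_assoc, ← pow_succ,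
          smul_eq_mul, show i + ((k + 1).pred - i) + 1 = k + 1 by simp; omega]
      rw [map_sum, Finset.sum_congr rfl this]
      have : ((k + 1 : ℕ) : ℂ) ≠ 0 := by exact_mod_cast k.succ_ne_zero
      simp only [Finset.sum_const, Finset.card_range, nsmul_eq_mul, Nat.succ_ne_zero, if_false]
      field_simp
      ring
  have hb : ∀ (k : ℕ) s, ‖I * T (y s ^ k * q) - if k = 0 then I else 0‖ ≤
      ‖T‖ * ‖q‖ * ‖x‖ ^ k := by
    intro k s
    split_ifs with hk
    · subst hk; simp [hTq]; positivity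
    · rw [sub_zero, norm_mul, norm_I, one_mul]
      refine (T.le_opNorm _).trans ?_
      rw [mul_assoc]
      refine mul_le_mul_of_nonneg_left ((norm_mul_le _ _).trans ?_) (norm_nonneg _)
      rw [mul_comm, ← hyn s]
      exact mul_le_mul_of_nonneg_left (norm_pow_le _ _) (norm_nonneg _)
  have hsum : Summable fun k : ℕ => ‖T‖ * ‖q‖ * ‖x‖ ^ k :=
    (summable_geometric_of_lt_one (norm_nonneg _) hx).mul_left _
  have h0 : Summable fun k : ℕ => T (y 0 ^ k) / k := by
    refine Summable.of_norm_bounded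
      ((summable_geometric_of_lt_one (norm_nonneg _) hx).mul_left ‖T‖) fun k => ?_
    rcases k with _ | k
    · simp
    · rw [norm_div]
      refine (div_le_self (norm_nonneg _) ?_).trans ((T.le_opNorm _).trans ?_)
      · rw [Complex.norm_natCast]; exact_mod_cast Nat.le_add_left 1 k
      · rw [← hyn 0]
        exact mul_le_mul_of_nonneg_left (norm_pow_le _ _) (norm_nonneg _)
  have hL := hasDerivAt_tsum hsum hgd hb h0
  have hre : ∀ s, -(∑' k : ℕ, (I * T (y s ^ k * q) - if k = 0 then I else 0)).im ≤ 1 / 2 := by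
    intro s
    have hys : ‖y s‖ < 1 := (hyn s).trans_lt hx
    set b := ∑' k : ℕ, y s ^ k with hbdef
    have hb1 : HasSum (fun k : ℕ => y s ^ k) b := (summable_geometric_of_norm_lt_one hys).hasSum
    have hb2 : HasSum (fun k : ℕ => I * T (y s ^ k * q) - if k = 0 then I else 0)
        (I * T (b * q) - I) :=
      ((T.hasSum (hb1.mul_right q)).mul_left I).sub (hasSum_ite_eq 0 I)
    rw [hb2.tsum_eq]
    have e1 : (1 - y s) * b = 1 := mul_neg_geom_series _ hys
    have e2 : star b * (1 - star (y s)) = 1 := by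
      have := congrArg star e1
      rwa [star_mul, star_sub, star_one] at this
    have e3 : star b * (1 - star (y s) * y s) * b = b + star b - 1 := by
      have : 1 - star (y s) * y s = (1 - star (y s)) + (1 - y s) - (1 - star (y s)) * (1 - y s) := by
        noncomm_ring
      rw [this, mul_sub, mul_add, sub_mul, add_mul, e2, mul_assoc (star b) (1 - y s), e1,
        ← mul_assoc (star b), e2, one_mul, one_mul, mul_one, e1]
    have h := contr hT hys.le (b * q)
    rw [star_mul, hq, show q * star b * (1 - star (y s) * y s) * (b * q) =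
      q * ((star b * (1 - star (y s) * y s) * b) * q) by simp only [mul_assoc], hT.tr, mul_assoc _ q,
      hqq, e3, sub_mul, add_mul, one_mul, map_sub, map_add, hTq] at h
    have e4 : T (star b * q) = star (T (b * q)) := by
      rw [← hT.st, star_mul, hq, hT.tr]
    rw [e4] at h
    simp at h ⊢
    linarith
  have hF : ∀ s, HasDerivAt (fun s => -(Lam T (y s)).im)
      (-(∑' k : ℕ, (I * T (y s ^ k * q) - if k = 0 then I else 0)).im) s := fun s =>
    (imCLM.hasFDerivAt.comp_hasDerivAt s (hL s)).neg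
  have := image_sub_le_mul_sub_of_deriv_le (fun s => (hF s).differentiableAt)
    (fun s => by rw [(hF s).deriv]; exact hre s) Real.pi_pos.le
  have e0 : y 0 = x := by simp [hy]
  have eπ : y Real.pi = x * (1 - 2 • q) := by
    simp only [hy, exp_pi_mul_I]
    congr 1
    module
  simp only [e0, eπ] at this
  linarith

lemma lam_scalar {T : 𝒜 →L[ℂ] ℂ} {y : 𝒜} {z w : ℂ} (hz : ‖z‖ < 1) (hw : ‖w‖ < 1) (L o : ℕ)
    (ho : o ≠ 0) (h : ∀ k : ℕ, T (y ^ k) = L * z ^ k + if o ∣ k then w ^ k else 0) :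
    -(Lam T y).im = L * arg (1 - z) + arg (1 - w ^ o) / o := by
  have hwo : ‖w ^ o‖ < 1 := by
    rw [norm_pow]; exact pow_lt_one₀ (norm_nonneg _) hw ho
  have h1 := (hasSum_taylorSeries_neg_log hz).mul_left (L : ℂ)
  have h2 : HasSum (fun k : ℕ => (if o ∣ k then w ^ k else 0) / (k : ℂ))
      (-log (1 - w ^ o) / o) := by
    rw [← (mul_right_injective₀ ho).hasSum_iff]
    · have e : ((fun k : ℕ => (if o ∣ k then w ^ k else 0) / (k : ℂ)) ∘ fun j => o * j) =
          fun j : ℕ => (w ^ o) ^ j / j / o := by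
        funext j
        simp [pow_mul, div_div, mul_comm (o : ℂ)]
      rw [e]
      exact (hasSum_taylorSeries_neg_log hwo).div_const (o : ℂ)
    · intro k hk
      rw [if_neg, zero_div]
      rintro ⟨j, rfl⟩
      exact hk ⟨j, rfl⟩
  have h3 : Lam T y = L * -log (1 - z) + -log (1 - w ^ o) / o := by
    rw [← (h1.add h2).tsum_eq]
    exact tsum_congr fun k => by rw [h]; ring
  rw [h3]
  simp [log_im, div_natCast_im]
  ring

lemma lam_scalar₀ {T : 𝒜 →L[ℂ] ℂ} {y : 𝒜} {z : ℂ} (hz : ‖z‖ < 1) (L : ℕ)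
    (h : ∀ k : ℕ, k ≠ 0 → T (y ^ k) = L * z ^ k) : -(Lam T y).im = L * arg (1 - z) := by
  have h1 := (hasSum_taylorSeries_neg_log hz).mul_left (L : ℂ)
  have h3 : Lam T y = L * -log (1 - z) := by
    rw [← h1.tsum_eq]
    refine tsum_congr fun k => ?_
    rcases eq_or_ne k 0 with rfl | hk
    · simp
    · rw [h k hk]; ring
  rw [h3]
  simp [log_im]

section mat
variable {A : Type*} [CStarAlgebra A] [PartialOrder A] [StarOrderedRing A] {κ : Type}
  [Fintype κ] [DecidableEq κ]

/-- the trace on matrices -/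
noncomputable def trM (τ : A →L[ℂ] ℂ) : CStarMatrix κ κ A →L[ℂ] ℂ :=
  LinearMap.mkContinuous
    { toFun := fun X => ∑ i, τ (X i i)
      map_add' := fun X Y => by simp [Finset.sum_add_distrib]
      map_smul' := fun c X => by simp [Finset.mul_sum] }
    (Fintype.card κ * ‖τ‖) fun X => by
      refine (norm_sum_le _ _).trans ?_
      refine (Finset.sum_le_sum fun i _ => (τ.le_opNorm _).trans
        (mul_le_mul_of_nonneg_left CStarMatrix.norm_entry_le_norm (norm_nonneg _))).trans ?_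
      simp [mul_assoc]

omit [DecidableEq κ] in
lemma trM_apply (τ : A →L[ℂ] ℂ) (X : CStarMatrix κ κ A) : trM τ X = ∑ i, τ (X i i) := rfl

lemma isTr_trM {τ : A →L[ℂ] ℂ} (h : IsTr τ) : IsTr (trM (κ := κ) τ) where
  tr a b := by
    simp only [trM_apply, CStarMatrix.mul_apply, map_sum]
    rw [Finset.sum_comm]
    exact Finset.sum_congr rfl fun i _ => Finset.sum_congr rfl fun j _ => h.tr _ _
  st a := by simp only [trM_apply, CStarMatrix.star_apply, h.st, star_sum]
  pos a := by
    simp only [trM_apply, CStarMatrix.mul_apply, map_sum, CStarMatrix.star_apply, re_sum]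
    exact Finset.sum_nonneg fun i _ => Finset.sum_nonneg fun j _ => h.pos _

lemma rp_bound {τ : A →L[ℂ] ℂ} (h : IsTr τ) (h1 : τ 1 = 1) {x : CStarMatrix κ κ A} (hx : ‖x‖ < 1)
    {k : ℕ} {X : Matrix κ κ A} (hX : RP k X) :
    ‖x * CStarMatrix.ofMatrixStarAlgEquiv X‖ = ‖x‖ ∧
      -(Lam (trM τ) (x * CStarMatrix.ofMatrixStarAlgEquiv X)).im ≤
        -(Lam (trM τ) x).im + k * (Real.pi / 2) := by
  induction hX with
  | one => simp
  | @mul k X R _ hR ih =>
    obtain ⟨v, hv, rfl⟩ := hR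
    set q : CStarMatrix κ κ A := CStarMatrix.ofMatrixStarAlgEquiv (vecMulVec v (star v)) with hqd
    have hq : star q = q := by
      rw [hqd, ← map_star]
      congr 1
      ext i j
      simp [vecMulVec_apply]
    have hqq : q * q = q := by
      rw [hqd, ← map_mul]
      congr 1
      ext i j
      have : ∑ l, star (v l) * v l = 1 := hv
      simp only [mul_apply, vecMulVec_apply, Pi.star_apply, mul_assoc, ← Finset.mul_sum]
      simp only [← mul_assoc, ← Finset.sum_mul, this, one_mul]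
    have hTq : trM τ q = 1 := by
      have : ∑ l, star (v l) * v l = 1 := hv
      rw [← h1, ← this, map_sum, trM_apply]
      exact Finset.sum_congr rfl fun i _ => h.tr _ _
    rw [map_mul, map_sub, map_one, map_nsmul, ← hqd, ← mul_assoc]
    refine ⟨?_, ?_⟩
    · rw [← ih.1, ← norm_rot hq hqq (c := -1) (by simp) (x * _)]
      congr 2
      module
    · have := step (isTr_trM h) hq hqq hTq (ih.1.trans_lt hx)
      push_cast
      linarith [ih.2]

end mat

end Ph

open Complex in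
/-- `diag (ζ u, ω, …, ω)` in dimension `L + 1` is not a product of `2 L` reflections.

Proof.  Work in the C⋆-algebra `𝒜 = CStarMatrix κ κ A`, `κ = Option ι` (`letI :=
CStarAlgebra.spectralOrder A`, `spectralOrderedRing`), with `T X = ∑ i, τ (X i i)` (continuous by
`CStarMatrix.norm_entry_le_norm`, tracial, `T (star X) = conj (T X)`, `0 ≤ re T (star X * X)`).
State the analytic part for an abstract C⋆-algebra `𝒜` with such a `T`.  For `‖y‖ < 1` let
`Λ y = ∑' k, T (y ^ k) / k` and `ℓ y = - im (Λ y)` (`= im T log (1 - y)`).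
* Step: if `q = star q`, `q * q = q`, `T q = 1`, `‖x‖ < 1`, then `ℓ (x * (1 - 2 • q)) ≤ ℓ x + π/2`.
  Path `y s = x * (1 + (e^{i s} - 1) • q)`, `s ∈ [0, π]`: the factor is unitary, so `‖y s‖ ≤ ‖x‖`;
  `y' = i • y q`; `d/ds T (y^k) = k T (y^(k-1) y') = i k T (y^k q)` (induction on `k` for
  `T (a * y^k)`-type sums, or `HasDerivAt` of `y^k` and the trace property); termwise
  differentiation (`hasDerivAt_tsum`, bound `C ‖x‖^k`) gives `Λ' = i T ((b - 1) q)` with
  `b = ∑' y^k = (1 - y)⁻¹`; so `ℓ' = 1 - re T (q b q)`, and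
  `2 re T (q b q) - 1 = T (star (b q) * (1 - star y * y) * (b q)) ≥ 0` because
  `b + star b - 1 = star b * (1 - star y * y) * b` and `1 - star y * y = star c * c`.
  Hence `ℓ' ≤ 1/2` (`image_le_of_deriv_right_le_deriv_boundary` or monotonicity of `s/2 - ℓ`).
* A reflection of `RP` is `1 - 2 • q` with `q = vecMulVec v (star v)`, `T q = τ (star v ⬝ᵥ v) = 1`,
  and is unitary; so `RP k X` gives `‖z • X‖ < 1` and `ℓ (z • X) ≤ ℓ (z • 1) + k π/2`.
* With `Complex.hasSum_taylorSeries_neg_log`: `ℓ (z • 1) = (L+1) arg (1 - z)` and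
  `ℓ (z • D) = L arg (1 - z ω) + e`, `e = - im ∑ (z ζ)^k [o ∣ k]/k`, which is `0` for `o = 0` and
  `arg (1 - (z ζ)^o)/o ≥ -π/4` for `o ≥ 2` (`|arg| ≤ π/2` on `re ≥ 0`).
* Take `β = π/2 - η`, `η = π/(8 (2L+1))`, `z = 1 - cos β • e^{-i β}` (`|z|² = 1 - cos² β ∈ (0,1)`),
  `ω = conj z / z`.  Then `arg (1 - z) = -β`, `arg (1 - z ω) = β`, and
  `L β - π/4 ≤ -(L+1) β + L π` is false. -/
theorem no_RP {A : Type*} [CStarAlgebra A] (τ : A →L[ℂ] ℂ) (h1 : τ 1 = 1)
    (htr : ∀ a b, τ (a * b) = τ (b * a)) (hst : ∀ a, τ (star a) = star (τ a))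
    (hpos : ∀ a, 0 ≤ (τ (star a * a)).re) (u : unitary A) (o : ℕ) (ho : o ≠ 1)
    (hu : ∀ k : ℕ, τ ((u : A) ^ k) = if o ∣ k then 1 else 0)
    (ι : Type) [Fintype ι] [DecidableEq ι] :
    ∃ ω : Circle, ∀ ζ : Circle, ¬ RP (2 * Fintype.card ι)
      (diagonal fun i : Option ι => i.elim ((ζ : ℂ) • (u : A)) fun _ => algebraMap ℂ A ω) := by
  let := CStarAlgebra.spectralOrder A
  have := CStarAlgebra.spectralOrderedRing A
  have : Nontrivial A := ⟨1, 0, fun h => by simp [h] at h1⟩
  set L := Fintype.card ι with hL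
  have hL0 : (0 : ℝ) ≤ L := Nat.cast_nonneg _
  have hπ := Real.pi_pos
  set η : ℝ := Real.pi / (8 * (2 * L + 1)) with hη
  have hη0 : 0 < η := by positivity
  have hη1 : η * (8 * (2 * L + 1)) = Real.pi := by rw [hη]; field_simp
  have hη2 : η < Real.pi / 2 := by nlinarith
  have hc0 : 0 < Real.cos η := Real.cos_pos_of_mem_Ioo ⟨by linarith, hη2⟩
  have hs0 : 0 < Real.sin η := Real.sin_pos_of_pos_of_lt_pi hη0 (by linarith)
  have hc1 : Real.cos η < 1 := by nlinarith [Real.sin_sq_add_cos_sq η]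
  have harg : ∀ e : ℝ, e = 1 ∨ e = -1 →
      arg (1 - Real.cos η * exp ((e * η : ℝ) * I)) = e * (η - Real.pi / 2) := by
    intro e he
    rw [← arg_mul_cos_add_sin_mul_I hs0 (θ := e * (η - Real.pi / 2))
      (by rcases he with rfl | rfl <;> constructor <;> linarith)]
    congr 1
    rw [exp_mul_I, ← ofReal_cos, ← ofReal_sin, ← ofReal_cos, ← ofReal_sin]
    rcases he with rfl | rfl
    · simp only [one_mul, Real.cos_sub_pi_div_two, Real.sin_sub_pi_div_two]
      apply Complex.ext <;> simp [-ofReal_cos, -ofReal_sin] <;> nlinarith [Real.sin_sq_add_cos_sq η]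
    · simp only [neg_mul, one_mul, Real.cos_neg, Real.sin_neg, Real.cos_sub_pi_div_two,
        Real.sin_sub_pi_div_two]
      apply Complex.ext <;> simp [-ofReal_cos, -ofReal_sin] <;> nlinarith [Real.sin_sq_add_cos_sq η]
  have hn : ∀ t : ℝ, ‖(Real.cos η : ℂ) * exp (t * I)‖ < 1 := fun t => by
    rw [norm_mul, norm_exp_ofReal_mul_I, mul_one, norm_real, Real.norm_of_nonneg hc0.le]
    exact hc1
  refine ⟨Circle.exp (-2 * η), fun ζ hRP => ?_⟩
  set z : ℂ := Real.cos η * exp ((1 * η : ℝ) * I) with hz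
  have hx : ‖z • (1 : CStarMatrix (Option ι) (Option ι) A)‖ < 1 := by
    rw [norm_smul, norm_one, mul_one]; exact hn _
  have key := (Ph.rp_bound ⟨htr, hst, hpos⟩ h1 hx hRP).2
  rw [Ph.lam_scalar₀ (y := z • 1) (hn (1 * η : ℝ)) (L + 1) (fun k _ => by
    rw [smul_pow, one_pow, map_smul, Ph.trM_apply]
    simp [h1, hL, mul_comm, hz]), harg 1 (Or.inl rfl)] at key
  have hzω : z * (Circle.exp (-2 * η) : ℂ) = Real.cos η * exp ((-1 * η : ℝ) * I) := by
    rw [hz, Circle.coe_exp, mul_assoc, ← exp_add]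
    congr 2
    push_cast
    ring
  have hpow : ∀ k : ℕ, Ph.trM τ ((z • (1 : CStarMatrix (Option ι) (Option ι) A) *
      CStarMatrix.ofMatrixStarAlgEquiv (diagonal fun i : Option ι => i.elim ((ζ : ℂ) • (u : A))
        fun _ => algebraMap ℂ A (Circle.exp (-2 * η)))) ^ k) =
      L * (Real.cos η * exp ((-1 * η : ℝ) * I)) ^ k + if o ∣ k then (z * ζ) ^ k else 0 := by
    intro k
    rw [smul_mul_assoc, one_mul, smul_pow, ← map_pow, map_smul, Ph.trM_apply, diagonal_pow,
      Fintype.sum_option, ← hzω]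
    have e : ∀ (d : Option ι → A) i, CStarMatrix.ofMatrixStarAlgEquiv (diagonal d) i i = d i :=
      fun d i => diagonal_apply_eq d i
    simp only [e, Pi.pow_apply, Option.elim_none, Option.elim_some, smul_pow, map_smul, hu,
      Algebra.algebraMap_eq_smul_one, one_pow, h1, smul_eq_mul, Finset.sum_const,
      Finset.card_univ, nsmul_eq_mul, mul_pow]
    split_ifs <;> ring
  have hzζ : ‖z * ζ‖ < 1 := by rw [norm_mul, Circle.norm_coe, mul_one]; exact hn _
  simp only [Nat.cast_add, Nat.cast_mul, Nat.cast_one, Nat.cast_ofNat] at key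
  rcases eq_or_ne o 0 with rfl | ho0
  · rw [Ph.lam_scalar₀ (hn (-1 * η : ℝ)) L (fun k hk => by
      rw [hpow, if_neg (by simpa using hk), add_zero]), harg (-1) (Or.inr rfl)] at key
    nlinarith
  · rw [Ph.lam_scalar (hn (-1 * η : ℝ)) hzζ L o ho0 hpow, harg (-1) (Or.inr rfl)] at key
    have h2 : (2 : ℝ) ≤ o := by exact_mod_cast (by omega : 2 ≤ o)
    have h3 : -(Real.pi / 2) ≤ arg (1 - (z * ζ) ^ o) := by
      refine (abs_le.1 (abs_arg_le_pi_div_two_iff.2 ?_)).1
      have := (abs_le.1 (abs_re_le_norm ((z * ζ) ^ o))).2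
      rw [norm_pow] at this
      have := pow_le_one₀ (n := o) (norm_nonneg _) hzζ.le
      simp only [sub_re, one_re]
      linarith
    have h4 : -(Real.pi / 4) ≤ arg (1 - (z * ζ) ^ o) / o := by
      rw [le_div_iff₀ (by linarith)]
      nlinarith
    nlinarith

end Crest.Agent.R174
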