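import Crest.Agent.R174.Defs

/-! Row 174: homotopy invariance of `∫ η det Df`. -/

set_option autoImplicit false

namespace Crest.Agent.R174

open MeasureTheory Set

/-- The divergence identity for a closed `D`-form on `Fin (D+1) → ℝ`. -/
theorem stokes_box {D : ℕ} (ω : (Fin (D + 1) → ℝ) → (Fin (D + 1) → ℝ) [⋀^Fin D]→L[ℝ] ℝ)
    (hω : Differentiable ℝ ω) {R : ℝ} (hR : 0 ≤ R)
    (h0 : ∀ p : Fin (D + 1) → ℝ, p 0 ∈ Icc (0 : ℝ) 1 → extDeriv ω p (fun i => Pi.single i 1) = 0)
    (hs : ∀ p : Fin (D + 1) → ℝ, p 0 ∈ Icc (0 : ℝ) 1 → R ≤ ‖Fin.tail p‖ → ω p = 0) :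
    ∫ y : Fin D → ℝ, ω (Fin.cons 0 y) (fun j => Pi.single j.succ 1) =
      ∫ y : Fin D → ℝ, ω (Fin.cons 1 y) (fun j => Pi.single j.succ 1) := by
  let a : Fin (D + 1) → ℝ := Fin.cons 0 fun _ => -R
  let b : Fin (D + 1) → ℝ := Fin.cons 1 fun _ => R
  have hab : a ≤ b := fun i => by
    refine Fin.cases ?_ (fun j => ?_) i
    · simp [a, b]
    · simp only [a, b, Fin.cons_succ]; linarith
  let e : Fin (D + 1) → Fin (D + 1) → ℝ := fun i => Pi.single i 1
  have hd : ∀ (v : Fin D → Fin (D + 1) → ℝ), Differentiable ℝ fun p => ω p v := fun v =>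
    hω.continuousAlternatingMap_apply_const v
  have hz : ∀ p ∈ Icc a b, ∑ i : Fin (D + 1),
      ((-1 : ℤ) ^ i.val • fderiv ℝ (fun p => ω p (i.removeNth e)) p) (Pi.single i 1) = 0 := by
    intro p hp
    have := h0 p ⟨hp.1 0, hp.2 0⟩
    rw [extDeriv_apply (hω p)] at this
    simpa using this
  have key := integral_divergence_of_hasFDerivAt_off_countable' a b hab
    (fun i p => (-1 : ℤ) ^ i.val • ω p (i.removeNth e))
    (fun i p => (-1 : ℤ) ^ i.val • fderiv ℝ (fun p => ω p (i.removeNth e)) p) ∅ countable_empty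
    (fun i => ((hd (i.removeNth e)).continuous.const_smul ((-1 : ℤ) ^ i.val)).continuousOn)
    (fun p _ i => (hd (i.removeNth e) p).hasFDerivAt.const_smul ((-1 : ℤ) ^ i.val))
    (integrableOn_zero.congr_fun (fun p hp => (hz p hp).symm) measurableSet_Icc)
  rw [setIntegral_congr_fun measurableSet_Icc hz, integral_zero, Fin.sum_univ_succ] at key
  have hside : ∀ (j : Fin D) (c : ℝ), |c| = R →
      ∫ x in Icc (a ∘ j.succ.succAbove) (b ∘ j.succ.succAbove),
        (-1 : ℤ) ^ j.succ.val • ω (j.succ.insertNth c x) (j.succ.removeNth e) = 0 := by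
    intro j c hc
    refine setIntegral_eq_zero_of_forall_eq_zero fun x hx => ?_
    rw [hs]
    · simp
    · obtain ⟨k, hk⟩ := Fin.exists_succAbove_eq (Fin.succ_ne_zero j).symm
      have h1 := hx.1 k
      have h2 := hx.2 k
      simp only [Function.comp, hk, a, b, Fin.cons_zero] at h1 h2
      rw [← hk, Fin.insertNth_apply_succAbove]
      exact ⟨h1, h2⟩
    · refine le_trans (le_of_eq ?_) (norm_le_pi_norm _ j)
      simp [Fin.tail, hc]
  rw [Finset.sum_eq_zero fun j _ => by
    rw [hside j _ (by simp [b, abs_of_nonneg hR]), hside j _ (by simp [a, abs_of_nonneg hR]),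
      sub_zero], add_zero, eq_comm, sub_eq_zero] at key
  have hface : ∀ t ∈ Icc (0 : ℝ) 1,
      ∫ x in Icc (a ∘ (0 : Fin (D + 1)).succAbove) (b ∘ (0 : Fin (D + 1)).succAbove),
        (-1 : ℤ) ^ (0 : Fin (D + 1)).val • ω ((0 : Fin (D + 1)).insertNth t x)
          ((0 : Fin (D + 1)).removeNth e) =
      ∫ y : Fin D → ℝ, ω (Fin.cons t y) (fun j => Pi.single j.succ 1) := by
    intro t ht
    rw [setIntegral_eq_integral_of_forall_compl_eq_zero]
    · simp only [Fin.val_zero, pow_zero, one_smul, Fin.insertNth_zero']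
      rfl
    · intro x hx
      rw [hs]
      · simp
      · simpa using ht
      · by_contra hlt
        push Not at hlt
        simp only [Fin.insertNth_zero', Fin.tail_cons] at hlt
        refine hx ⟨fun j => ?_, fun j => ?_⟩
        · have := (abs_lt.mp ((norm_le_pi_norm x j).trans_lt hlt)).1
          simpa [a] using this.le
        · have := (abs_lt.mp ((norm_le_pi_norm x j).trans_lt hlt)).2
          simpa [b] using this.le
  rw [← hface 0 ⟨le_rfl, zero_le_one⟩, ← hface 1 ⟨zero_le_one, le_rfl⟩]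
  exact key.symm

/-- Stokes' theorem for the form `η f^* vol` on `[0,1] × X`: pull back the form
`y ↦ y.1 • det ∘ snd` along `(η, f)`, use `extDeriv_pullback` and the divergence theorem. -/
theorem stokes {X : Type*} [NormedAddCommGroup X] [NormedSpace ℝ X] [FiniteDimensional ℝ X]
    [MeasurableSpace X] [BorelSpace X] (μ : Measure X) [μ.IsAddHaarMeasure]
    (η : ℝ × X → ℝ) (f : ℝ × X → X) (hη : ContDiff ℝ 2 η) (hf : ContDiff ℝ 2 f)
    {K : Set X} (hK : IsCompact K) (hs : ∀ t ∈ Icc (0 : ℝ) 1, ∀ x, η (t, x) ≠ 0 → x ∈ K)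
    (hd : ∀ t ∈ Icc (0 : ℝ) 1, ∀ x, ∃ u : ℝ × X, u ≠ 0 ∧ fderiv ℝ η (t, x) u = 0 ∧
      fderiv ℝ f (t, x) u = 0) :
    ∫ x, η (0, x) * (fderiv ℝ (fun y => f (0, y)) x).det ∂μ =
      ∫ x, η (1, x) * (fderiv ℝ (fun y => f (1, y)) x).det ∂μ := by
  set D := Module.finrank ℝ X
  let b := Module.finBasis ℝ X
  obtain ⟨e, he⟩ : ∃ e : (Fin D → ℝ) ≃L[ℝ] X, ∀ j, e (Pi.single j 1) = b j :=
    ⟨b.equivFunL.symm, fun j => by
      rw [ContinuousLinearEquiv.symm_apply_eq]; ext k
      simp [Pi.single_apply, Finsupp.single_apply, eq_comm]⟩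
  obtain ⟨L, hL⟩ : ∃ L : (Fin (D + 1) → ℝ) ≃L[ℝ] ℝ × X, ∀ p, L p = (p 0, e (Fin.tail p)) :=
    ⟨(Fin.consEquivL ℝ fun _ : Fin (D + 1) => ℝ).symm.trans
      ((ContinuousLinearEquiv.refl ℝ ℝ).prodCongr e), fun p => rfl⟩
  obtain ⟨det₀, hdet⟩ : ∃ det₀ : X [⋀^Fin D]→L[ℝ] ℝ, ∀ v, det₀ v = b.det v :=
    ⟨{ b.det with
      cont := by
        show Continuous fun v : Fin D → X => (b.toMatrix v).det
        exact Continuous.matrix_det (continuous_pi fun i => continuous_pi fun j =>
          (b.coord i).continuous_of_finiteDimensional.comp (continuous_apply j)) },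
      fun v => rfl⟩
  let β : ℝ × X → (ℝ × X) [⋀^Fin D]→L[ℝ] ℝ := fun y =>
    y.1 • det₀.compContinuousLinearMap (ContinuousLinearMap.snd ℝ ℝ X)
  have hβ : Differentiable ℝ β := differentiable_fst.smul_const _
  let F : (Fin (D + 1) → ℝ) → ℝ × X := fun p => (η (L p), f (L p))
  have hF : ContDiff ℝ 2 F := (hη.comp L.contDiff).prodMk (hf.comp L.contDiff)
  have hF' : ∀ p u, fderiv ℝ F p u = (fderiv ℝ η (L p) (L u), fderiv ℝ f (L p) (L u)) := by
    intro p u
    have h1 := ((hη.differentiable two_ne_zero (L p)).hasFDerivAt.comp p L.hasFDerivAt).prodMk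
      ((hf.differentiable two_ne_zero (L p)).hasFDerivAt.comp p L.hasFDerivAt)
    rw [show fderiv ℝ F p = _ from h1.fderiv]; rfl
  obtain ⟨R, hR0, hR⟩ := ((hK.image e.symm.continuous).isBounded).exists_pos_norm_lt
  have key := stokes_box (fun p => (β (F p)).compContinuousLinearMap (fderiv ℝ F p))
    (fun p => ((hβ.comp (hF.differentiable two_ne_zero)) p).continuousAlternatingMapCompContinuousLinearMap
      ((hF.fderiv_right (m := 1) le_rfl).differentiable one_ne_zero p)) hR0.le
    (fun p hp => by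
      rw [extDeriv_pullback (hβ _) hF.contDiffAt (by simp),
        ContinuousAlternatingMap.compContinuousLinearMap_apply]
      refine (extDeriv β (F p)).toAlternatingMap.map_linearDependent _ fun hli => ?_
      obtain ⟨u, hu, h1, h2⟩ := hd _ hp (e (Fin.tail p))
      have h3 : fderiv ℝ F p (L.symm u) = 0 := by
        rw [hF', L.apply_symm_apply, hL, h1, h2]; rfl
      have h4 := Fintype.linearIndependent_iff.mp hli (L.symm u) (by
        rw [← h3]
        simp only [Function.comp, ← map_smul, ← map_sum]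
        congr 1
        ext j; simp [Pi.single_apply])
      exact hu (by rw [← L.apply_symm_apply u, funext h4]; exact map_zero L))
    (fun p hp hp' => by
      have h1 : η (L p) = 0 := by
        by_contra h
        rw [hL] at h
        have := hR _ ⟨_, hs _ hp _ h, rfl⟩
        rw [e.symm_apply_apply] at this
        linarith
      ext v
      simp [β, F, h1])
  have hval : ∀ (t : ℝ) (y : Fin D → ℝ),
      (β (F (Fin.cons t y))).compContinuousLinearMap (fderiv ℝ F (Fin.cons t y))
        (fun j => Pi.single j.succ 1) =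
      η (t, e y) * (fderiv ℝ (fun y => f (t, y)) (e y)).det := by
    intro t y
    have h1 : fderiv ℝ (fun y => f (t, y)) (e y) =
        (fderiv ℝ f (t, e y)).comp (ContinuousLinearMap.inr ℝ ℝ X) :=
      ((hf.differentiable two_ne_zero (t, e y)).hasFDerivAt.comp (e y)
        (hasFDerivAt_prodMk_right t (e y))).fderiv
    have h2 : ∀ j : Fin D, L (Pi.single j.succ 1) = (0, b j) := fun j => by
      rw [hL]
      refine Prod.ext (by simp) ?_
      have : Fin.tail (Pi.single j.succ (1 : ℝ) : Fin (D + 1) → ℝ) = Pi.single j 1 := by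
        ext k; simp [Fin.tail, Pi.single_apply]
      rw [this]
      exact he j
    have h3 : L (Fin.cons t y) = (t, e y) := by rw [hL]; simp
    have h4 := b.det_comp ((fderiv ℝ (fun y => f (t, y)) (e y) : X →L[ℝ] X) : X →ₗ[ℝ] X) b
    rw [b.det_self, mul_one] at h4
    rw [ContinuousLinearMap.det, ← h4, h1]
    simp only [β, F, h3, ContinuousAlternatingMap.compContinuousLinearMap_apply,
      ContinuousAlternatingMap.smul_apply, smul_eq_mul]
    rw [hdet]
    congr 2
    ext j
    have h5 := congrArg Prod.snd (hF' (Fin.cons t y) (Pi.single j.succ 1))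
    rw [h2, h3] at h5
    exact h5
  simp only [hval] at key
  have hμ : ∀ G : X → ℝ, ∫ x, G x ∂μ =
      (μ.addHaarScalarFactor (Measure.map e volume) : ℝ) * ∫ y, G (e y) := fun G => by
    conv_lhs => rw [Measure.isAddLeftInvariant_eq_smul μ (Measure.map e volume)]
    rw [integral_smul_nnreal_measure,
      (show MeasurableEmbedding e from e.toHomeomorph.measurableEmbedding).integral_map]
    rfl
  rw [hμ, hμ, key]

end Crest.Agent.R174
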